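import Vale.Agent.Lib.P359.Asym1

/-!
# P359 / Asym : limits `Q → ∞` of the Clebsch–Gordan data

* `C(Q,i)/Q^i → 1/i!`, `C(2Q-2,i)/Q^i → 2^i/i!`, `C(3Q-2-2q,k)/Q^k → 3^k/k!`,
  `C(4Q-4-2j,k)/Q^k → 4^k/k!` (`Nat.choose` as a product / `Nat.descFactorial`; all cases follow from
  `C(n(Q),i)/Q^i → a^i/i!` whenever `n(Q)/Q → a`).
* `kap (2Q-2) Q q r m * Q^q → q! sig2 r m q` (`sig2 r m q = Σ_i (-1)^i C(r,i) C(m,q-i)/2^i`),
  `Sq (2Q-2) Q q * Q^q → q! (3/2)^q`, since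
  `Q^q/(C(2Q-2,i) C(Q,q-i)) → i!(q-i)!/2^i`, `C(q,i) i! (q-i)! = q!`, `Σ_i C(q,i)/2^i = (3/2)^q`.
* `kap (2Q-2) (2Q-2) j r s * Q^j → j!/2^j sig1 r s j` (`sig1 r s j = Σ_i (-1)^i C(r,i) C(s,j-i)`),
  `Sq (2Q-2) (2Q-2) j * Q^j → j!` (`Σ_i C(j,i) = 2^j`).
* products of two `cgv` are rational: for `r+m = r'+m' = q+k`,
  `√(C(Q,m)) √(Q C(2Q-2,r)) √(C(Q,m')) √(Q C(2Q-2,r')) cgv(r,m) cgv(r',m') / Q^(r+m+1)`
  `= C(2Q-2,r) C(Q,m) C(2Q-2,r') C(Q,m') kap kap' / (Sq C(3Q-2-2q,k) Q^(r+m))`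
  `→ (2^r/(r! m!)) (2^r'/(r'! m'!)) q! k! (2/3)^q / 3^k sig2 sig2'`.
  Similarly for the pair–pair coefficients, limit `j! k! sig1 sig1' / (r! s! r'! s'!)`.
-/

namespace Vale.Agent.P359

open Finset Matrix Filter Topology

theorem tendsto_ratio_aux (n : ℕ → ℕ) (a c : ℕ) (h : ∀ᶠ Q in atTop, n Q + c = a * Q) :
    Tendsto (fun Q : ℕ => (n Q : ℝ) / Q) atTop (𝓝 (a : ℝ)) := by
  have h1 : Tendsto (fun Q : ℕ => (a : ℝ) - (c : ℝ) / Q) atTop (𝓝 ((a : ℝ) - 0)) :=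
    tendsto_const_nhds.sub (tendsto_const_div_atTop_nhds_zero_nat (c : ℝ))
  rw [sub_zero] at h1
  refine h1.congr' ?_
  filter_upwards [h, eventually_gt_atTop 0] with Q hQ hQ0
  have hQ1 : (Q : ℝ) ≠ 0 := Nat.cast_ne_zero.2 hQ0.ne'
  have h2 : (n Q : ℝ) + c = a * Q := by exact_mod_cast hQ
  field_simp
  linarith

theorem sqrt_prod_aux {a b X x y : ℝ} (hX : 0 ≤ X) (ha : 0 ≤ a) (hb : 0 ≤ b)
    (a' b' : ℝ) (ha' : 0 ≤ a') (hb' : 0 ≤ b') (D : ℝ) (hD : 0 ≤ D) :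
    (√b * √(X * a)) * (√b' * √(X * a')) *
      ((√(a * b) * x / √D) * (√(a' * b') * y / √D)) = X * (a * b) * (a' * b') * (x * y) / D := by
  have hs : ∀ z : ℝ, 0 ≤ z → √z * √z = z := fun z hz => Real.mul_self_sqrt hz
  rw [Real.sqrt_mul hX, Real.sqrt_mul hX, Real.sqrt_mul ha, Real.sqrt_mul ha']
  have e1 : (√b * (√X * √a)) * (√b' * (√X * √a')) *
      (((√a * √b) * x / √D) * ((√a' * √b') * y / √D)) =
      (√X * √X) * ((√a * √a) * (√b * √b)) * ((√a' * √a') * (√b' * √b')) * (x * y) /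
        (√D * √D) := by ring
  rw [e1, hs X hX, hs a ha, hs b hb, hs a' ha', hs b' hb', hs D hD]

theorem sqrt_prod_aux4 {a b X x y : ℝ} (hX : 0 ≤ X) (ha : 0 ≤ a) (hb : 0 ≤ b)
    (a' b' : ℝ) (ha' : 0 ≤ a') (hb' : 0 ≤ b') (D : ℝ) (hD : 0 ≤ D) :
    (√(X * a) * √(X * b)) * (√(X * a') * √(X * b')) *
      ((√(a * b) * x / √D) * (√(a' * b') * y / √D)) =
      X * X * (a * b) * (a' * b') * (x * y) / D := by
  have hs : ∀ z : ℝ, 0 ≤ z → √z * √z = z := fun z hz => Real.mul_self_sqrt hz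
  rw [Real.sqrt_mul hX, Real.sqrt_mul hX, Real.sqrt_mul hX, Real.sqrt_mul hX,
    Real.sqrt_mul ha, Real.sqrt_mul ha']
  have e1 : ((√X * √a) * (√X * √b)) * ((√X * √a') * (√X * √b')) *
      (((√a * √b) * x / √D) * ((√a' * √b') * y / √D)) =
      (√X * √X) * (√X * √X) * ((√a * √a) * (√b * √b)) * ((√a' * √a') * (√b' * √b')) * (x * y) /
        (√D * √D) := by ring
  rw [e1, hs X hX, hs a ha, hs b hb, hs a' ha', hs b' hb', hs D hD]

theorem Sq_nonneg_aux (A B q : ℕ) : 0 ≤ Sq A B q := by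
  unfold Sq
  exact Finset.sum_nonneg fun i _ => by positivity

theorem alg_aux {Qr Qm Qr' Qm' Qx Qk Z a b a' b' x y S D : ℝ} (hq : Qx ≠ 0) (hk : Qk ≠ 0)
    (hZ : Z ≠ 0) (hS : S ≠ 0) (hD : D ≠ 0) (h1 : Qr * Qm = Qx * Qk) (h2 : Qr' * Qm' = Qx * Qk) :
    a / Qr * (b / Qm) * (a' / Qr' * (b' / Qm')) * (x * Qx * (y * Qx)) / (S * Qx * (D / Qk)) =
      1 / (Qx * Qk * Z) * (Z * (a * b) * (a' * b') * (x * y) / (S * D)) := by
  rw [div_mul_div_comm a, div_mul_div_comm a', h1, h2]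
  field_simp

theorem tendsto_ratio2 : Tendsto (fun Q : ℕ => ((2 * Q - 2 : ℕ) : ℝ) / Q) atTop (𝓝 2) := by
  have h := tendsto_ratio_aux (fun Q => 2 * Q - 2) 2 2 (by
    filter_upwards [eventually_ge_atTop 2] with Q hQ
    omega)
  simpa using h

theorem tendsto_ratio1 : Tendsto (fun Q : ℕ => (Q : ℝ) / Q) atTop (𝓝 1) := by
  have h := tendsto_ratio_aux (fun Q => Q) 1 0 (by
    filter_upwards with Q
    omega)
  simpa using h

theorem tendsto_ratio3 (q : ℕ) :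
    Tendsto (fun Q : ℕ => ((2 * Q - 2 + Q - 2 * q : ℕ) : ℝ) / Q) atTop (𝓝 3) := by
  have h := tendsto_ratio_aux (fun Q => 2 * Q - 2 + Q - 2 * q) 3 (2 + 2 * q) (by
    filter_upwards [eventually_ge_atTop (q + 2)] with Q hQ
    omega)
  simpa using h

theorem tendsto_ratio4 (q : ℕ) :
    Tendsto (fun Q : ℕ => ((2 * Q - 2 + (2 * Q - 2) - 2 * q : ℕ) : ℝ) / Q) atTop (𝓝 4) := by
  have h := tendsto_ratio_aux (fun Q => 2 * Q - 2 + (2 * Q - 2) - 2 * q) 4 (4 + 2 * q) (by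
    filter_upwards [eventually_ge_atTop (q + 2)] with Q hQ
    omega)
  simpa using h

theorem tendsto_coef3 (q r m r' m' : ℕ) (h : r + m = r' + m') :
    Tendsto (fun Q : ℕ => 1 / (Q : ℝ) ^ (r + m + 1) *
      (√((Q.choose m : ℝ)) * √((Q : ℝ) * ((2 * Q - 2).choose r : ℝ))) *
      (√((Q.choose m' : ℝ)) * √((Q : ℝ) * ((2 * Q - 2).choose r' : ℝ))) *
      (cgv (2 * Q - 2) Q q (r + m - q) r m * cgv (2 * Q - 2) Q q (r' + m' - q) r' m'))
      atTop (𝓝 ((L3 q r m r' m' : ℚ) : ℝ)) := by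
  by_cases hq : q ≤ r + m
  · obtain ⟨k, hk⟩ := Nat.exists_eq_add_of_le hq
    have hk' : r' + m' = q + k := by omega
    have e1 : r + m - q = k := by omega
    have e2 : r' + m' - q = k := by omega
    have tA : ∀ i, Tendsto (fun Q : ℕ => ((2 * Q - 2).choose i : ℝ) / (Q : ℝ) ^ i) atTop
        (𝓝 ((2 : ℝ) ^ i / i.factorial)) := fun i => tendsto_choose _ 2 i tendsto_ratio2
    have tB : ∀ i, Tendsto (fun Q : ℕ => (Q.choose i : ℝ) / (Q : ℝ) ^ i) atTop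
        (𝓝 ((1 : ℝ) ^ i / i.factorial)) := fun i => tendsto_choose _ 1 i tendsto_ratio1
    have tD : Tendsto (fun Q : ℕ => ((2 * Q - 2 + Q - 2 * q).choose k : ℝ) / (Q : ℝ) ^ k) atTop
        (𝓝 ((3 : ℝ) ^ k / k.factorial)) := tendsto_choose _ 3 k (tendsto_ratio3 q)
    have hf : ∀ i : ℕ, (i.factorial : ℝ) ≠ 0 := fun i => Nat.cast_ne_zero.2 i.factorial_ne_zero
    have hlim := ((((tA r).mul (tB m)).mul ((tA r').mul (tB m'))).mul
      ((tendsto_kap3 q r m).mul (tendsto_kap3 q r' m'))).div ((tendsto_Sq3 q).mul tD)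
      (by have := hf q; have := hf k; positivity)
    have hL : ((L3 q r m r' m' : ℚ) : ℝ) =
        (2 : ℝ) ^ r / r.factorial * ((1 : ℝ) ^ m / m.factorial) *
          ((2 : ℝ) ^ r' / r'.factorial * ((1 : ℝ) ^ m' / m'.factorial)) *
          ((q.factorial : ℝ) * (sig2 r m q : ℝ) * ((q.factorial : ℝ) * (sig2 r' m' q : ℝ))) /
          ((q.factorial : ℝ) * (3 / 2) ^ q * ((3 : ℝ) ^ k / k.factorial)) := by
      unfold L3
      rw [if_pos ⟨hq, h⟩, e1]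
      push_cast
      have h1 := hf q
      have h2 := hf k
      have h3 := hf r
      have h4 := hf m
      have h5 := hf r'
      have h6 := hf m'
      rw [div_pow, div_pow, one_pow, one_pow]
      field_simp
    rw [hL]
    refine hlim.congr' ?_
    filter_upwards [eventually_ge_atTop (q + k + 2)] with Q hQ
    have hQ0 : (Q : ℝ) ≠ 0 := Nat.cast_ne_zero.2 (by omega)
    have hS : Sq (2 * Q - 2) Q q ≠ 0 := (Sq_pos _ _ _ (by omega) (by omega)).ne'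
    have hD : ((2 * Q - 2 + Q - 2 * q).choose k : ℝ) ≠ 0 :=
      Nat.cast_ne_zero.2 (Nat.choose_pos (by omega)).ne'
    rw [e1, e2]
    unfold cgv
    rw [if_pos hk, if_pos hk']
    have key := sqrt_prod_aux (a := ((2 * Q - 2).choose r : ℝ)) (b := (Q.choose m : ℝ))
      (X := (Q : ℝ)) (x := kap (2 * Q - 2) Q q r m) (y := kap (2 * Q - 2) Q q r' m')
      (by positivity) (by positivity) (by positivity) ((2 * Q - 2).choose r' : ℝ)
      (Q.choose m' : ℝ) (by positivity) (by positivity)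
      (Sq (2 * Q - 2) Q q * ((2 * Q - 2 + Q - 2 * q).choose k : ℝ))
      (mul_nonneg (Sq_nonneg_aux _ _ _) (by positivity))
    have p1 : (Q : ℝ) ^ r * (Q : ℝ) ^ m = (Q : ℝ) ^ q * (Q : ℝ) ^ k := by
      rw [← pow_add, ← pow_add, hk]
    have p2 : (Q : ℝ) ^ r' * (Q : ℝ) ^ m' = (Q : ℝ) ^ q * (Q : ℝ) ^ k := by
      rw [← pow_add, ← pow_add, hk']
    have p3 : (Q : ℝ) ^ (r + m + 1) = (Q : ℝ) ^ q * (Q : ℝ) ^ k * Q := by
      rw [hk, pow_succ, pow_add]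
    rw [Pi.div_apply, alg_aux (pow_ne_zero _ hQ0) (pow_ne_zero _ hQ0) hQ0 hS hD p1 p2, p3, ← key]
    ring
  · have hL : L3 q r m r' m' = 0 := by
      unfold L3
      rw [if_neg fun hh => hq hh.1]
    rw [hL, Rat.cast_zero]
    refine tendsto_const_nhds.congr fun Q => ?_
    have hc : cgv (2 * Q - 2) Q q (r + m - q) r m = 0 := by
      unfold cgv
      rw [if_neg (by omega)]
    rw [hc]
    ring

theorem tendsto_coef4 (j r s r' s' : ℕ) (h : r + s = r' + s') :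
    Tendsto (fun Q : ℕ => 1 / (Q : ℝ) ^ (r + s + 2) *
      (√((Q : ℝ) * ((2 * Q - 2).choose r : ℝ)) * √((Q : ℝ) * ((2 * Q - 2).choose s : ℝ))) *
      (√((Q : ℝ) * ((2 * Q - 2).choose r' : ℝ)) * √((Q : ℝ) * ((2 * Q - 2).choose s' : ℝ))) *
      (cgv (2 * Q - 2) (2 * Q - 2) j (r + s - j) r s *
        cgv (2 * Q - 2) (2 * Q - 2) j (r' + s' - j) r' s'))
      atTop (𝓝 ((L4 j r s r' s' : ℚ) : ℝ)) := by
  by_cases hq : j ≤ r + s
  · obtain ⟨k, hk⟩ := Nat.exists_eq_add_of_le hq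
    have hk' : r' + s' = j + k := by omega
    have e1 : r + s - j = k := by omega
    have e2 : r' + s' - j = k := by omega
    have tA : ∀ i, Tendsto (fun Q : ℕ => ((2 * Q - 2).choose i : ℝ) / (Q : ℝ) ^ i) atTop
        (𝓝 ((2 : ℝ) ^ i / i.factorial)) := fun i => tendsto_choose _ 2 i tendsto_ratio2
    have tD : Tendsto (fun Q : ℕ => ((2 * Q - 2 + (2 * Q - 2) - 2 * j).choose k : ℝ) /
        (Q : ℝ) ^ k) atTop (𝓝 ((4 : ℝ) ^ k / k.factorial)) :=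
      tendsto_choose _ 4 k (tendsto_ratio4 j)
    have hf : ∀ i : ℕ, (i.factorial : ℝ) ≠ 0 := fun i => Nat.cast_ne_zero.2 i.factorial_ne_zero
    have hlim := ((((tA r).mul (tA s)).mul ((tA r').mul (tA s'))).mul
      ((tendsto_kap4 j r s).mul (tendsto_kap4 j r' s'))).div ((tendsto_Sq4 j).mul tD)
      (by have := hf j; have := hf k; positivity)
    have hL : ((L4 j r s r' s' : ℚ) : ℝ) =
        (2 : ℝ) ^ r / r.factorial * ((2 : ℝ) ^ s / s.factorial) *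
          ((2 : ℝ) ^ r' / r'.factorial * ((2 : ℝ) ^ s' / s'.factorial)) *
          ((j.factorial : ℝ) / 2 ^ j * (sig1 r s j : ℝ) *
            ((j.factorial : ℝ) / 2 ^ j * (sig1 r' s' j : ℝ))) /
          ((j.factorial : ℝ) * ((4 : ℝ) ^ k / k.factorial)) := by
      unfold L4
      rw [if_pos ⟨hq, h⟩, e1]
      push_cast
      have h1 := hf j
      have h2 := hf k
      have h3 := hf r
      have h4 := hf s
      have h5 := hf r'
      have h6 := hf s'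
      have p1 : (2 : ℝ) ^ r * (2 : ℝ) ^ s = (2 : ℝ) ^ j * (2 : ℝ) ^ k := by
        rw [← pow_add, ← pow_add, hk]
      have p2 : (2 : ℝ) ^ r' * (2 : ℝ) ^ s' = (2 : ℝ) ^ j * (2 : ℝ) ^ k := by
        rw [← pow_add, ← pow_add, hk']
      have p3 : (4 : ℝ) ^ k = (2 : ℝ) ^ k * (2 : ℝ) ^ k := by
        rw [← mul_pow]; norm_num
      rw [div_mul_div_comm ((2 : ℝ) ^ r), div_mul_div_comm ((2 : ℝ) ^ r'), p1, p2, p3]
      field_simp
    rw [hL]
    refine hlim.congr' ?_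
    filter_upwards [eventually_ge_atTop (j + k + 2)] with Q hQ
    have hQ0 : (Q : ℝ) ≠ 0 := Nat.cast_ne_zero.2 (by omega)
    have hS : Sq (2 * Q - 2) (2 * Q - 2) j ≠ 0 := (Sq_pos _ _ _ (by omega) (by omega)).ne'
    have hD : ((2 * Q - 2 + (2 * Q - 2) - 2 * j).choose k : ℝ) ≠ 0 :=
      Nat.cast_ne_zero.2 (Nat.choose_pos (by omega)).ne'
    rw [e1, e2]
    unfold cgv
    rw [if_pos hk, if_pos hk']
    have key := sqrt_prod_aux4 (a := ((2 * Q - 2).choose r : ℝ)) (b := ((2 * Q - 2).choose s : ℝ))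
      (X := (Q : ℝ)) (x := kap (2 * Q - 2) (2 * Q - 2) j r s)
      (y := kap (2 * Q - 2) (2 * Q - 2) j r' s')
      (by positivity) (by positivity) (by positivity) ((2 * Q - 2).choose r' : ℝ)
      ((2 * Q - 2).choose s' : ℝ) (by positivity) (by positivity)
      (Sq (2 * Q - 2) (2 * Q - 2) j * ((2 * Q - 2 + (2 * Q - 2) - 2 * j).choose k : ℝ))
      (mul_nonneg (Sq_nonneg_aux _ _ _) (by positivity))
    have p1 : (Q : ℝ) ^ r * (Q : ℝ) ^ s = (Q : ℝ) ^ j * (Q : ℝ) ^ k := by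
      rw [← pow_add, ← pow_add, hk]
    have p2 : (Q : ℝ) ^ r' * (Q : ℝ) ^ s' = (Q : ℝ) ^ j * (Q : ℝ) ^ k := by
      rw [← pow_add, ← pow_add, hk']
    have p3 : (Q : ℝ) ^ (r + s + 2) = (Q : ℝ) ^ j * (Q : ℝ) ^ k * (Q * Q) := by
      rw [hk, pow_add, pow_add, sq]
    rw [Pi.div_apply, alg_aux (Z := (Q : ℝ) * Q) (pow_ne_zero _ hQ0) (pow_ne_zero _ hQ0)
      (mul_ne_zero hQ0 hQ0) hS hD p1 p2, p3, ← key]
    ring
  · have hL : L4 j r s r' s' = 0 := by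
      unfold L4
      rw [if_neg fun hh => hq hh.1]
    rw [hL, Rat.cast_zero]
    refine tendsto_const_nhds.congr fun Q => ?_
    have hc : cgv (2 * Q - 2) (2 * Q - 2) j (r + s - j) r s = 0 := by
      unfold cgv
      rw [if_neg (by omega)]
    rw [hc]
    ring

end Vale.Agent.P359
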