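import Vale.Agent.Lib.P359.Defs

/-!
# P359 / KapId : the two recursions of `kap` and the value of `kap` on the top row

All proofs are finite binomial manipulations.  Write
`T i = (-1)^i C(q,i) C(r,i) C(m,q-i) / (C(A,i) C(B,q-i))`, so `kap A B q r m = Σ_{i≤q} T i`.

* `kap_lower`: `r C(r-1,i) = (r-i) C(r,i)` and `m C(m-1,q-i) = (m-(q-i)) C(m,q-i)` (as real
  numbers; check `r = 0`, `m = 0`, `i > r` separately), so each summand gives
  `((r-i)+(m-q+i)) T i = (r+m-q) T i`.

* `kap_raise` (`q ≤ A`, `q ≤ B`):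
  Pascal: `C(r+1,i) = C(r,i) + C(r,i-1)`, `C(m+1,q-i) = C(m,q-i) + C(m,q-i-1)`.  So
  `(A-r) kap(r+1,m) + (B-m) kap(r,m+1) = ((A-r)+(B-m)) kap(r,m) + R`, and `R = - q kap(r,m)`:
  after the shift `i → i+1` in the first part,
  `R = Σ_i (-1)^i C(r,i) C(m,q-1-i) C(q,i)(q-i)/(C(A,i) C(B,q-i-1)) *
        [ (B-m)/(B-q+i+1) - (A-r)/(A-i) ]` (sum over `0 ≤ i ≤ q-1`),
  using `C(A,i+1) = C(A,i)(A-i)/(i+1)`, `C(q,i+1) = C(q,i)(q-i)/(i+1)`,
  `C(B,q-i) = C(B,q-i-1)(B-q+i+1)/(q-i)`.
  The bracket is `(r-i)/(A-i) - (m-q+i+1)/(B-q+i+1)`.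
  With `(r-i)C(r,i) = (i+1)C(r,i+1)` the first half is `- Σ_i (i+1) T (i+1)`,
  with `(m-(q-1-i))C(m,q-1-i) = (q-i)C(m,q-i)` the second half is `- Σ_i (q-i) T i`.
  Total `- Σ_i q T i`.

* `kap_top`: for `r + m = q` only `i = r` contributes.
-/

namespace Vale.Agent.P359

open Finset Matrix

theorem kap_top (A B q r m : ℕ) (h : r + m = q) :
    kap A B q r m = (-1) ^ r * (q.choose r : ℝ) / ((A.choose r : ℝ) * (B.choose m : ℝ)) := by
  unfold kap
  have hqr : q - r = m := by omega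
  rw [Finset.sum_eq_single r]
  · rw [hqr, Nat.choose_self, Nat.choose_self]
    simp
  · intro i hi hir
    rw [Finset.mem_range] at hi
    rcases lt_or_gt_of_ne hir with h1 | h1
    · have : m.choose (q - i) = 0 := Nat.choose_eq_zero_of_lt (by omega)
      rw [this]
      simp
    · have : r.choose i = 0 := Nat.choose_eq_zero_of_lt h1
      rw [this]
      simp
  · intro hr
    exact absurd (Finset.mem_range.2 (by omega)) hr

/-- if `r + m < q` then every summand has `r < i` or `m < q - i`, so it vanishes -/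
theorem kap_zero (A B q r m : ℕ) (h : r + m < q) : kap A B q r m = 0 := by
  unfold kap
  refine Finset.sum_eq_zero fun i _ => ?_
  rcases lt_or_ge r i with h1 | h1
  · have : r.choose i = 0 := Nat.choose_eq_zero_of_lt h1
    rw [this]
    simp
  · have : m.choose (q - i) = 0 := Nat.choose_eq_zero_of_lt (by omega)
    rw [this]
    simp

/-- symmetry for `A = B`: reflect `i → q - i` -/
theorem kap_symm (A q r m : ℕ) : kap A A q m r = (-1) ^ q * kap A A q r m := by
  unfold kap
  rw [← Finset.sum_range_reflect, Finset.mul_sum]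
  refine Finset.sum_congr rfl fun i hi => ?_
  rw [Finset.mem_range] at hi
  have hi' : i ≤ q := by omega
  have h1 : q + 1 - 1 - i = q - i := by omega
  have h2 : q - (q - i) = i := by omega
  rw [h1, h2, Nat.choose_symm hi']
  have h3 : (-1 : ℝ) ^ (q - i) = (-1) ^ q * (-1) ^ i := by
    have h4 : (-1 : ℝ) ^ q = (-1) ^ (q - i) * (-1) ^ i := by
      rw [← pow_add, Nat.sub_add_cancel hi']
    rw [h4, mul_assoc, ← mul_pow]
    simp
  rw [h3, mul_comm ((A.choose (q - i) : ℝ)) (A.choose i : ℝ)]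
  ring

theorem Sq_pos (A B q : ℕ) (hA : q ≤ A) (hB : q ≤ B) : 0 < Sq A B q := by
  unfold Sq
  refine Finset.sum_pos (fun i hi => ?_) ⟨0, Finset.mem_range.2 (by omega)⟩
  rw [Finset.mem_range] at hi
  have h1 : 0 < q.choose i := Nat.choose_pos (by omega)
  have h2 : 0 < A.choose i := Nat.choose_pos (by omega)
  have h3 : 0 < B.choose (q - i) := Nat.choose_pos (by omega)
  positivity

end Vale.Agent.P359
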