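import Vale.Agent.Lib.P359.AsymDef
import Vale.Agent.Lib.P359.KapTop

/-!
# P359 / Asym : limits `Q → ∞` of the Clebsch–Gordan data

* `C(Q,i)/Q^i → 1/i!`, `C(2Q-2,i)/Q^i → 2^i/i!`, `C(3Q-2-2q,k)/Q^k → 3^k/k!`,
  `C(4Q-4-2j,k)/Q^k → 4^k/k!` (`Nat.choose` as a product / `Nat.descFactorial`; all cases follow from
  `C(n(Q),i)/Q^i → a^i/i!` whenever `n(Q)/Q → a`).
* `kap (2Q-2) Q q r m * Q^q → q! sig2 r m q` (`sig2 r m q = Σ_i (-1)^i C(r,i) C(m,q-i)/2^i`),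
  `Sq (2Q-2) Q q * Q^q → q! (3/2)^q`, since
  `Q^q/(C(2Q-2,i) C(Q,q-i)) → i!(q-i)!/2^i`, `C(q,i) i! (q-i)! = q!`, `Σ_i C(q,i)/2^i = (3/2)^q`.
* `kap (2Q-2) (2Q-2) j r s * Q^j → j!/2^j sig1 r s j` (`sig1 r s j = Σ_i (-1)^i C(r,i) C(s,j-i)`),
  `Sq (2Q-2) (2Q-2) j * Q^j → j!` (`Σ_i C(j,i) = 2^j`).
* products of two `cgv` are rational: for `r+m = r'+m' = q+k`,
  `√(C(Q,m)) √(Q C(2Q-2,r)) √(C(Q,m')) √(Q C(2Q-2,r')) cgv(r,m) cgv(r',m') / Q^(r+m+1)`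
  `= C(2Q-2,r) C(Q,m) C(2Q-2,r') C(Q,m') kap kap' / (Sq C(3Q-2-2q,k) Q^(r+m))`
  `→ (2^r/(r! m!)) (2^r'/(r'! m'!)) q! k! (2/3)^q / 3^k sig2 sig2'`.
  Similarly for the pair–pair coefficients, limit `j! k! sig1 sig1' / (r! s! r'! s'!)`.
-/

namespace Vale.Agent.P359

open Finset Matrix Filter Topology

theorem tendsto_choose (n : ℕ → ℕ) (a : ℝ) (i : ℕ)
    (h : Tendsto (fun Q : ℕ => (n Q : ℝ) / Q) atTop (𝓝 a)) :
    Tendsto (fun Q : ℕ => ((n Q).choose i : ℝ) / (Q : ℝ) ^ i) atTop (𝓝 (a ^ i / i.factorial)) := by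
  induction i with
  | zero => simp
  | succ i ih =>
    have h1 : Tendsto (fun Q : ℕ => ((i : ℕ) : ℝ) / (Q : ℝ)) atTop (𝓝 0) :=
      tendsto_const_div_atTop_nhds_zero_nat _
    have h2 := (ih.mul (h.sub h1)).div_const ((i : ℝ) + 1)
    have e : a ^ i / (i.factorial : ℝ) * (a - 0) / ((i : ℝ) + 1) =
        a ^ (i + 1) / ((i + 1).factorial : ℝ) := by
      rw [Nat.factorial_succ]
      push_cast
      have hi : (i.factorial : ℝ) ≠ 0 := by exact_mod_cast i.factorial_ne_zero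
      have hi1 : (i : ℝ) + 1 ≠ 0 := by positivity
      field_simp
      ring
    rw [e] at h2
    refine h2.congr' ?_
    filter_upwards [eventually_gt_atTop 0] with Q hQ
    have hQ0 : (Q : ℝ) ≠ 0 := by exact_mod_cast hQ.ne'
    have hc : ((n Q).choose (i + 1) : ℝ) * ((i : ℝ) + 1) =
        ((n Q).choose i : ℝ) * ((n Q : ℝ) - i) := by
      have h3 := Nat.choose_succ_right_eq (n Q) i
      rcases le_or_gt i (n Q) with hle | hlt
      · have h4 : (((n Q).choose (i + 1) * (i + 1) : ℕ) : ℝ) =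
            (((n Q).choose i * (n Q - i) : ℕ) : ℝ) := by rw [h3]
        rw [Nat.cast_mul, Nat.cast_mul, Nat.cast_sub hle] at h4
        push_cast at h4
        exact h4
      · rw [Nat.choose_eq_zero_of_lt hlt, Nat.choose_eq_zero_of_lt (Nat.lt_succ_of_lt hlt)]
        simp
    have hi1 : (i : ℝ) + 1 ≠ 0 := by positivity
    rw [div_mul_eq_mul_div, div_div, div_eq_div_iff (by positivity) (by positivity)]
    have e2 : ((n Q).choose i : ℝ) * ((n Q : ℝ) / Q - i / Q) * (Q : ℝ) ^ (i + 1) =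
        ((n Q).choose i : ℝ) * ((n Q : ℝ) - i) * (Q : ℝ) ^ i := by
      field_simp
      try ring
    rw [e2, ← hc]
    ring

theorem asym1_of_eq {f : ℕ → ℝ} {x y : ℝ} (h : Tendsto f atTop (𝓝 x)) (e : x = y) :
    Tendsto f atTop (𝓝 y) := e ▸ h

/-- inverse binomial coefficients -/
theorem asym1_inv (n : ℕ → ℕ) (a : ℝ) (ha : a ≠ 0) (i : ℕ)
    (h : Tendsto (fun Q : ℕ => (n Q : ℝ) / Q) atTop (𝓝 a)) :
    Tendsto (fun Q : ℕ => (Q : ℝ) ^ i / ((n Q).choose i : ℝ)) atTop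
      (𝓝 ((i.factorial : ℝ) / a ^ i)) := by
  have hi : (i.factorial : ℝ) ≠ 0 := by exact_mod_cast i.factorial_ne_zero
  have h1 := (tendsto_choose n a i h).inv₀ (div_ne_zero (pow_ne_zero i ha) hi)
  simp only [inv_div] at h1
  exact h1

theorem asym1_pair (A B : ℕ → ℕ) (a b : ℝ) (ha : a ≠ 0) (hb : b ≠ 0) (q i : ℕ) (hi : i ≤ q)
    (hA : Tendsto (fun Q : ℕ => (A Q : ℝ) / Q) atTop (𝓝 a))
    (hB : Tendsto (fun Q : ℕ => (B Q : ℝ) / Q) atTop (𝓝 b)) (c : ℝ) :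
    Tendsto (fun Q : ℕ => c / (((A Q).choose i : ℝ) * ((B Q).choose (q - i) : ℝ)) * (Q : ℝ) ^ q)
      atTop (𝓝 (c * ((i.factorial : ℝ) / a ^ i * (((q - i).factorial : ℝ) / b ^ (q - i))))) := by
  have h1 := ((asym1_inv A a ha i hA).mul (asym1_inv B b hb (q - i) hB)).const_mul c
  refine h1.congr fun Q => ?_
  have e : (Q : ℝ) ^ q = (Q : ℝ) ^ i * (Q : ℝ) ^ (q - i) := by
    rw [← pow_add, Nat.add_sub_cancel' hi]
  rw [e, div_mul_div_comm, mul_div_assoc', div_mul_eq_mul_div]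

theorem asym1_fact (q i : ℕ) (hi : i ≤ q) :
    (q.choose i : ℝ) * ((i.factorial : ℝ) * ((q - i).factorial : ℝ)) = (q.factorial : ℝ) := by
  have := Nat.choose_mul_factorial_mul_factorial hi
  rw [← mul_assoc]
  exact_mod_cast this

theorem asym1_kap (A B : ℕ → ℕ) (a b : ℝ) (ha : a ≠ 0) (hb : b ≠ 0) (q r m : ℕ)
    (hA : Tendsto (fun Q : ℕ => (A Q : ℝ) / Q) atTop (𝓝 a))
    (hB : Tendsto (fun Q : ℕ => (B Q : ℝ) / Q) atTop (𝓝 b)) :
    Tendsto (fun Q : ℕ => kap (A Q) (B Q) q r m * (Q : ℝ) ^ q) atTop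
      (𝓝 ((q.factorial : ℝ) * ∑ i ∈ range (q + 1), (-1 : ℝ) ^ i * (r.choose i : ℝ) *
        (m.choose (q - i) : ℝ) / (a ^ i * b ^ (q - i)))) := by
  unfold kap
  simp only [Finset.sum_mul, Finset.mul_sum]
  refine tendsto_finsetSum _ fun i hi => ?_
  have hi' : i ≤ q := Nat.lt_succ_iff.1 (Finset.mem_range.1 hi)
  have h := asym1_pair A B a b ha hb q i hi' hA hB
    ((-1 : ℝ) ^ i * (q.choose i : ℝ) * (r.choose i : ℝ) * (m.choose (q - i) : ℝ))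
  refine asym1_of_eq h ?_
  rw [← asym1_fact q i hi', div_mul_div_comm]
  ring

theorem asym1_Sq (A B : ℕ → ℕ) (a b : ℝ) (ha : a ≠ 0) (hb : b ≠ 0) (q : ℕ)
    (hA : Tendsto (fun Q : ℕ => (A Q : ℝ) / Q) atTop (𝓝 a))
    (hB : Tendsto (fun Q : ℕ => (B Q : ℝ) / Q) atTop (𝓝 b)) :
    Tendsto (fun Q : ℕ => Sq (A Q) (B Q) q * (Q : ℝ) ^ q) atTop
      (𝓝 ((q.factorial : ℝ) * (1 / a + 1 / b) ^ q)) := by
  unfold Sq
  rw [add_pow]
  simp only [Finset.sum_mul, Finset.mul_sum]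
  refine tendsto_finsetSum _ fun i hi => ?_
  have hi' : i ≤ q := Nat.lt_succ_iff.1 (Finset.mem_range.1 hi)
  have h := asym1_pair A B a b ha hb q i hi' hA hB ((q.choose i : ℝ) ^ 2)
  refine asym1_of_eq h ?_
  rw [← asym1_fact q i hi', div_mul_div_comm, div_pow, div_pow, one_pow, one_pow]
  ring

theorem asym1_two : Tendsto (fun Q : ℕ => ((2 * Q - 2 : ℕ) : ℝ) / Q) atTop (𝓝 2) := by
  have h1 : Tendsto (fun Q : ℕ => (2 : ℝ) - 2 / (Q : ℝ)) atTop (𝓝 (2 - 0)) :=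
    tendsto_const_nhds.sub (tendsto_const_div_atTop_nhds_zero_nat _)
  rw [sub_zero] at h1
  refine h1.congr' ?_
  filter_upwards [eventually_gt_atTop 0] with Q hQ
  have hQ0 : (Q : ℝ) ≠ 0 := by exact_mod_cast hQ.ne'
  have h2 : 2 ≤ 2 * Q := by omega
  rw [Nat.cast_sub h2]
  push_cast
  field_simp

theorem asym1_one : Tendsto (fun Q : ℕ => (Q : ℝ) / Q) atTop (𝓝 1) := by
  refine tendsto_const_nhds.congr' ?_
  filter_upwards [eventually_gt_atTop 0] with Q hQ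
  have hQ0 : (Q : ℝ) ≠ 0 := by exact_mod_cast hQ.ne'
  exact (div_self hQ0).symm

theorem tendsto_kap3 (q r m : ℕ) :
    Tendsto (fun Q : ℕ => kap (2 * Q - 2) Q q r m * (Q : ℝ) ^ q) atTop
      (𝓝 ((q.factorial : ℝ) * (sig2 r m q : ℝ))) := by
  have h := asym1_kap (fun Q => 2 * Q - 2) (fun Q => Q) 2 1 two_ne_zero one_ne_zero q r m
    asym1_two asym1_one
  refine asym1_of_eq h ?_
  congr 1
  unfold sig2
  push_cast
  refine Finset.sum_congr rfl fun i _ => ?_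
  rw [one_pow, mul_one]

theorem tendsto_Sq3 (q : ℕ) :
    Tendsto (fun Q : ℕ => Sq (2 * Q - 2) Q q * (Q : ℝ) ^ q) atTop
      (𝓝 ((q.factorial : ℝ) * (3 / 2) ^ q)) := by
  have h := asym1_Sq (fun Q => 2 * Q - 2) (fun Q => Q) 2 1 two_ne_zero one_ne_zero q
    asym1_two asym1_one
  refine asym1_of_eq h ?_
  norm_num

theorem tendsto_kap4 (j r s : ℕ) :
    Tendsto (fun Q : ℕ => kap (2 * Q - 2) (2 * Q - 2) j r s * (Q : ℝ) ^ j) atTop
      (𝓝 ((j.factorial : ℝ) / 2 ^ j * (sig1 r s j : ℝ))) := by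
  have h := asym1_kap (fun Q => 2 * Q - 2) (fun Q => 2 * Q - 2) 2 2 two_ne_zero two_ne_zero j r s
    asym1_two asym1_two
  refine asym1_of_eq h ?_
  unfold sig1
  push_cast
  rw [div_mul_eq_mul_div, mul_div_assoc, Finset.sum_div]
  congr 1
  refine Finset.sum_congr rfl fun i hi => ?_
  have hi' : i ≤ j := Nat.lt_succ_iff.1 (Finset.mem_range.1 hi)
  rw [← pow_add, Nat.add_sub_cancel' hi']

theorem tendsto_Sq4 (j : ℕ) :
    Tendsto (fun Q : ℕ => Sq (2 * Q - 2) (2 * Q - 2) j * (Q : ℝ) ^ j) atTop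
      (𝓝 (j.factorial : ℝ)) := by
  have h := asym1_Sq (fun Q => 2 * Q - 2) (fun Q => 2 * Q - 2) 2 2 two_ne_zero two_ne_zero j
    asym1_two asym1_two
  refine asym1_of_eq h ?_
  norm_num

end Vale.Agent.P359
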