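import Vale.Agent.Lib.P359.Defs

/-!
# P359 / Asym : limits `Q → ∞` of the Clebsch–Gordan data

* `C(Q,i)/Q^i → 1/i!`, `C(2Q-2,i)/Q^i → 2^i/i!`, `C(3Q-2-2q,k)/Q^k → 3^k/k!`,
  `C(4Q-4-2j,k)/Q^k → 4^k/k!` (`Nat.choose` as a product / `Nat.descFactorial`; all cases follow from
  `C(n(Q),i)/Q^i → a^i/i!` whenever `n(Q)/Q → a`).
* `kap (2Q-2) Q q r m * Q^q → q! sig2 r m q` (`sig2 r m q = Σ_i (-1)^i C(r,i) C(m,q-i)/2^i`),
  `Sq (2Q-2) Q q * Q^q → q! (3/2)^q`, since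
  `Q^q/(C(2Q-2,i) C(Q,q-i)) → i!(q-i)!/2^i`, `C(q,i) i! (q-i)! = q!`, `Σ_i C(q,i)/2^i = (3/2)^q`.
* `kap (2Q-2) (2Q-2) j r s * Q^j → j!/2^j sig1 r s j` (`sig1 r s j = Σ_i (-1)^i C(r,i) C(s,j-i)`),
  `Sq (2Q-2) (2Q-2) j * Q^j → j!` (`Σ_i C(j,i) = 2^j`).
* products of two `cgv` are rational: for `r+m = r'+m' = q+k`,
  `√(C(Q,m)) √(Q C(2Q-2,r)) √(C(Q,m')) √(Q C(2Q-2,r')) cgv(r,m) cgv(r',m') / Q^(r+m+1)`
  `= C(2Q-2,r) C(Q,m) C(2Q-2,r') C(Q,m') kap kap' / (Sq C(3Q-2-2q,k) Q^(r+m))`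
  `→ (2^r/(r! m!)) (2^r'/(r'! m'!)) q! k! (2/3)^q / 3^k sig2 sig2'`.
  Similarly for the pair–pair coefficients, limit `j! k! sig1 sig1' / (r! s! r'! s'!)`.
-/

namespace Vale.Agent.P359

open Finset Matrix Filter Topology

/-- `Σ_i (-1)^i C(r,i) C(m,q-i) / 2^i` -/
def sig2 (r m q : ℕ) : ℚ :=
  ∑ i ∈ range (q + 1), (-1 : ℚ) ^ i * (r.choose i : ℚ) * (m.choose (q - i) : ℚ) / 2 ^ i

/-- `Σ_i (-1)^i C(r,i) C(s,j-i)` -/
def sig1 (r s j : ℕ) : ℚ :=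
  ∑ i ∈ range (j + 1), (-1 : ℚ) ^ i * (r.choose i : ℚ) * (s.choose (j - i) : ℚ)

/-- limit of the impurity–electron coefficient of the channel `q` -/
def L3 (q r m r' m' : ℕ) : ℚ :=
  if q ≤ r + m ∧ r + m = r' + m' then
    (2 ^ r / ((r.factorial : ℚ) * m.factorial)) * (2 ^ r' / ((r'.factorial : ℚ) * m'.factorial))
      * ((q.factorial : ℚ) * (r + m - q).factorial) * (2 / 3) ^ q / 3 ^ (r + m - q)
      * (sig2 r m q * sig2 r' m' q)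
  else 0

/-- limit of the impurity–impurity coefficient of the channel `j` -/
def L4 (j r s r' s' : ℕ) : ℚ :=
  if j ≤ r + s ∧ r + s = r' + s' then
    ((j.factorial : ℚ) * (r + s - j).factorial)
      / ((r.factorial : ℚ) * s.factorial * r'.factorial * s'.factorial) * (sig1 r s j * sig1 r' s' j)
  else 0

end Vale.Agent.P359
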