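import Vale.Agent.Lib.P359.Asym1

/-!
# P359 / Asym : limits `Q → ∞` of the Clebsch–Gordan data

* `C(Q,i)/Q^i → 1/i!`, `C(2Q-2,i)/Q^i → 2^i/i!`, `C(3Q-2-2q,k)/Q^k → 3^k/k!`,
  `C(4Q-4-2j,k)/Q^k → 4^k/k!` (`Nat.choose` as a product / `Nat.descFactorial`; all cases follow from
  `C(n(Q),i)/Q^i → a^i/i!` whenever `n(Q)/Q → a`).
* `kap (2Q-2) Q q r m * Q^q → q! sig2 r m q` (`sig2 r m q = Σ_i (-1)^i C(r,i) C(m,q-i)/2^i`),
  `Sq (2Q-2) Q q * Q^q → q! (3/2)^q`, since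
  `Q^q/(C(2Q-2,i) C(Q,q-i)) → i!(q-i)!/2^i`, `C(q,i) i! (q-i)! = q!`, `Σ_i C(q,i)/2^i = (3/2)^q`.
* `kap (2Q-2) (2Q-2) j r s * Q^j → j!/2^j sig1 r s j` (`sig1 r s j = Σ_i (-1)^i C(r,i) C(s,j-i)`),
  `Sq (2Q-2) (2Q-2) j * Q^j → j!` (`Σ_i C(j,i) = 2^j`).
* products of two `cgv` are rational: for `r+m = r'+m' = q+k`,
  `√(C(Q,m)) √(Q C(2Q-2,r)) √(C(Q,m')) √(Q C(2Q-2,r')) cgv(r,m) cgv(r',m') / Q^(r+m+1)`
  `= C(2Q-2,r) C(Q,m) C(2Q-2,r') C(Q,m') kap kap' / (Sq C(3Q-2-2q,k) Q^(r+m))`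
  `→ (2^r/(r! m!)) (2^r'/(r'! m'!)) q! k! (2/3)^q / 3^k sig2 sig2'`.
  Similarly for the pair–pair coefficients, limit `j! k! sig1 sig1' / (r! s! r'! s'!)`.
-/

namespace Vale.Agent.P359

open Finset Matrix Filter Topology

private lemma asymV_one : Tendsto (fun Q : ℕ => (Q : ℝ) / Q) atTop (𝓝 1) := by
  refine tendsto_const_nhds.congr' ?_
  filter_upwards [eventually_ge_atTop 1] with Q hQ
  have h : (Q : ℝ) ≠ 0 := by
    have : Q ≠ 0 := by omega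
    exact_mod_cast this
  rw [div_self h]

private lemma asymV_two : Tendsto (fun Q : ℕ => ((2 * Q - 2 : ℕ) : ℝ) / Q) atTop (𝓝 2) := by
  have h0 : Tendsto (fun Q : ℕ => (2 : ℝ) - 2 / (Q : ℝ)) atTop (𝓝 (2 - 0)) :=
    tendsto_const_nhds.sub (tendsto_const_div_atTop_nhds_zero_nat 2)
  rw [sub_zero] at h0
  refine h0.congr' ?_
  filter_upwards [eventually_ge_atTop 1] with Q hQ
  have h : (Q : ℝ) ≠ 0 := by
    have : Q ≠ 0 := by omega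
    exact_mod_cast this
  rw [Nat.cast_sub (by omega)]
  push_cast
  field_simp

/-- `vv Q q → (-1)^q (3q-1)/2^q` -/
theorem tendsto_vv (q : ℕ) :
    Tendsto (fun Q : ℕ => vv Q q) atTop (𝓝 ((-1) ^ q * (3 * (q : ℝ) - 1) / 2 ^ q)) := by
  have h1 := tendsto_choose (fun Q => Q) 1 q asymV_one
  have h2 := tendsto_choose (fun Q => 2 * Q - 2) 2 q asymV_two
  have hf : (0 : ℝ) < (q.factorial : ℝ) := by exact_mod_cast q.factorial_pos
  have h3 := h1.div h2 (by positivity)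
  have h4 : Tendsto (fun Q : ℕ => (q : ℝ) * (2 - (1 + q) / (Q : ℝ)) + q - 1) atTop
      (𝓝 ((q : ℝ) * (2 - 0) + q - 1)) :=
    ((tendsto_const_nhds.mul (tendsto_const_nhds.sub
      (tendsto_const_div_atTop_nhds_zero_nat (1 + (q : ℝ))))).add_const _).sub_const _
  have h5 := (tendsto_const_nhds (x := ((-1 : ℝ) ^ q))).mul h3 |>.mul h4
  have he : (-1 : ℝ) ^ q * (1 ^ q / (q.factorial : ℝ) / (2 ^ q / (q.factorial : ℝ))) *
      ((q : ℝ) * (2 - 0) + q - 1) = (-1) ^ q * (3 * (q : ℝ) - 1) / 2 ^ q := by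
    rw [one_pow]
    field_simp
    ring
  rw [he] at h5
  refine h5.congr' ?_
  filter_upwards [eventually_ge_atTop 1] with Q hQ
  have hQ0 : (Q : ℝ) ≠ 0 := by
    have : Q ≠ 0 := by omega
    exact_mod_cast this
  have hQq : (Q : ℝ) ^ q ≠ 0 := pow_ne_zero _ hQ0
  unfold vv
  have e1 : ((Q.choose q : ℝ) / (Q : ℝ) ^ q) / (((2 * Q - 2).choose q : ℝ) / (Q : ℝ) ^ q) =
      (Q.choose q : ℝ) / ((2 * Q - 2).choose q : ℝ) := by
    rw [div_div_div_cancel_right₀ hQq]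
  have e2 : (q : ℝ) * (2 - (1 + q) / (Q : ℝ)) + q - 1 =
      (q : ℝ) * (2 * (Q : ℝ) - 1 - q) / Q + q - 1 := by
    field_simp
    ring
  rw [← e1, ← e2]
  rfl

end Vale.Agent.P359
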