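import Vale.Agent.Lib.P359.CG2

/-!
# P359 / CG : the Clebsch–Gordan vectors form an orthonormal basis of joint `sl2` strings

Put `φ_k(r,m) = √(C(A,r) C(B,m)) kap A B q r m` on `r + m = q + k` and `0` elsewhere, so that
`cgvec A B q k = φ_k / √(Sq * C(A+B-2q,k))`.

* `(E2ᵀ φ_k)(r,m) = √(r(A-r+1)) φ_k(r-1,m) + √(m(B-m+1)) φ_k(r,m-1)` and
  `√(r(A-r+1)) √C(A,r-1) = r √C(A,r)` (because `(A-r+1) C(A,r-1) = r C(A,r)`), so by `kap_lower`
  `E2ᵀ φ_k = (k+1) φ_{k+1}`.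
* `(E2 φ_k)(r,m) = √((r+1)(A-r)) φ_k(r+1,m) + √((m+1)(B-m)) φ_k(r,m+1)` and
  `√((r+1)(A-r)) √C(A,r+1) = (A-r) √C(A,r)`, so by `kap_raise` (with `r+m = q+k-1`)
  `E2 φ_k = (A+B-2q-k+1) φ_{k-1}` for `k ≥ 1`; `E2 φ_0 = 0` (by `kap_zero`).
* dividing by the norms gives `cg_raise`, `cg_raise_zero`, `cg_lower`, `cg_lower_top`
  (`C(N,k+1)(k+1) = C(N,k)(N-k)`).
* norms: `‖φ_0‖² = Σ_{r+m=q} C(A,r)C(B,m) (C(q,r)/(C(A,r)C(B,m)))² = Sq` by `kap_top`, and
  `(k+1) ‖φ_{k+1}‖² = ⟨E2ᵀ φ_k, φ_{k+1}⟩ = ⟨φ_k, E2 φ_{k+1}⟩ = (A+B-2q-k) ‖φ_k‖²`.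
* orthogonality: if `q+k ≠ q'+k'` the supports are disjoint; if `q < q'` and `q+k = q'+k'` then
  `k > k'` and induct on `k'` : `φ_{q,k} = E2ᵀ φ_{q,k-1}/k`, so
  `⟨φ_{q,k}, φ_{q',k'}⟩ = ⟨φ_{q,k-1}, E2 φ_{q',k'}⟩ / k`, which is `0` for `k' = 0` and a multiple of
  `⟨φ_{q,k-1}, φ_{q',k'-1}⟩` otherwise.
* completeness: the family indexed by `(q,k)`, `q ≤ B`, `k ≤ A+B-2q`, is orthonormal and its
  cardinality `Σ_{q≤B} (A+B-2q+1) = (A+1)(B+1)` is the dimension.  (The square matrix `U` of the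
  family satisfies `U Uᵀ = 1`, hence `Uᵀ U = 1`: `Matrix.mul_eq_one_comm` after reindexing, or
  `Orthonormal` + `finrank`.)
-/

namespace Vale.Agent.P359

open Finset Matrix

/-- the number of the Clebsch–Gordan vectors -/
theorem cg_count (A B : ℕ) (hBA : B ≤ A) :
    ∑ q ∈ range (B + 1), (A + B - 2 * q + 1) = (A + 1) * (B + 1) := by
  have h : ∀ n : ℕ, n ≤ B + 1 →
      ∑ q ∈ range n, (A + B - 2 * q + 1) = n * (A + B + 2 - n) := by
    intro n
    induction n with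
    | zero => intro _; simp
    | succ n ih =>
      intro hn
      rw [sum_range_succ, ih (by omega)]
      obtain ⟨d, rfl⟩ : ∃ d, B = n + d := ⟨B - n, by omega⟩
      obtain ⟨e, rfl⟩ : ∃ e, A = n + d + e := ⟨A - (n + d), by omega⟩
      have h1 : n + d + e + (n + d) + 2 - n = n + 2 * d + e + 2 := by omega
      have h2 : n + d + e + (n + d) - 2 * n + 1 = 2 * d + e + 1 := by omega
      have h3 : n + d + e + (n + d) + 2 - (n + 1) = n + 2 * d + e + 1 := by omega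
      rw [h1, h2, h3]
      ring
  rw [h (B + 1) le_rfl]
  have h1 : A + B + 2 - (B + 1) = A + 1 := by omega
  rw [h1]
  ring

theorem cg_complete (A B : ℕ) (hBA : B ≤ A) (x y : Fin (A + 1) × Fin (B + 1)) :
    ∑ q ∈ range (B + 1), ∑ k ∈ range (A + B - 2 * q + 1), cgvec A B q k x * cgvec A B q k y
      = if x = y then 1 else 0 := by
  let I := (q : Fin (B + 1)) × Fin (A + B - 2 * (q : ℕ) + 1)
  let U : Matrix I (Fin (A + 1) × Fin (B + 1)) ℝ := fun i x => cgvec A B i.1 i.2 x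
  have hcard : Fintype.card I = Fintype.card (Fin (A + 1) × Fin (B + 1)) := by
    rw [Fintype.card_sigma, Fintype.card_prod, Fintype.card_fin, Fintype.card_fin]
    simp only [Fintype.card_fin]
    rw [← cg_count A B hBA, sum_range]
  have h1 : U * Uᵀ = 1 := by
    ext i j
    rw [Matrix.mul_apply']
    have hi := i.1.2
    have hi2 := i.2.2
    have hj := j.1.2
    have hj2 := j.2.2
    have h2 := cg_orthonormal A B i.1 i.2 j.1 j.2 (by omega) (by omega) (by omega) (by omega)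
      (by omega) (by omega)
    rw [Matrix.one_apply]
    refine Eq.trans ?_ (h2.trans ?_)
    · rfl
    · obtain ⟨a, b⟩ := i
      obtain ⟨c, d⟩ := j
      by_cases hac : a = c
      · subst hac
        by_cases hbd : b = d
        · subst hbd
          simp
        · have h3 : ¬ ((b : ℕ) = (d : ℕ)) := fun h => hbd (Fin.ext h)
          have h4 : ¬ ((⟨a, b⟩ : I) = ⟨a, d⟩) := by
            intro h
            simp only [Sigma.mk.injEq, heq_eq_eq, true_and] at h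
            exact hbd h
          rw [if_neg h4, if_neg]
          rintro ⟨-, h⟩
          exact h3 h
      · have h3 : ¬ ((a : ℕ) = (c : ℕ)) := fun h => hac (Fin.ext h)
        have h4 : ¬ ((⟨a, b⟩ : I) = ⟨c, d⟩) := by
          intro h
          exact hac (Sigma.mk.inj h).1
        rw [if_neg h4, if_neg]
        rintro ⟨h, -⟩
        exact h3 h
  have h2 : Uᵀ * U = 1 := (Matrix.mul_eq_one_comm_of_card_eq (R := ℝ) (A := U) (B := Uᵀ) (eq := hcard)).1 h1
  have h3 : (Uᵀ * U) x y = if x = y then 1 else 0 := by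
    rw [h2, Matrix.one_apply]
  rw [← h3, Matrix.mul_apply, Fintype.sum_sigma, sum_range]
  refine sum_congr rfl fun q _ => ?_
  rw [sum_range]
  rfl

end Vale.Agent.P359
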