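import Vale.Agent.Lib.P359.KapId
import Vale.Agent.Lib.P359.KapTop

/-!
# P359 / CG : the Clebsch–Gordan vectors form an orthonormal basis of joint `sl2` strings

Put `φ_k(r,m) = √(C(A,r) C(B,m)) kap A B q r m` on `r + m = q + k` and `0` elsewhere, so that
`cgvec A B q k = φ_k / √(Sq * C(A+B-2q,k))`.

* `(E2ᵀ φ_k)(r,m) = √(r(A-r+1)) φ_k(r-1,m) + √(m(B-m+1)) φ_k(r,m-1)` and
  `√(r(A-r+1)) √C(A,r-1) = r √C(A,r)` (because `(A-r+1) C(A,r-1) = r C(A,r)`), so by `kap_lower`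
  `E2ᵀ φ_k = (k+1) φ_{k+1}`.
* `(E2 φ_k)(r,m) = √((r+1)(A-r)) φ_k(r+1,m) + √((m+1)(B-m)) φ_k(r,m+1)` and
  `√((r+1)(A-r)) √C(A,r+1) = (A-r) √C(A,r)`, so by `kap_raise` (with `r+m = q+k-1`)
  `E2 φ_k = (A+B-2q-k+1) φ_{k-1}` for `k ≥ 1`; `E2 φ_0 = 0` (by `kap_zero`).
* dividing by the norms gives `cg_raise`, `cg_raise_zero`, `cg_lower`, `cg_lower_top`
  (`C(N,k+1)(k+1) = C(N,k)(N-k)`).
* norms: `‖φ_0‖² = Σ_{r+m=q} C(A,r)C(B,m) (C(q,r)/(C(A,r)C(B,m)))² = Sq` by `kap_top`, and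
  `(k+1) ‖φ_{k+1}‖² = ⟨E2ᵀ φ_k, φ_{k+1}⟩ = ⟨φ_k, E2 φ_{k+1}⟩ = (A+B-2q-k) ‖φ_k‖²`.
* orthogonality: if `q+k ≠ q'+k'` the supports are disjoint; if `q < q'` and `q+k = q'+k'` then
  `k > k'` and induct on `k'` : `φ_{q,k} = E2ᵀ φ_{q,k-1}/k`, so
  `⟨φ_{q,k}, φ_{q',k'}⟩ = ⟨φ_{q,k-1}, E2 φ_{q',k'}⟩ / k`, which is `0` for `k' = 0` and a multiple of
  `⟨φ_{q,k-1}, φ_{q',k'-1}⟩` otherwise.
* completeness: the family indexed by `(q,k)`, `q ≤ B`, `k ≤ A+B-2q`, is orthonormal and its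
  cardinality `Σ_{q≤B} (A+B-2q+1) = (A+1)(B+1)` is the dimension.  (The square matrix `U` of the
  family satisfies `U Uᵀ = 1`, hence `Uᵀ U = 1`: `Matrix.mul_eq_one_comm` after reindexing, or
  `Orthonormal` + `finrank`.)
-/

namespace Vale.Agent.P359

open Finset Matrix

/-! ### the action of `E2` on functions of two natural numbers -/

theorem cg1_sum_left {A B : ℕ} (m : Fin (B + 1))
    (g : Fin (A + 1) → ℝ) (f : Fin (A + 1) → Fin (B + 1) → ℝ) :
    ∑ x : Fin (A + 1) × Fin (B + 1), g x.1 * (if m = x.2 then 1 else 0) * f x.1 x.2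
      = ∑ i : Fin (A + 1), g i * f i m := by
  rw [Fintype.sum_prod_type]
  refine Finset.sum_congr rfl fun i _ => ?_
  simp [ite_mul]

theorem cg1_sum_right {A B : ℕ} (r : Fin (A + 1))
    (g : Fin (B + 1) → ℝ) (f : Fin (A + 1) → Fin (B + 1) → ℝ) :
    ∑ x : Fin (A + 1) × Fin (B + 1), (if r = x.1 then 1 else 0) * g x.2 * f x.1 x.2
      = ∑ j : Fin (B + 1), g j * f r j := by
  rw [Fintype.sum_prod_type_right]
  refine Finset.sum_congr rfl fun i _ => ?_
  simp [ite_mul]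

theorem cg1_row (A : ℕ) (r : Fin (A + 1)) (f : ℕ → ℝ) :
    ∑ i : Fin (A + 1), Emat A r i * f i = √(((r : ℕ) + 1 : ℝ) * ((A : ℝ) - (r : ℕ))) * f (r + 1) := by
  by_cases h : (r : ℕ) + 1 < A + 1
  · rw [Finset.sum_eq_single (⟨(r : ℕ) + 1, h⟩ : Fin (A + 1))]
    · simp only [Emat, if_true]
      congr 2
      push_cast
      ring
    · intro b _ hb
      have : ¬ ((r : ℕ) + 1 = (b : ℕ)) := by
        intro h'
        exact hb (Fin.ext h'.symm)
      simp [Emat, this]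
    · intro h'
      exact absurd (Finset.mem_univ _) h'
  · have hr : (r : ℕ) = A := by
      have := r.2
      omega
    rw [Finset.sum_eq_zero]
    · rw [hr]
      simp
    · intro b _
      have : ¬ ((r : ℕ) + 1 = (b : ℕ)) := by
        have := b.2
        omega
      simp [Emat, this]

theorem cg1_col (A : ℕ) (r : Fin (A + 1)) (f : ℕ → ℝ) :
    ∑ i : Fin (A + 1), Emat A i r * f i = √(((r : ℕ) : ℝ) * ((A : ℝ) + 1 - (r : ℕ))) * f (r - 1) := by
  by_cases h : (r : ℕ) = 0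
  · rw [Finset.sum_eq_zero]
    · rw [h]
      simp
    · intro b _
      have : ¬ ((b : ℕ) + 1 = (r : ℕ)) := by omega
      simp [Emat, this]
  · have hr : (r : ℕ) - 1 < A + 1 := by
      have := r.2
      omega
    rw [Finset.sum_eq_single (⟨(r : ℕ) - 1, hr⟩ : Fin (A + 1))]
    · have : (r : ℕ) - 1 + 1 = r := by omega
      simp only [Emat, this, if_true]
    · intro b _ hb
      have : ¬ ((b : ℕ) + 1 = (r : ℕ)) := by
        intro h'
        exact hb (Fin.ext (by simp only; omega))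
      simp [Emat, this]
    · intro h'
      exact absurd (Finset.mem_univ _) h'

theorem cg1_E2 (A B : ℕ) (f : ℕ → ℕ → ℝ) (x : Fin (A + 1) × Fin (B + 1)) :
    (E2 A B *ᵥ (fun y : Fin (A + 1) × Fin (B + 1) => f y.1 y.2)) x
      = √(((x.1 : ℕ) + 1 : ℝ) * ((A : ℝ) - (x.1 : ℕ))) * f (x.1 + 1) x.2
        + √(((x.2 : ℕ) + 1 : ℝ) * ((B : ℝ) - (x.2 : ℕ))) * f x.1 (x.2 + 1) := by
  have e : (E2 A B *ᵥ (fun y : Fin (A + 1) × Fin (B + 1) => f y.1 y.2)) x
      = ∑ y : Fin (A + 1) × Fin (B + 1), (Emat A x.1 y.1 * (if x.2 = y.2 then 1 else 0) * f y.1 y.2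
        + (if x.1 = y.1 then 1 else 0) * Emat B x.2 y.2 * f y.1 y.2) :=
    Finset.sum_congr rfl (fun y _ => add_mul _ _ _)
  rw [e, Finset.sum_add_distrib]
  rw [cg1_sum_left x.2 (fun i => Emat A x.1 i) (fun i j => f i j),
    cg1_sum_right x.1 (fun j => Emat B x.2 j) (fun i j => f i j),
    cg1_row A x.1 (fun i => f i x.2), cg1_row B x.2 (fun j => f x.1 j)]

theorem cg1_E2T (A B : ℕ) (f : ℕ → ℕ → ℝ) (x : Fin (A + 1) × Fin (B + 1)) :
    ((E2 A B)ᵀ *ᵥ (fun y : Fin (A + 1) × Fin (B + 1) => f y.1 y.2)) x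
      = √(((x.1 : ℕ) : ℝ) * ((A : ℝ) + 1 - (x.1 : ℕ))) * f (x.1 - 1) x.2
        + √(((x.2 : ℕ) : ℝ) * ((B : ℝ) + 1 - (x.2 : ℕ))) * f x.1 (x.2 - 1) := by
  have e : ((E2 A B)ᵀ *ᵥ (fun y : Fin (A + 1) × Fin (B + 1) => f y.1 y.2)) x
      = ∑ y : Fin (A + 1) × Fin (B + 1), (Emat A y.1 x.1 * (if y.2 = x.2 then 1 else 0) * f y.1 y.2
        + (if y.1 = x.1 then 1 else 0) * Emat B y.2 x.2 * f y.1 y.2) :=
    Finset.sum_congr rfl (fun y _ => add_mul _ _ _)
  rw [e, Finset.sum_add_distrib]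
  have e1 : ∀ y : Fin (A + 1) × Fin (B + 1), (if y.2 = x.2 then (1 : ℝ) else 0)
      = if x.2 = y.2 then 1 else 0 := fun y => by simp [eq_comm]
  have e2 : ∀ y : Fin (A + 1) × Fin (B + 1), (if y.1 = x.1 then (1 : ℝ) else 0)
      = if x.1 = y.1 then 1 else 0 := fun y => by simp [eq_comm]
  simp only [e1, e2]
  rw [cg1_sum_left x.2 (fun i => Emat A i x.1) (fun i j => f i j),
    cg1_sum_right x.1 (fun j => Emat B j x.2) (fun i j => f i j),
    cg1_col A x.1 (fun i => f i x.2), cg1_col B x.2 (fun j => f x.1 j)]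

/-- the unnormalized vector -/
noncomputable def cg1phi (A B q k r m : ℕ) : ℝ :=
  if r + m = q + k then √((A.choose r : ℝ) * (B.choose m : ℝ)) * kap A B q r m else 0

theorem cg1_cgvec (A B q k : ℕ) : cgvec A B q k
    = (√(Sq A B q * (((A + B - 2 * q).choose k : ℕ) : ℝ)))⁻¹ •
      (fun y : Fin (A + 1) × Fin (B + 1) => cg1phi A B q k y.1 y.2) := by
  funext y
  simp only [cgvec, cgv, cg1phi, Pi.smul_apply, smul_eq_mul]
  split_ifs
  · rw [div_eq_inv_mul]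
  · rw [mul_zero]

theorem cg1_sqrt_up {A r : ℕ} (hr : r ≤ A) :
    √(((r : ℝ) + 1) * ((A : ℝ) - r)) * √(A.choose (r + 1) : ℝ) = ((A : ℝ) - r) * √(A.choose r : ℝ) := by
  have h0 : (0 : ℝ) ≤ (A : ℝ) - r := sub_nonneg.2 (by exact_mod_cast hr)
  have h1 : ((A.choose (r + 1) : ℕ) : ℝ) * ((r : ℝ) + 1) = (A.choose r : ℝ) * ((A : ℝ) - r) := by
    have := Nat.choose_succ_right_eq A r
    rw [← Nat.cast_sub hr]
    exact_mod_cast this
  rw [← Real.sqrt_mul (mul_nonneg (by positivity) h0)]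
  have e : ((r : ℝ) + 1) * ((A : ℝ) - r) * (A.choose (r + 1) : ℝ)
      = ((A : ℝ) - r) ^ 2 * (A.choose r : ℝ) := by
    calc ((r : ℝ) + 1) * ((A : ℝ) - r) * (A.choose (r + 1) : ℝ)
        = ((A : ℝ) - r) * (((A.choose (r + 1) : ℕ) : ℝ) * ((r : ℝ) + 1)) := by ring
      _ = _ := by rw [h1]; ring
  rw [e, Real.sqrt_mul (sq_nonneg _), Real.sqrt_sq h0]

theorem cg1_sqrt_down {A r : ℕ} (hr : r ≤ A) :
    √((r : ℝ) * ((A : ℝ) + 1 - r)) * √(A.choose (r - 1) : ℝ) = (r : ℝ) * √(A.choose r : ℝ) := by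
  rcases Nat.eq_zero_or_pos r with h | h
  · subst h
    simp
  · obtain ⟨t, rfl⟩ : ∃ t, r = t + 1 := ⟨r - 1, by omega⟩
    have h0 : (0 : ℝ) ≤ (A : ℝ) - t := sub_nonneg.2 (by exact_mod_cast (by omega : t ≤ A))
    have h1 : ((A.choose (t + 1) : ℕ) : ℝ) * ((t : ℝ) + 1) = (A.choose t : ℝ) * ((A : ℝ) - t) := by
      have := Nat.choose_succ_right_eq A t
      rw [← Nat.cast_sub (by omega : t ≤ A)]
      exact_mod_cast this
    have e0 : (A : ℝ) + 1 - ((t + 1 : ℕ) : ℝ) = (A : ℝ) - t := by push_cast; ring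
    rw [e0, ← Real.sqrt_mul (mul_nonneg (by positivity) h0)]
    have e : ((t + 1 : ℕ) : ℝ) * ((A : ℝ) - t) * (A.choose (t + 1 - 1) : ℝ)
        = ((t + 1 : ℕ) : ℝ) ^ 2 * (A.choose (t + 1) : ℝ) := by
      rw [Nat.add_sub_cancel]
      push_cast
      calc ((t : ℝ) + 1) * ((A : ℝ) - t) * (A.choose t : ℝ)
          = ((t : ℝ) + 1) * ((A.choose t : ℝ) * ((A : ℝ) - t)) := by ring
        _ = _ := by rw [← h1]; ring
    rw [e, Real.sqrt_mul (sq_nonneg _), Real.sqrt_sq (by positivity)]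

theorem cg1_phi_raise (A B q k : ℕ) (hA : q ≤ A) (hB : q ≤ B) (hk : k + 1 ≤ A + B - 2 * q) :
    E2 A B *ᵥ (fun y : Fin (A + 1) × Fin (B + 1) => cg1phi A B q (k + 1) y.1 y.2)
      = ((A + B - 2 * q - k : ℕ) : ℝ) •
        (fun y : Fin (A + 1) × Fin (B + 1) => cg1phi A B q k y.1 y.2) := by
  funext x
  have hr : (x.1 : ℕ) ≤ A := Nat.lt_succ_iff.1 x.1.2
  have hm : (x.2 : ℕ) ≤ B := Nat.lt_succ_iff.1 x.2.2
  rw [cg1_E2]
  simp only [Pi.smul_apply, smul_eq_mul]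
  generalize (x.1 : ℕ) = r at *
  generalize (x.2 : ℕ) = m at *
  unfold cg1phi
  by_cases h : r + m = q + k
  · rw [if_pos (by omega), if_pos (by omega), if_pos h,
      Real.sqrt_mul (Nat.cast_nonneg _), Real.sqrt_mul (Nat.cast_nonneg _),
      Real.sqrt_mul (Nat.cast_nonneg _)]
    have k1 := cg1_sqrt_up hr
    have k2 := cg1_sqrt_up hm
    have k3 := kap_raise A B q r m hA hB
    have e : ((A + B - 2 * q - k : ℕ) : ℝ) = (A : ℝ) + B - r - m - q := by
      rw [Nat.cast_sub (by omega), Nat.cast_sub (by omega)]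
      have : (r : ℝ) + m = q + k := by exact_mod_cast h
      push_cast
      linarith
    rw [e]
    calc √(((r : ℝ) + 1) * ((A : ℝ) - r)) * (√(A.choose (r + 1) : ℝ) * √(B.choose m : ℝ)
          * kap A B q (r + 1) m)
        + √(((m : ℝ) + 1) * ((B : ℝ) - m)) * (√(A.choose r : ℝ) * √(B.choose (m + 1) : ℝ)
          * kap A B q r (m + 1))
        = (√(((r : ℝ) + 1) * ((A : ℝ) - r)) * √(A.choose (r + 1) : ℝ)) * √(B.choose m : ℝ)
          * kap A B q (r + 1) m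
        + (√(((m : ℝ) + 1) * ((B : ℝ) - m)) * √(B.choose (m + 1) : ℝ)) * √(A.choose r : ℝ)
          * kap A B q r (m + 1) := by ring
      _ = √(A.choose r : ℝ) * √(B.choose m : ℝ) * (((A : ℝ) - r) * kap A B q (r + 1) m
          + ((B : ℝ) - m) * kap A B q r (m + 1)) := by
        rw [k1, k2]; ring
      _ = _ := by rw [k3]; ring
  · rw [if_neg (by omega), if_neg (by omega), if_neg h]
    ring

theorem cg1_phi_raise_zero (A B q : ℕ) (hA : q ≤ A) (hB : q ≤ B) :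
    E2 A B *ᵥ (fun y : Fin (A + 1) × Fin (B + 1) => cg1phi A B q 0 y.1 y.2) = 0 := by
  funext x
  have hr : (x.1 : ℕ) ≤ A := Nat.lt_succ_iff.1 x.1.2
  have hm : (x.2 : ℕ) ≤ B := Nat.lt_succ_iff.1 x.2.2
  rw [cg1_E2]
  simp only [Pi.zero_apply]
  generalize (x.1 : ℕ) = r at *
  generalize (x.2 : ℕ) = m at *
  unfold cg1phi
  by_cases h : r + m + 1 = q
  · rw [if_pos (by omega), if_pos (by omega),
      Real.sqrt_mul (Nat.cast_nonneg _), Real.sqrt_mul (Nat.cast_nonneg _)]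
    have k1 := cg1_sqrt_up hr
    have k2 := cg1_sqrt_up hm
    have k3 := kap_raise A B q r m hA hB
    rw [kap_zero A B q r m (by omega), mul_zero] at k3
    calc √(((r : ℝ) + 1) * ((A : ℝ) - r)) * (√(A.choose (r + 1) : ℝ) * √(B.choose m : ℝ)
          * kap A B q (r + 1) m)
        + √(((m : ℝ) + 1) * ((B : ℝ) - m)) * (√(A.choose r : ℝ) * √(B.choose (m + 1) : ℝ)
          * kap A B q r (m + 1))
        = (√(((r : ℝ) + 1) * ((A : ℝ) - r)) * √(A.choose (r + 1) : ℝ)) * √(B.choose m : ℝ)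
          * kap A B q (r + 1) m
        + (√(((m : ℝ) + 1) * ((B : ℝ) - m)) * √(B.choose (m + 1) : ℝ)) * √(A.choose r : ℝ)
          * kap A B q r (m + 1) := by ring
      _ = √(A.choose r : ℝ) * √(B.choose m : ℝ) * (((A : ℝ) - r) * kap A B q (r + 1) m
          + ((B : ℝ) - m) * kap A B q r (m + 1)) := by
        rw [k1, k2]; ring
      _ = _ := by rw [k3]; ring
  · rw [if_neg (by omega), if_neg (by omega)]
    ring

theorem cg1_phi_lower (A B q k : ℕ) :
    (E2 A B)ᵀ *ᵥ (fun y : Fin (A + 1) × Fin (B + 1) => cg1phi A B q k y.1 y.2)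
      = ((k : ℝ) + 1) •
        (fun y : Fin (A + 1) × Fin (B + 1) => cg1phi A B q (k + 1) y.1 y.2) := by
  funext x
  have hr : (x.1 : ℕ) ≤ A := Nat.lt_succ_iff.1 x.1.2
  have hm : (x.2 : ℕ) ≤ B := Nat.lt_succ_iff.1 x.2.2
  rw [cg1_E2T]
  simp only [Pi.smul_apply, smul_eq_mul]
  generalize (x.1 : ℕ) = r at *
  generalize (x.2 : ℕ) = m at *
  have z1 : √((r : ℝ) * ((A : ℝ) + 1 - r)) * cg1phi A B q k (r - 1) m
      = if r + m = q + (k + 1) then
        (r : ℝ) * √(A.choose r : ℝ) * √(B.choose m : ℝ) * kap A B q (r - 1) m else 0 := by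
    rcases Nat.eq_zero_or_pos r with h0 | h0
    · subst h0
      simp
    · unfold cg1phi
      by_cases h : r + m = q + (k + 1)
      · rw [if_pos (by omega), if_pos h, Real.sqrt_mul (Nat.cast_nonneg (A.choose (r - 1)))]
        have k1 := cg1_sqrt_down hr
        calc √((r : ℝ) * ((A : ℝ) + 1 - r)) * (√(A.choose (r - 1) : ℝ) * √(B.choose m : ℝ)
              * kap A B q (r - 1) m)
            = (√((r : ℝ) * ((A : ℝ) + 1 - r)) * √(A.choose (r - 1) : ℝ)) * √(B.choose m : ℝ)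
              * kap A B q (r - 1) m := by ring
          _ = _ := by rw [k1]
      · rw [if_neg (by omega), if_neg h, mul_zero]
  have z2 : √((m : ℝ) * ((B : ℝ) + 1 - m)) * cg1phi A B q k r (m - 1)
      = if r + m = q + (k + 1) then
        (m : ℝ) * √(A.choose r : ℝ) * √(B.choose m : ℝ) * kap A B q r (m - 1) else 0 := by
    rcases Nat.eq_zero_or_pos m with h0 | h0
    · subst h0
      simp
    · unfold cg1phi
      by_cases h : r + m = q + (k + 1)
      · rw [if_pos (by omega), if_pos h, Real.sqrt_mul (Nat.cast_nonneg (A.choose r))]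
        have k1 := cg1_sqrt_down hm
        calc √((m : ℝ) * ((B : ℝ) + 1 - m)) * (√(A.choose r : ℝ) * √(B.choose (m - 1) : ℝ)
              * kap A B q r (m - 1))
            = (√((m : ℝ) * ((B : ℝ) + 1 - m)) * √(B.choose (m - 1) : ℝ)) * √(A.choose r : ℝ)
              * kap A B q r (m - 1) := by ring
          _ = _ := by rw [k1]; ring
      · rw [if_neg (by omega), if_neg h, mul_zero]
  rw [z1, z2]
  unfold cg1phi
  by_cases h : r + m = q + (k + 1)
  · rw [if_pos h, if_pos h, if_pos h, Real.sqrt_mul (Nat.cast_nonneg _)]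
    have k3 := kap_lower A B q r m
    have e : (k : ℝ) + 1 = (r : ℝ) + m - q := by
      have : (r : ℝ) + m = q + (k + 1) := by exact_mod_cast h
      linarith
    rw [e]
    calc (r : ℝ) * √(A.choose r : ℝ) * √(B.choose m : ℝ) * kap A B q (r - 1) m
        + (m : ℝ) * √(A.choose r : ℝ) * √(B.choose m : ℝ) * kap A B q r (m - 1)
        = √(A.choose r : ℝ) * √(B.choose m : ℝ)
          * ((r : ℝ) * kap A B q (r - 1) m + (m : ℝ) * kap A B q r (m - 1)) := by ring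
      _ = _ := by rw [k3]; ring
  · rw [if_neg h, if_neg h, if_neg h]
    ring

theorem cg1_kap_top (A B q : ℕ) (hA : q ≤ A) (hB : q ≤ B) (j : ℕ) :
    ∀ r m : ℕ, r = A - q + 1 + j → r ≤ A → r + m = A + B - q + 1 → kap A B q r m = 0 := by
  induction j with
  | zero =>
    intro r m hr hrA hrm
    obtain ⟨t, rfl⟩ : ∃ t, r = t + 1 := ⟨r - 1, by omega⟩
    have k3 := kap_raise A B q t m hA hB
    have hm : m = B := by omega
    subst hm
    have e : (A : ℝ) + m - t - m - q = 0 := by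
      have : t + q = A := by omega
      have : (t : ℝ) + q = A := by exact_mod_cast this
      linarith
    rw [e, sub_self, zero_mul, zero_mul, add_zero] at k3
    rcases mul_eq_zero.1 k3 with h | h
    · exfalso
      have : (A : ℝ) = t := by linarith
      have : A = t := by exact_mod_cast this
      omega
    · exact h
  | succ j ih =>
    intro r m hr hrA hrm
    obtain ⟨t, rfl⟩ : ∃ t, r = t + 1 := ⟨r - 1, by omega⟩
    have k3 := kap_raise A B q t m hA hB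
    have h0 := ih t (m + 1) (by omega) (by omega) (by omega)
    have e : (A : ℝ) + B - t - m - q = 0 := by
      have : t + m + q = A + B := by omega
      have : (t : ℝ) + m + q = A + B := by exact_mod_cast this
      linarith
    rw [e, h0, mul_zero, zero_mul, add_zero] at k3
    rcases mul_eq_zero.1 k3 with h | h
    · exfalso
      have : (A : ℝ) = t := by linarith
      have : A = t := by exact_mod_cast this
      omega
    · exact h

theorem cg1_phi_top (A B q : ℕ) (hA : q ≤ A) (hB : q ≤ B) :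
    (fun y : Fin (A + 1) × Fin (B + 1) => cg1phi A B q (A + B - 2 * q + 1) y.1 y.2) = 0 := by
  funext x
  have hr : (x.1 : ℕ) ≤ A := Nat.lt_succ_iff.1 x.1.2
  have hm : (x.2 : ℕ) ≤ B := Nat.lt_succ_iff.1 x.2.2
  simp only [Pi.zero_apply]
  generalize (x.1 : ℕ) = r at *
  generalize (x.2 : ℕ) = m at *
  unfold cg1phi
  by_cases h : r + m = q + (A + B - 2 * q + 1)
  · rw [if_pos h, cg1_kap_top A B q hA hB (r - (A - q + 1)) r m (by omega) hr (by omega), mul_zero]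
  · rw [if_neg h]

theorem cg1_norm {S N k c d : ℝ} (hS : 0 < S) (hc : 0 < c) (hd : 0 < d) (hk : 0 ≤ k)
    (hN : 0 ≤ N) (h : d * (k + 1) = c * N) :
    (√(S * d))⁻¹ * N = √((k + 1) * N) * (√(S * c))⁻¹ := by
  have h1 : √(S * c) * N = √((k + 1) * N) * √(S * d) := by
    rw [← Real.sqrt_mul (by positivity)]
    have e : (k + 1) * N * (S * d) = (S * c) * N ^ 2 := by
      calc (k + 1) * N * (S * d) = S * N * (d * (k + 1)) := by ring
        _ = _ := by rw [h]; ring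
    rw [e, Real.sqrt_mul (by positivity : 0 ≤ S * c) (N ^ 2), Real.sqrt_sq hN]
  have h2 : √(S * c) ≠ 0 := (Real.sqrt_pos.2 (by positivity)).ne'
  have h3 : √(S * d) ≠ 0 := (Real.sqrt_pos.2 (by positivity)).ne'
  rw [← div_eq_inv_mul, ← div_eq_mul_inv, div_eq_div_iff h3 h2]
  linarith [h1]

theorem cg1_norm' {S N k c d : ℝ} (hS : 0 < S) (hc : 0 < c) (hd : 0 < d) (hk : 0 ≤ k)
    (hN : 0 ≤ N) (h : d * (k + 1) = c * N) :
    (√(S * c))⁻¹ * (k + 1) = √((k + 1) * N) * (√(S * d))⁻¹ := by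
  have h1 : √(S * d) * (k + 1) = √((k + 1) * N) * √(S * c) := by
    rw [← Real.sqrt_mul (by positivity)]
    have e : (k + 1) * N * (S * c) = (S * d) * (k + 1) ^ 2 := by
      calc (k + 1) * N * (S * c) = S * (k + 1) * (c * N) := by ring
        _ = _ := by rw [← h]; ring
    rw [e, Real.sqrt_mul (by positivity : 0 ≤ S * d) ((k + 1) ^ 2), Real.sqrt_sq (by positivity)]
  have h2 : √(S * c) ≠ 0 := (Real.sqrt_pos.2 (by positivity)).ne'
  have h3 : √(S * d) ≠ 0 := (Real.sqrt_pos.2 (by positivity)).ne'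
  rw [← div_eq_inv_mul, ← div_eq_mul_inv, div_eq_div_iff h2 h3]
  linarith [h1]

theorem cg1_choose (N k : ℕ) : ((N.choose (k + 1) : ℕ) : ℝ) * ((k : ℝ) + 1)
    = (N.choose k : ℝ) * ((N - k : ℕ) : ℝ) := by
  have := Nat.choose_succ_right_eq N k
  exact_mod_cast this

theorem cg_raise (A B q k : ℕ) (hA : q ≤ A) (hB : q ≤ B) (hk : k + 1 ≤ A + B - 2 * q) :
    E2 A B *ᵥ cgvec A B q (k + 1)
      = √(((k : ℝ) + 1) * ((A + B - 2 * q - k : ℕ) : ℝ)) • cgvec A B q k := by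
  rw [cg1_cgvec, cg1_cgvec, mulVec_smul, cg1_phi_raise A B q k hA hB hk, smul_smul, smul_smul]
  congr 1
  exact cg1_norm (Sq_pos A B q hA hB) (by exact_mod_cast Nat.choose_pos (by omega))
    (by exact_mod_cast Nat.choose_pos (by omega)) (Nat.cast_nonneg _) (Nat.cast_nonneg _)
    (cg1_choose _ _)

theorem cg_raise_zero (A B q : ℕ) (hA : q ≤ A) (hB : q ≤ B) :
    E2 A B *ᵥ cgvec A B q 0 = 0 := by
  rw [cg1_cgvec, mulVec_smul, cg1_phi_raise_zero A B q hA hB, smul_zero]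

theorem cg_lower (A B q k : ℕ) (hA : q ≤ A) (hB : q ≤ B) (hk : k + 1 ≤ A + B - 2 * q) :
    (E2 A B)ᵀ *ᵥ cgvec A B q k
      = √(((k : ℝ) + 1) * ((A + B - 2 * q - k : ℕ) : ℝ)) • cgvec A B q (k + 1) := by
  rw [cg1_cgvec, cg1_cgvec, mulVec_smul, cg1_phi_lower A B q k, smul_smul, smul_smul]
  congr 1
  exact cg1_norm' (Sq_pos A B q hA hB) (by exact_mod_cast Nat.choose_pos (by omega))
    (by exact_mod_cast Nat.choose_pos (by omega)) (Nat.cast_nonneg _) (Nat.cast_nonneg _)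
    (cg1_choose _ _)

theorem cg_lower_top (A B q : ℕ) (hA : q ≤ A) (hB : q ≤ B) :
    (E2 A B)ᵀ *ᵥ cgvec A B q (A + B - 2 * q) = 0 := by
  rw [cg1_cgvec, mulVec_smul, cg1_phi_lower A B q, cg1_phi_top A B q hA hB, smul_zero, smul_zero]

end Vale.Agent.P359
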