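import Vale.Agent.Lib.P359.CG1

/-!
# P359 / CG : the Clebsch–Gordan vectors form an orthonormal basis of joint `sl2` strings

Put `φ_k(r,m) = √(C(A,r) C(B,m)) kap A B q r m` on `r + m = q + k` and `0` elsewhere, so that
`cgvec A B q k = φ_k / √(Sq * C(A+B-2q,k))`.

* `(E2ᵀ φ_k)(r,m) = √(r(A-r+1)) φ_k(r-1,m) + √(m(B-m+1)) φ_k(r,m-1)` and
  `√(r(A-r+1)) √C(A,r-1) = r √C(A,r)` (because `(A-r+1) C(A,r-1) = r C(A,r)`), so by `kap_lower`
  `E2ᵀ φ_k = (k+1) φ_{k+1}`.
* `(E2 φ_k)(r,m) = √((r+1)(A-r)) φ_k(r+1,m) + √((m+1)(B-m)) φ_k(r,m+1)` and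
  `√((r+1)(A-r)) √C(A,r+1) = (A-r) √C(A,r)`, so by `kap_raise` (with `r+m = q+k-1`)
  `E2 φ_k = (A+B-2q-k+1) φ_{k-1}` for `k ≥ 1`; `E2 φ_0 = 0` (by `kap_zero`).
* dividing by the norms gives `cg_raise`, `cg_raise_zero`, `cg_lower`, `cg_lower_top`
  (`C(N,k+1)(k+1) = C(N,k)(N-k)`).
* norms: `‖φ_0‖² = Σ_{r+m=q} C(A,r)C(B,m) (C(q,r)/(C(A,r)C(B,m)))² = Sq` by `kap_top`, and
  `(k+1) ‖φ_{k+1}‖² = ⟨E2ᵀ φ_k, φ_{k+1}⟩ = ⟨φ_k, E2 φ_{k+1}⟩ = (A+B-2q-k) ‖φ_k‖²`.
* orthogonality: if `q+k ≠ q'+k'` the supports are disjoint; if `q < q'` and `q+k = q'+k'` then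
  `k > k'` and induct on `k'` : `φ_{q,k} = E2ᵀ φ_{q,k-1}/k`, so
  `⟨φ_{q,k}, φ_{q',k'}⟩ = ⟨φ_{q,k-1}, E2 φ_{q',k'}⟩ / k`, which is `0` for `k' = 0` and a multiple of
  `⟨φ_{q,k-1}, φ_{q',k'-1}⟩` otherwise.
* completeness: the family indexed by `(q,k)`, `q ≤ B`, `k ≤ A+B-2q`, is orthonormal and its
  cardinality `Σ_{q≤B} (A+B-2q+1) = (A+1)(B+1)` is the dimension.  (The square matrix `U` of the
  family satisfies `U Uᵀ = 1`, hence `Uᵀ U = 1`: `Matrix.mul_eq_one_comm` after reindexing, or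
  `Orthonormal` + `finrank`.)
-/

namespace Vale.Agent.P359

open Finset Matrix

/-- disjoint supports -/
theorem cg2_disjoint (A B q k q' k' : ℕ) (h : q + k ≠ q' + k') :
    cgvec A B q k ⬝ᵥ cgvec A B q' k' = 0 := by
  unfold dotProduct
  apply Finset.sum_eq_zero
  intro x _
  unfold cgvec cgv
  by_cases h1 : (x.1 : ℕ) + (x.2 : ℕ) = q + k
  · have h2 : ¬ ((x.1 : ℕ) + (x.2 : ℕ) = q' + k') := by
      intro h3
      exact h (h1.symm.trans h3)
    rw [if_neg h2, mul_zero]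
  · rw [if_neg h1, zero_mul]

/-- the transposed matrix moves to the other side -/
theorem cg2_move (A B : ℕ) (x y : Fin (A + 1) × Fin (B + 1) → ℝ) :
    ((E2 A B)ᵀ *ᵥ x) ⬝ᵥ y = x ⬝ᵥ (E2 A B *ᵥ y) := by
  rw [Matrix.mulVec_transpose, Matrix.dotProduct_mulVec]

theorem cg2_coef_pos (N k : ℕ) (hk : k + 1 ≤ N) :
    0 < √(((k : ℝ) + 1) * ((N - k : ℕ) : ℝ)) := by
  apply Real.sqrt_pos.mpr
  have h1 : (0 : ℝ) < ((N - k : ℕ) : ℝ) := by
    exact_mod_cast (by omega : 0 < N - k)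
  positivity

/-- strings at different heights are orthogonal -/
theorem cg2_heights (A B q q' : ℕ) (hA : q ≤ A) (hB : q ≤ B) (hA' : q' ≤ A) (hB' : q' ≤ B)
    (k' : ℕ) : ∀ k : ℕ, k' < k → k ≤ A + B - 2 * q → k' ≤ A + B - 2 * q' →
    cgvec A B q k ⬝ᵥ cgvec A B q' k' = 0 := by
  induction k' with
  | zero =>
    intro k hk hk1 _
    obtain ⟨j, rfl⟩ : ∃ j, k = j + 1 := ⟨k - 1, by omega⟩
    have h1 := cg_lower A B q j hA hB hk1
    have h2 := cg2_move A B (cgvec A B q j) (cgvec A B q' 0)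
    rw [h1, cg_raise_zero A B q' hA' hB', smul_dotProduct, dotProduct_zero, smul_eq_mul] at h2
    exact (mul_eq_zero.mp h2).resolve_left (cg2_coef_pos _ j hk1).ne'
  | succ j' ih =>
    intro k hk hk1 hk'1
    obtain ⟨j, rfl⟩ : ∃ j, k = j + 1 := ⟨k - 1, by omega⟩
    have h1 := cg_lower A B q j hA hB hk1
    have h2 := cg2_move A B (cgvec A B q j) (cgvec A B q' (j' + 1))
    rw [h1, cg_raise A B q' j' hA' hB' hk'1, smul_dotProduct, dotProduct_smul,
      ih j (by omega) (by omega) (by omega), smul_eq_mul, smul_zero] at h2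
    exact (mul_eq_zero.mp h2).resolve_left (cg2_coef_pos _ j hk1).ne'

/-- norm of the highest weight vector -/
theorem cg2_norm_zero (A B q : ℕ) (hA : q ≤ A) (hB : q ≤ B) :
    cgvec A B q 0 ⬝ᵥ cgvec A B q 0 = 1 := by
  have hS := Sq_pos A B q hA hB
  let g : ℕ → ℕ → ℝ := fun r m =>
    (q.choose r : ℝ) ^ 2 / ((A.choose r : ℝ) * (B.choose m : ℝ)) / Sq A B q
  have hterm : ∀ r m : ℕ, r < A + 1 → m < B + 1 →
      cgv A B q 0 r m * cgv A B q 0 r m = if r + m = q then g r m else 0 := by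
    intro r m hr hm
    unfold cgv
    rw [add_zero]
    by_cases h : r + m = q
    · rw [if_pos h, if_pos h, kap_top A B q r m h]
      have ha : (0 : ℝ) < (A.choose r : ℝ) := by
        exact_mod_cast Nat.choose_pos (by omega)
      have hb : (0 : ℝ) < (B.choose m : ℝ) := by
        exact_mod_cast Nat.choose_pos (by omega)
      rw [← pow_two, div_pow, mul_pow, Real.sq_sqrt (by positivity), Nat.choose_zero_right,
        Nat.cast_one, mul_one, Real.sq_sqrt hS.le]
      simp only [g]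
      congr 1
      rw [div_pow, mul_pow, ← pow_mul, mul_comm r 2, pow_mul, neg_one_sq, one_pow, one_mul]
      field_simp
    · rw [if_neg h, if_neg h, mul_zero]
  have h1 : cgvec A B q 0 ⬝ᵥ cgvec A B q 0 =
      ∑ r ∈ range (A + 1), ∑ m ∈ range (B + 1), if r + m = q then g r m else 0 := by
    unfold dotProduct cgvec
    rw [Fintype.sum_prod_type]
    rw [← Fin.sum_univ_eq_sum_range (fun r => ∑ m ∈ range (B + 1), if r + m = q then g r m else 0)]
    apply Finset.sum_congr rfl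
    intro r _
    rw [← Fin.sum_univ_eq_sum_range (fun m => if (r : ℕ) + m = q then g r m else 0)]
    apply Finset.sum_congr rfl
    intro m _
    exact hterm r m r.2 m.2
  have h2 : ∀ r ∈ range (A + 1), (∑ m ∈ range (B + 1), if r + m = q then g r m else 0) =
      if r ≤ q then g r (q - r) else 0 := by
    intro r _
    by_cases hr : r ≤ q
    · rw [if_pos hr]
      rw [Finset.sum_eq_single (q - r)]
      · rw [if_pos (by omega)]
      · intro m _ hm
        rw [if_neg (by omega)]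
      · intro hm
        exfalso
        apply hm
        rw [mem_range]
        omega
    · rw [if_neg hr]
      apply Finset.sum_eq_zero
      intro m _
      rw [if_neg (by omega)]
  rw [h1, Finset.sum_congr rfl h2, ← Finset.sum_filter]
  have h3 : (range (A + 1)).filter (fun r => r ≤ q) = range (q + 1) := by
    ext r
    simp only [mem_filter, mem_range]
    omega
  rw [h3]
  simp only [g]
  rw [← Finset.sum_div]
  unfold Sq at hS ⊢
  exact div_self hS.ne'

theorem cg2_norm (A B q : ℕ) (hA : q ≤ A) (hB : q ≤ B) (k : ℕ) (hk : k ≤ A + B - 2 * q) :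
    cgvec A B q k ⬝ᵥ cgvec A B q k = 1 := by
  induction k with
  | zero => exact cg2_norm_zero A B q hA hB
  | succ j ih =>
    have h1 := cg_lower A B q j hA hB hk
    have h2 := cg2_move A B (cgvec A B q j) (cgvec A B q (j + 1))
    rw [h1, cg_raise A B q j hA hB hk, smul_dotProduct, dotProduct_smul, ih (by omega)] at h2
    simp only [smul_eq_mul] at h2
    exact mul_left_cancel₀ (cg2_coef_pos _ j hk).ne' h2

theorem cg_orthonormal (A B q k q' k' : ℕ) (hA : q ≤ A) (hB : q ≤ B) (hA' : q' ≤ A) (hB' : q' ≤ B)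
    (hk : k ≤ A + B - 2 * q) (hk' : k' ≤ A + B - 2 * q') :
    cgvec A B q k ⬝ᵥ cgvec A B q' k' = if q = q' ∧ k = k' then 1 else 0 := by
  rcases lt_trichotomy k k' with h | h | h
  · rw [if_neg (by omega), dotProduct_comm]
    exact cg2_heights A B q' q hA' hB' hA hB k k' h hk' hk
  · by_cases hq : q = q'
    · subst hq
      subst h
      rw [if_pos ⟨rfl, rfl⟩]
      exact cg2_norm A B q hA hB k hk
    · rw [if_neg (by omega)]
      exact cg2_disjoint A B q k q' k' (by omega)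
  · rw [if_neg (by omega)]
    exact cg2_heights A B q q' hA hB hA' hB' k' k h hk hk'

end Vale.Agent.P359
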