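import Vale.Agent.Lib.P359.Defs

/-!
# P359 / Car : canonical anticommutation relations

`cc Q m` has entries `R ↦ insert m R` with the Jordan–Wigner sign.  The key sign identity: for
`a ≠ b`, `a,b ∉ R`, `sgn a (insert b R) * sgn b R = - sgn b (insert a R) * sgn a R`
(exactly one of `a < b`, `b < a` holds).
-/

namespace Vale.Agent.P359

open Finset Matrix

theorem sgn_mul_self {n : ℕ} (m : Fin n) (R : Finset (Fin n)) : sgn m R * sgn m R = 1 := by
  unfold sgn
  rw [← pow_add, ← two_mul, pow_mul]
  simp

/-- inserting a smaller element flips the sign -/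
theorem Car_sgn_insert {n : ℕ} (a b : Fin n) (R : Finset (Fin n)) (ha : a ∉ R) :
    sgn b (insert a R) = if a < b then - sgn b R else sgn b R := by
  unfold sgn
  rw [Finset.filter_insert]
  split_ifs with h
  · rw [Finset.card_insert_of_notMem, pow_succ]
    · ring
    · exact fun h' => ha (Finset.mem_filter.mp h').1
  · rfl

/-- the key sign identity -/
theorem Car_key {n : ℕ} {a b : Fin n} (hab : a ≠ b) {R : Finset (Fin n)} (ha : a ∉ R)
    (hb : b ∉ R) : sgn a R * sgn b (insert a R) = - (sgn b R * sgn a (insert b R)) := by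
  rw [Car_sgn_insert a b R ha, Car_sgn_insert b a R hb]
  rcases lt_or_gt_of_ne hab with h | h
  · rw [if_pos h, if_neg (not_lt.mpr h.le)]
    ring
  · rw [if_neg (not_lt.mpr h.le), if_pos h]
    ring

theorem Car_key2 {n : ℕ} {a b : Fin n} (hab : a ≠ b) {R : Finset (Fin n)} (ha : a ∉ R)
    (hb : b ∉ R) : sgn a (insert b R) * sgn b (insert a R) + sgn b R * sgn a R = 0 := by
  rw [Car_sgn_insert a b R ha, Car_sgn_insert b a R hb]
  rcases lt_or_gt_of_ne hab with h | h
  · rw [if_pos h, if_neg (not_lt.mpr h.le)]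
    ring
  · rw [if_neg (not_lt.mpr h.le), if_pos h]
    ring

/-- action on functions -/
theorem cc_mulVec (Q : ℕ) (m : Fin (Q + 1)) (f : Finset (Fin (Q + 1)) → ℝ)
    (R : Finset (Fin (Q + 1))) :
    (cc Q m *ᵥ f) R = if m ∈ R then 0 else sgn m R * f (insert m R) := by
  change ∑ S, (if m ∉ R ∧ S = insert m R then sgn m R else 0) * f S = _
  by_cases h : m ∈ R
  · rw [if_pos h]
    apply Finset.sum_eq_zero
    intro S _
    rw [if_neg (fun h' => h'.1 h), zero_mul]
  · rw [if_neg h, Finset.sum_eq_single (insert m R)]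
    · rw [if_pos ⟨h, rfl⟩]
    · intro S _ hS
      rw [if_neg (fun h' => hS h'.2), zero_mul]
    · intro h'
      exact absurd (Finset.mem_univ _) h'

/-- action of the creation operator on functions -/
theorem Car_ccT_mulVec (Q : ℕ) (m : Fin (Q + 1)) (f : Finset (Fin (Q + 1)) → ℝ)
    (R : Finset (Fin (Q + 1))) :
    ((cc Q m)ᵀ *ᵥ f) R = if m ∈ R then sgn m (R.erase m) * f (R.erase m) else 0 := by
  unfold Matrix.mulVec dotProduct
  simp only [Matrix.transpose_apply]
  unfold cc
  by_cases h : m ∈ R
  · rw [if_pos h, Finset.sum_eq_single (R.erase m)]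
    · rw [if_pos ⟨Finset.notMem_erase m R, (Finset.insert_erase h).symm⟩]
    · intro S _ hS
      rw [if_neg, zero_mul]
      rintro ⟨h1, h2⟩
      apply hS
      rw [h2, Finset.erase_insert h1]
    · intro h'
      exact absurd (Finset.mem_univ _) h'
  · rw [if_neg h]
    apply Finset.sum_eq_zero
    intro S _
    rw [if_neg, zero_mul]
    rintro ⟨_, h2⟩
    rw [h2] at h
    exact h (Finset.mem_insert_self m S)

theorem Car_ext {Q : ℕ} {A B : Op Q} (h : ∀ f R, (A *ᵥ f) R = (B *ᵥ f) R) : A = B := by
  ext R S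
  have h1 := h (Pi.single S 1) R
  simpa using h1

theorem car_anti (Q : ℕ) (a b : Fin (Q + 1)) : cc Q a * cc Q b = - (cc Q b * cc Q a) := by
  apply Car_ext
  intro f R
  rw [Matrix.neg_mulVec, Pi.neg_apply, ← Matrix.mulVec_mulVec, ← Matrix.mulVec_mulVec, cc_mulVec,
    cc_mulVec, cc_mulVec, cc_mulVec]
  by_cases hab : a = b
  · subst hab
    simp
  by_cases ha : a ∈ R
  · by_cases hb : b ∈ R
    · simp [ha, hb]
    · simp [ha, hb]
  · by_cases hb : b ∈ R
    · simp [ha, hb]
    · have h1 : b ∉ insert a R := by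
        rw [Finset.mem_insert, not_or]
        exact ⟨Ne.symm hab, hb⟩
      have h2 : a ∉ insert b R := by
        rw [Finset.mem_insert, not_or]
        exact ⟨hab, ha⟩
      rw [if_neg ha, if_neg h1, if_neg hb, if_neg h2, Finset.insert_comm b a R, ← mul_assoc,
        ← mul_assoc, Car_key hab ha hb]
      ring

theorem car_mixed (Q : ℕ) (a b : Fin (Q + 1)) :
    cc Q a * (cc Q b)ᵀ + (cc Q b)ᵀ * cc Q a = if a = b then 1 else 0 := by
  apply Car_ext
  intro f R
  rw [Matrix.add_mulVec, Pi.add_apply, ← Matrix.mulVec_mulVec, ← Matrix.mulVec_mulVec, cc_mulVec,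
    Car_ccT_mulVec, Car_ccT_mulVec, cc_mulVec]
  by_cases hab : a = b
  · subst hab
    rw [if_pos rfl, Matrix.one_mulVec]
    by_cases ha : a ∈ R
    · rw [if_pos ha, if_pos ha, if_neg (Finset.notMem_erase a R), Finset.insert_erase ha,
        ← mul_assoc, sgn_mul_self]
      ring
    · rw [if_neg ha, if_neg ha, if_pos (Finset.mem_insert_self a R), Finset.erase_insert ha,
        ← mul_assoc, sgn_mul_self]
      ring
  · rw [if_neg hab, Matrix.zero_mulVec, Pi.zero_apply]
    by_cases ha : a ∈ R
    · by_cases hb : b ∈ R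
      · rw [if_pos ha, if_pos hb, if_pos (Finset.mem_erase.mpr ⟨hab, ha⟩)]
        ring
      · rw [if_pos ha, if_neg hb]
        ring
    · by_cases hb : b ∈ R
      · have ha' : a ∉ R.erase b := fun h => ha (Finset.mem_of_mem_erase h)
        have hb' : b ∉ R.erase b := Finset.notMem_erase b R
        have hR : insert b (R.erase b) = R := Finset.insert_erase hb
        have h1 : (insert a R).erase b = insert a (R.erase b) := Finset.erase_insert_of_ne hab
        rw [if_neg ha, if_pos (Finset.mem_insert_of_mem hb), if_pos hb, if_neg ha', h1]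
        have h2 := Car_key2 hab ha' hb'
        rw [hR] at h2
        calc sgn a R * (sgn b (insert a (R.erase b)) * f (insert a (R.erase b))) +
              sgn b (R.erase b) * (sgn a (R.erase b) * f (insert a (R.erase b)))
            = (sgn a R * sgn b (insert a (R.erase b)) + sgn b (R.erase b) * sgn a (R.erase b)) *
              f (insert a (R.erase b)) := by ring
          _ = 0 := by rw [h2, zero_mul]
      · have h1 : b ∉ insert a R := by
          rw [Finset.mem_insert, not_or]
          exact ⟨Ne.symm hab, hb⟩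
        rw [if_neg ha, if_neg h1, if_neg hb]
        ring

/-- Pauli principle: `c_m† c_m ≤ 1`, from `car_mixed` : `1 - c†c = c c†` -/
theorem pauli (Q : ℕ) (m : Fin (Q + 1)) : (1 - (cc Q m)ᵀ * cc Q m).PosSemidef := by
  have h1 := car_mixed Q m m
  rw [if_pos rfl] at h1
  have h2 : 1 - (cc Q m)ᵀ * cc Q m = cc Q m * (cc Q m)ᵀ := by
    rw [← h1]
    abel
  rw [h2]
  have h3 := Matrix.posSemidef_self_mul_conjTranspose (cc Q m)
  rwa [Matrix.conjTranspose_eq_transpose_of_trivial] at h3

end Vale.Agent.P359
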