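import Vale.Agent.Lib.P359.ChanDef
import Vale.Agent.Lib.P359.Asym

/-!
# P359 / Chan : the channel inequalities of the local operator, for large `Q`

`b1q q = lim B1 Q q`, `c1q j = lim C1 Q j`, `al0q = lim al0 Q` are explicit rational numbers and
`al0q < 947/1000`, `2 b1q q < 3 (-1)^q (3q-1)/2^q` for `q = 2, 4, 5, …, 15`, `c1q j < 2` for
`j = 4, 6, …, 14` (`decide +kernel`, or `norm_num` after unfolding; split as needed).
-/

namespace Vale.Agent.P359

open Finset Matrix Filter Topology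

theorem chanLim_tendsto_two : Tendsto (fun Q : ℕ => ((2 * Q - 2 : ℕ) : ℝ) / Q) atTop (𝓝 2) := by
  have h1 : Tendsto (fun Q : ℕ => (2 : ℝ) - 2 / (Q : ℝ)) atTop (𝓝 (2 - 0)) :=
    tendsto_const_nhds.sub (tendsto_const_div_atTop_nhds_zero_nat 2)
  rw [sub_zero] at h1
  refine h1.congr' ?_
  filter_upwards [eventually_ge_atTop 1] with Q hQ
  have hQ' : (Q : ℝ) ≠ 0 := by positivity
  have h2 : ((2 * Q - 2 : ℕ) : ℝ) = 2 * (Q : ℝ) - 2 := by
    rw [Nat.cast_sub (by omega)]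
    push_cast
    ring
  rw [h2]
  field_simp

theorem tendsto_al0 : Tendsto (fun Q : ℕ => al0 Q) atTop (𝓝 ((al0q : ℚ) : ℝ)) := by
  unfold al0 al0q
  rw [Rat.cast_sum]
  refine tendsto_finsetSum _ fun s _ => ?_
  have h := tendsto_choose (fun Q => 2 * Q - 2) 2 (s : ℕ) chanLim_tendsto_two
  have h2 := h.const_mul (X0r s)
  unfold X0r at h2 ⊢
  push_cast
  exact h2

theorem tendsto_B1 (q : ℕ) : Tendsto (fun Q : ℕ => B1 Q q) atTop (𝓝 ((b1q q : ℚ) : ℝ)) := by
  unfold B1 b1q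
  rw [Rat.cast_sum]
  refine tendsto_finsetSum _ fun r _ => ?_
  rw [Rat.cast_sum]
  refine tendsto_finsetSum _ fun m _ => ?_
  rw [Rat.cast_sum]
  refine tendsto_finsetSum _ fun r' _ => ?_
  rw [Rat.cast_sum]
  refine tendsto_finsetSum _ fun m' _ => ?_
  by_cases h : (r : ℕ) + m = r' + m'
  · have h2 := (tendsto_coef3 q r m r' m' h).const_mul (X1r r m r' m')
    have e : ((((X1z r m r' m' : ℤ) : ℚ) / 65536 * L3 q r m r' m' : ℚ) : ℝ)
        = X1r r m r' m' * ((L3 q r m r' m' : ℚ) : ℝ) := by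
      unfold X1r
      push_cast
      ring
    rw [e]
    refine h2.congr fun Q => ?_
    ring
  · have hz : X1z r m r' m' = 0 := by
      unfold X1z
      rw [if_neg]
      tauto
    simp [X1r, hz]

theorem tendsto_C1 (j : ℕ) : Tendsto (fun Q : ℕ => C1 Q j) atTop (𝓝 ((c1q j : ℚ) : ℝ)) := by
  unfold C1 c1q
  rw [Rat.cast_sum]
  refine tendsto_finsetSum _ fun r _ => ?_
  rw [Rat.cast_sum]
  refine tendsto_finsetSum _ fun m _ => ?_
  rw [Rat.cast_sum]
  refine tendsto_finsetSum _ fun r' _ => ?_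
  rw [Rat.cast_sum]
  refine tendsto_finsetSum _ fun m' _ => ?_
  by_cases h : (r : ℕ) + m = r' + m'
  · have h2 := (tendsto_coef4 j r m r' m' h).const_mul (X2r r m r' m')
    have e : ((((X2z r m r' m' : ℤ) : ℚ) / 65536 * L4 j r m r' m' : ℚ) : ℝ)
        = X2r r m r' m' * ((L4 j r m r' m' : ℚ) : ℝ) := by
      unfold X2r
      push_cast
      ring
    rw [e]
    refine h2.congr fun Q => ?_
    ring
  · have hz : X2z r m r' m' = 0 := by
      unfold X2z
      rw [if_neg]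
      tauto
    simp [X2r, hz]

/-- `X1z` vanishes unless `r + m = r' + m'`, and `r + m ≤ 15 < q` kills `cgv` -/
theorem B1_zero (Q q : ℕ) (hq : 16 ≤ q) : B1 Q q = 0 := by
  unfold B1
  refine sum_eq_zero fun r _ => sum_eq_zero fun m _ => sum_eq_zero fun r' _ =>
    sum_eq_zero fun m' _ => ?_
  have hc : cgv (2 * Q - 2) Q q ((r : ℕ) + m - q) r m = 0 := by
    unfold cgv
    rw [if_neg]
    have h1 := r.isLt
    have h2 := m.isLt
    omega
  rw [hc]
  ring

theorem C1_zero (Q j : ℕ) (hj : 15 ≤ j) : C1 Q j = 0 := by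
  unfold C1
  refine sum_eq_zero fun r _ => sum_eq_zero fun m _ => sum_eq_zero fun r' _ =>
    sum_eq_zero fun m' _ => ?_
  have hc : cgv (2 * Q - 2) (2 * Q - 2) j ((r : ℕ) + m - j) r m = 0 := by
    unfold cgv
    rw [if_neg]
    have h1 := r.isLt
    have h2 := m.isLt
    omega
  rw [hc]
  ring

end Vale.Agent.P359
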