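import Vale.Agent.Lib.P359.ChanNum
import Vale.Agent.Lib.P359.ChanLim
import Vale.Agent.Lib.P359.AsymV

/-!
# P359 / Chan : the channel inequalities of the local operator, for large `Q`

`b1q q = lim B1 Q q`, `c1q j = lim C1 Q j`, `al0q = lim al0 Q` are explicit rational numbers and
`al0q < 947/1000`, `2 b1q q < 3 (-1)^q (3q-1)/2^q` for `q = 2, 4, 5, …, 15`, `c1q j < 2` for
`j = 4, 6, …, 14` (`decide +kernel`, or `norm_num` after unfolding; split as needed).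
-/

namespace Vale.Agent.P359

open Finset Matrix Filter Topology

/-- comparison of two products of a linear function with a convergent sequence -/
theorem chan_compare (f g : ℕ → ℝ) (a b α β γ δ : ℝ) (hf : Tendsto f atTop (𝓝 a))
    (hg : Tendsto g atTop (𝓝 b)) (h : α * a < b * γ) :
    ∀ᶠ Q : ℕ in atTop, (α * (Q : ℝ) - β) * f Q ≤ g Q * (γ * (Q : ℝ) - δ) := by
  have h0 : ∀ c : ℝ, Tendsto (fun Q : ℕ => c / (Q : ℝ)) atTop (𝓝 0) := fun c =>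
    tendsto_const_div_atTop_nhds_zero_nat c
  have h1 : Tendsto (fun Q : ℕ => (α - β / (Q : ℝ)) * f Q) atTop (𝓝 ((α - 0) * a)) :=
    (tendsto_const_nhds.sub (h0 β)).mul hf
  have h2 : Tendsto (fun Q : ℕ => g Q * (γ - δ / (Q : ℝ))) atTop (𝓝 (b * (γ - 0))) :=
    hg.mul (tendsto_const_nhds.sub (h0 δ))
  rw [sub_zero] at h1 h2
  filter_upwards [h1.eventually_lt h2 h, eventually_gt_atTop 0] with Q hQ hQ0
  have hQ1 : (0 : ℝ) < (Q : ℝ) := by exact_mod_cast hQ0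
  have e1 : (α * (Q : ℝ) - β) * f Q = (Q : ℝ) * ((α - β / (Q : ℝ)) * f Q) := by
    field_simp
  have e2 : g Q * (γ * (Q : ℝ) - δ) = (Q : ℝ) * (g Q * (γ - δ / (Q : ℝ))) := by
    field_simp
  rw [e1, e2]
  exact mul_le_mul_of_nonneg_left hQ.le hQ1.le

theorem ev_al0 : ∀ᶠ Q : ℕ in atTop, al0 Q ≤ 947 / 1000 := by
  have h1 : ((al0q : ℚ) : ℝ) < 947 / 1000 := by
    have h2 : ((al0q : ℚ) : ℝ) < ((947 / 1000 : ℚ) : ℝ) := Rat.cast_lt.mpr al0q_lt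
    have h3 : ((947 / 1000 : ℚ) : ℝ) = 947 / 1000 := by norm_num
    rw [h3] at h2
    exact h2
  filter_upwards [tendsto_al0.eventually_lt_const h1] with Q hQ
  exact hQ.le

theorem chan_B1_one (q : ℕ) (hq : q = 2 ∨ (4 ≤ q ∧ q ≤ 15)) : ∀ᶠ Q : ℕ in atTop,
    (2 * (Q : ℝ) - 1) * B1 Q q ≤ vv Q q * (3 * (Q : ℝ) - 1 - 2 * q) := by
  have h1 : (2 : ℝ) * ((b1q q : ℚ) : ℝ) < ((-1) ^ q * (3 * (q : ℝ) - 1) / 2 ^ q) * 3 := by
    have h2 : ((2 * b1q q : ℚ) : ℝ) < ((3 * ((-1) ^ q * (3 * (q : ℚ) - 1) / 2 ^ q) : ℚ) : ℝ) :=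
      Rat.cast_lt.mpr (b1q_lt q hq)
    push_cast at h2
    linarith
  have h3 := chan_compare (fun Q => B1 Q q) (fun Q => vv Q q) _ _ 2 1 3 (1 + 2 * (q : ℝ))
    (tendsto_B1 q) (tendsto_vv q) h1
  filter_upwards [h3] with Q hQ
  have e : 3 * (Q : ℝ) - 1 - 2 * q = 3 * (Q : ℝ) - (1 + 2 * (q : ℝ)) := by ring
  rw [e]
  exact hQ

theorem chan_C1_one (j : ℕ) (hj : j = 4 ∨ j = 6 ∨ j = 8 ∨ j = 10 ∨ j = 12 ∨ j = 14) :
    ∀ᶠ Q : ℕ in atTop, (2 * (Q : ℝ) - 1) * C1 Q j ≤ 4 * (Q : ℝ) - 3 - 2 * j := by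
  have h1 : (2 : ℝ) * ((c1q j : ℚ) : ℝ) < 1 * 4 := by
    have h2 : ((c1q j : ℚ) : ℝ) < 2 := by
      have := c1q_lt j hj
      exact_mod_cast this
    linarith
  have h3 := chan_compare (fun Q => C1 Q j) (fun _ => 1) _ _ 2 1 4 (3 + 2 * (j : ℝ))
    (tendsto_C1 j) tendsto_const_nhds h1
  filter_upwards [h3] with Q hQ
  linarith

theorem ev_B1 : ∀ᶠ Q : ℕ in atTop, ∀ q : ℕ, (q = 2 ∨ (4 ≤ q ∧ q ≤ 15)) →
    (2 * (Q : ℝ) - 1) * B1 Q q ≤ vv Q q * (3 * (Q : ℝ) - 1 - 2 * q) := by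
  have h : ∀ᶠ Q : ℕ in atTop, ∀ q ∈ range 16, (q = 2 ∨ (4 ≤ q ∧ q ≤ 15)) →
      (2 * (Q : ℝ) - 1) * B1 Q q ≤ vv Q q * (3 * (Q : ℝ) - 1 - 2 * q) := by
    rw [Filter.eventually_all_finset]
    intro q _
    by_cases hq : q = 2 ∨ (4 ≤ q ∧ q ≤ 15)
    · filter_upwards [chan_B1_one q hq] with Q hQ _
      exact hQ
    · exact Filter.Eventually.of_forall (fun Q hq' => absurd hq' hq)
  filter_upwards [h] with Q hQ q hq
  exact hQ q (mem_range.mpr (by omega)) hq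

theorem ev_C1 : ∀ᶠ Q : ℕ in atTop, ∀ j : ℕ,
    (j = 4 ∨ j = 6 ∨ j = 8 ∨ j = 10 ∨ j = 12 ∨ j = 14) →
    (2 * (Q : ℝ) - 1) * C1 Q j ≤ 4 * (Q : ℝ) - 3 - 2 * j := by
  have h : ∀ᶠ Q : ℕ in atTop, ∀ j ∈ range 15,
      (j = 4 ∨ j = 6 ∨ j = 8 ∨ j = 10 ∨ j = 12 ∨ j = 14) →
      (2 * (Q : ℝ) - 1) * C1 Q j ≤ 4 * (Q : ℝ) - 3 - 2 * j := by
    rw [Filter.eventually_all_finset]
    intro j _
    by_cases hj : j = 4 ∨ j = 6 ∨ j = 8 ∨ j = 10 ∨ j = 12 ∨ j = 14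
    · filter_upwards [chan_C1_one j hj] with Q hQ _
      exact hQ
    · exact Filter.Eventually.of_forall (fun Q hj' => absurd hj' hj)
  filter_upwards [h] with Q hQ j hj
  exact hQ j (mem_range.mpr (by omega)) hj

end Vale.Agent.P359
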