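import Vale.Agent.Lib.P359.Data
import Vale.Agent.Lib.P359.AsymDef

/-!
# P359 / Chan : the channel inequalities of the local operator, for large `Q`

`b1q q = lim B1 Q q`, `c1q j = lim C1 Q j`, `al0q = lim al0 Q` are explicit rational numbers and
`al0q < 947/1000`, `2 b1q q < 3 (-1)^q (3q-1)/2^q` for `q = 2, 4, 5, …, 15`, `c1q j < 2` for
`j = 4, 6, …, 14` (`decide +kernel`, or `norm_num` after unfolding; split as needed).
-/

namespace Vale.Agent.P359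

open Finset Matrix Filter Topology

def al0q : ℚ := ∑ s : Fin 8, (X0z s : ℚ) / 65536 * (2 ^ (s : ℕ) / ((s : ℕ).factorial : ℚ))

def b1q (q : ℕ) : ℚ :=
  ∑ r : Fin 8, ∑ m : Fin 9, ∑ r' : Fin 8, ∑ m' : Fin 9,
    (X1z r m r' m' : ℚ) / 65536 * L3 q r m r' m'

def c1q (j : ℕ) : ℚ :=
  ∑ r : Fin 8, ∑ s : Fin 8, ∑ r' : Fin 8, ∑ s' : Fin 8,
    (X2z r s r' s' : ℚ) / 65536 * L4 j r s r' s'

end Vale.Agent.P359
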