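import Vale.Agent.Lib.P359.ChanDef

/-!
# P359 / Chan : the channel inequalities of the local operator, for large `Q`

`b1q q = lim B1 Q q`, `c1q j = lim C1 Q j`, `al0q = lim al0 Q` are explicit rational numbers and
`al0q < 947/1000`, `2 b1q q < 3 (-1)^q (3q-1)/2^q` for `q = 2, 4, 5, …, 15`, `c1q j < 2` for
`j = 4, 6, …, 14` (`decide +kernel`, after removal of one summation variable).
-/

namespace Vale.Agent.P359
open Finset Matrix Filter Topology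

/-- collapse of the last summation variable -/
theorem chan_collapse (a b : ℕ) (f : ℕ → ℕ → ℕ → ℕ → ℚ)
    (hf : ∀ r m r' m', r + m ≠ r' + m' → f r m r' m' = 0) :
    ∑ r : Fin a, ∑ m : Fin b, ∑ r' : Fin a, ∑ m' : Fin b, f r m r' m' =
      ∑ r : Fin a, ∑ m : Fin b, ∑ r' : Fin a,
        if (r' : ℕ) ≤ r + m ∧ (r : ℕ) + m - r' < b then f r m r' (r + m - r') else 0 := by
  refine Finset.sum_congr rfl fun r _ => Finset.sum_congr rfl fun m _ =>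
    Finset.sum_congr rfl fun r' _ => ?_
  split_ifs with h
  · rw [Finset.sum_eq_single (⟨(r : ℕ) + m - r', h.2⟩ : Fin b)]
    · intro m' _ hm'
      apply hf
      intro he
      apply hm'
      apply Fin.ext
      show (m' : ℕ) = (r : ℕ) + m - r'
      omega
    · intro h0
      exact absurd (Finset.mem_univ _) h0
  · refine Finset.sum_eq_zero fun m' _ => ?_
    apply hf
    intro he
    apply h
    have := m'.2
    constructor <;> omega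

theorem b1q_eq (q : ℕ) : b1q q = ∑ r : Fin 8, ∑ m : Fin 9, ∑ r' : Fin 8,
    if (r' : ℕ) ≤ r + m ∧ (r : ℕ) + m - r' < 9 then
      (X1z r m r' (r + m - r') : ℚ) / 65536 * L3 q r m r' (r + m - r') else 0 := by
  unfold b1q
  refine chan_collapse 8 9 (fun r m r' m' => (X1z r m r' m' : ℚ) / 65536 * L3 q r m r' m') ?_
  intro r m r' m' h
  have : L3 q r m r' m' = 0 := if_neg (fun h' => h h'.2)
  simp only [this, mul_zero]

theorem c1q_eq (j : ℕ) : c1q j = ∑ r : Fin 8, ∑ s : Fin 8, ∑ r' : Fin 8,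
    if (r' : ℕ) ≤ r + s ∧ (r : ℕ) + s - r' < 8 then
      (X2z r s r' (r + s - r') : ℚ) / 65536 * L4 j r s r' (r + s - r') else 0 := by
  unfold c1q
  refine chan_collapse 8 8 (fun r m r' m' => (X2z r m r' m' : ℚ) / 65536 * L4 j r m r' m') ?_
  intro r m r' m' h
  have : L4 j r m r' m' = 0 := if_neg (fun h' => h h'.2)
  simp only [this, mul_zero]


theorem al0q_lt : al0q < 947 / 1000 := by
  decide +kernel

theorem b1q_lt_2 : 2 * b1q 2 < 3 * ((-1) ^ 2 * (3 * ((2 : ℕ) : ℚ) - 1) / 2 ^ 2) := by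
  rw [b1q_eq]
  decide +kernel

theorem b1q_lt_4 : 2 * b1q 4 < 3 * ((-1) ^ 4 * (3 * ((4 : ℕ) : ℚ) - 1) / 2 ^ 4) := by
  rw [b1q_eq]
  decide +kernel

theorem b1q_lt_5 : 2 * b1q 5 < 3 * ((-1) ^ 5 * (3 * ((5 : ℕ) : ℚ) - 1) / 2 ^ 5) := by
  rw [b1q_eq]
  decide +kernel

theorem b1q_lt_6 : 2 * b1q 6 < 3 * ((-1) ^ 6 * (3 * ((6 : ℕ) : ℚ) - 1) / 2 ^ 6) := by
  rw [b1q_eq]
  decide +kernel

theorem b1q_lt_7 : 2 * b1q 7 < 3 * ((-1) ^ 7 * (3 * ((7 : ℕ) : ℚ) - 1) / 2 ^ 7) := by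
  rw [b1q_eq]
  decide +kernel

theorem b1q_lt_8 : 2 * b1q 8 < 3 * ((-1) ^ 8 * (3 * ((8 : ℕ) : ℚ) - 1) / 2 ^ 8) := by
  rw [b1q_eq]
  decide +kernel

theorem b1q_lt_9 : 2 * b1q 9 < 3 * ((-1) ^ 9 * (3 * ((9 : ℕ) : ℚ) - 1) / 2 ^ 9) := by
  rw [b1q_eq]
  decide +kernel

theorem b1q_lt_10 : 2 * b1q 10 < 3 * ((-1) ^ 10 * (3 * ((10 : ℕ) : ℚ) - 1) / 2 ^ 10) := by
  rw [b1q_eq]
  decide +kernel

theorem b1q_lt_11 : 2 * b1q 11 < 3 * ((-1) ^ 11 * (3 * ((11 : ℕ) : ℚ) - 1) / 2 ^ 11) := by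
  rw [b1q_eq]
  decide +kernel

theorem b1q_lt_12 : 2 * b1q 12 < 3 * ((-1) ^ 12 * (3 * ((12 : ℕ) : ℚ) - 1) / 2 ^ 12) := by
  rw [b1q_eq]
  decide +kernel

theorem b1q_lt_13 : 2 * b1q 13 < 3 * ((-1) ^ 13 * (3 * ((13 : ℕ) : ℚ) - 1) / 2 ^ 13) := by
  rw [b1q_eq]
  decide +kernel

theorem b1q_lt_14 : 2 * b1q 14 < 3 * ((-1) ^ 14 * (3 * ((14 : ℕ) : ℚ) - 1) / 2 ^ 14) := by
  rw [b1q_eq]
  decide +kernel

theorem b1q_lt_15 : 2 * b1q 15 < 3 * ((-1) ^ 15 * (3 * ((15 : ℕ) : ℚ) - 1) / 2 ^ 15) := by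
  rw [b1q_eq]
  decide +kernel

theorem c1q_lt_4 : c1q 4 < 2 := by
  rw [c1q_eq]
  decide +kernel

theorem c1q_lt_6 : c1q 6 < 2 := by
  rw [c1q_eq]
  decide +kernel

theorem c1q_lt_8 : c1q 8 < 2 := by
  rw [c1q_eq]
  decide +kernel

theorem c1q_lt_10 : c1q 10 < 2 := by
  rw [c1q_eq]
  decide +kernel

theorem c1q_lt_12 : c1q 12 < 2 := by
  rw [c1q_eq]
  decide +kernel

theorem c1q_lt_14 : c1q 14 < 2 := by
  rw [c1q_eq]
  decide +kernel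

theorem b1q_lt (q : ℕ) (hq : q = 2 ∨ (4 ≤ q ∧ q ≤ 15)) :
    2 * b1q q < 3 * ((-1) ^ q * (3 * (q : ℚ) - 1) / 2 ^ q) := by
  rcases hq with rfl | ⟨h1, h2⟩
  · exact b1q_lt_2
  · interval_cases q
    · exact b1q_lt_4
    · exact b1q_lt_5
    · exact b1q_lt_6
    · exact b1q_lt_7
    · exact b1q_lt_8
    · exact b1q_lt_9
    · exact b1q_lt_10
    · exact b1q_lt_11
    · exact b1q_lt_12
    · exact b1q_lt_13
    · exact b1q_lt_14
    · exact b1q_lt_15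

theorem c1q_lt (j : ℕ) (hj : j = 4 ∨ j = 6 ∨ j = 8 ∨ j = 10 ∨ j = 12 ∨ j = 14) : c1q j < 2 := by
  rcases hj with rfl | rfl | rfl | rfl | rfl | rfl
  · exact c1q_lt_4
  · exact c1q_lt_6
  · exact c1q_lt_8
  · exact c1q_lt_10
  · exact c1q_lt_12
  · exact c1q_lt_14

end Vale.Agent.P359
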