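import Vale.Agent.Lib.P359.HSq1

/-!
# P359 / HSq : the identity `H² = H + Σ V (c b)†(c b) + Σ (b b)†(b b)`

Write `w_s(a,b) = ww Q s a b` (antisymmetric), `c†_x = (cc Q x)ᵀ`.

1. `b_r c†_x = c†_x b_r + d_{r,x}` with `d_{r,x} = Σ_b w_r(x,b) c_b`
   (`c_b c_a c†_x = δ_{ax} c_b - δ_{bx} c_a + c†_x c_b c_a`).
2. `d_{r,x} c†_y = w_r(x,y) - c†_y d_{r,x}`.
3. `b_s† = ½ Σ_{x,y} w_s(x,y) c†_x c†_y`; moving `b_r` through:
   `b_r b_s† = b_s† b_r + ½ Σ_{xy} w_s(x,y) [c†_x d_{r,y} - c†_y d_{r,x} + w_r(x,y)]`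
   `= b_s† b_r + δ_{rs} + Σ_{x,b} V_{(r,x),(s,b)} c†_x c_b`, where
   `V_{(r,x),(s,b)} = -Σ_k w_r(k,b) w_s(k,x)` (antisymmetry of `w`), and `½ Σ w_s w_r = δ_{rs}`
   (`ww_orthonormal`).
4. `b_r b_s = b_s b_r` (CAR).
5. `H² = Σ_{r,s} b_r† (b_r b_s†) b_s`, and `b_r† c†_x c_b b_s = (c_x b_r)† (c_b b_s)`,
   `b_r† b_s† b_r b_s = (b_s b_r)† (b_s b_r)`.
-/

namespace Vale.Agent.P359

open Finset Matrix

theorem HH_sq_term (Q : ℕ) (hQ : 1 ≤ Q) (r s : Fin (2 * Q - 2 + 1)) :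
    ((bb Q r)ᵀ * bb Q r) * ((bb Q s)ᵀ * bb Q s) =
      (if r = s then (bb Q r)ᵀ * bb Q r else 0)
      + (∑ a : Fin (Q + 1), ∑ b : Fin (Q + 1), VV Q (r, a) (s, b) • ((T3 Q (r, a))ᵀ * T3 Q (s, b)))
      + (T4 Q (r, s))ᵀ * T4 Q (r, s) := by
  have h1 : ((bb Q r)ᵀ * bb Q r) * ((bb Q s)ᵀ * bb Q s)
      = (bb Q r)ᵀ * (bb Q r * (bb Q s)ᵀ) * bb Q s := by
    simp only [Matrix.mul_assoc]
  rw [h1, bb_bbT Q hQ r s]
  simp only [Matrix.mul_add, Matrix.add_mul, Matrix.mul_sum, Matrix.sum_mul, Matrix.mul_smul,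
    Matrix.smul_mul]
  have h2 : (bb Q r)ᵀ * ((bb Q s)ᵀ * bb Q r) * bb Q s = (T4 Q (r, s))ᵀ * T4 Q (r, s) := by
    unfold T4
    rw [Matrix.transpose_mul]
    simp only [Matrix.mul_assoc]
    rw [bb_comm Q r s]
  have h3 : (bb Q r)ᵀ * (if r = s then (1 : Op Q) else 0) * bb Q s
      = if r = s then (bb Q r)ᵀ * bb Q r else 0 := by
    by_cases h : r = s
    · subst h
      simp
    · simp [h]
  have h4 : ∀ a b : Fin (Q + 1), (bb Q r)ᵀ * ((cc Q a)ᵀ * cc Q b) * bb Q s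
      = (T3 Q (r, a))ᵀ * T3 Q (s, b) := by
    intro a b
    unfold T3
    rw [Matrix.transpose_mul]
    simp only [Matrix.mul_assoc]
  rw [h2, h3]
  simp only [h4]
  abel

theorem HH_sq (Q : ℕ) (hQ : 1 ≤ Q) :
    HH Q * HH Q = HH Q + (∑ x : I3 Q, ∑ y : I3 Q, VV Q x y • ((T3 Q x)ᵀ * T3 Q y))
      + ∑ x : I4 Q, (T4 Q x)ᵀ * T4 Q x := by
  have hH : HH Q = ∑ s : Fin (2 * Q - 2 + 1), (bb Q s)ᵀ * bb Q s := by
    unfold HH
    rw [Finset.sum_range]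
  have hsq : HH Q * HH Q = ∑ r : Fin (2 * Q - 2 + 1), ∑ s : Fin (2 * Q - 2 + 1),
      ((bb Q r)ᵀ * bb Q r) * ((bb Q s)ᵀ * bb Q s) := by
    rw [hH, Matrix.sum_mul]
    refine Finset.sum_congr rfl fun r _ => ?_
    rw [Matrix.mul_sum]
  rw [hsq]
  simp only [HH_sq_term Q hQ, Finset.sum_add_distrib]
  congr 1
  · congr 1
    · rw [hH]
      refine Finset.sum_congr rfl fun r _ => ?_
      simp
    · rw [Fintype.sum_prod_type]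
      refine Finset.sum_congr rfl fun r _ => ?_
      rw [Finset.sum_comm]
      refine Finset.sum_congr rfl fun a _ => ?_
      rw [Fintype.sum_prod_type]
  · rw [Fintype.sum_prod_type]

end Vale.Agent.P359
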