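import Vale.Agent.Lib.P359.Slice2

/-!
# P359 / Slice : slicing the Fock space along the occupation of the orbitals `0,…,8`

For `f` on `Finset (Fin (Q+1))`, `B` a set of orbitals `> 8`, put
`gB f B A = f (A ∪ B) √(∏_{k∈A} C(Q,k)/Q^k)` for `A ⊆ {0,…,8}`.

* `gB (ĉ_m f) B = √(Q^m) • lann m (gB f B)`: the Jordan–Wigner sign of `m ≤ 8` only sees elements
  `< m`, so it only depends on `A`, and `√C(Q,m) = √(Q^m) √(C(Q,m)/Q^m)`.
* `b̂_s = Σ_{a<b, a+b=s+1} (b-a) ĉ_b ĉ_a` (`ww_eq`), so `gB (b̂_s f) B = √(Q^(s+1)) • lb s (gB f B)`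
  for `s ≤ 7`.
* `u ⬝ v = Σ_B Σ_A u(A∪B) v(A∪B) = Σ_B Σ_A (∏_{k∈A} Q^k/C(Q,k)) gB u B A * gB v B A`.
-/

namespace Vale.Agent.P359

open Finset Matrix

/-- the weighted sum over all slices, as a linear functional -/
noncomputable def sliceFun (Q : ℕ) :
    (Finset (Fin (Q + 1)) → Finset (Fin 9) → ℝ) →ₗ[ℝ] ℝ where
  toFun F := ∑ B ∈ high Q, ∑ R : Finset (Fin 9), (∏ k ∈ R, wQ Q k) * F B R
  map_add' F G := by
    simp only [Pi.add_apply, mul_add, Finset.sum_add_distrib]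
  map_smul' c F := by
    simp only [Pi.smul_apply, smul_eq_mul, RingHom.id_apply, Finset.mul_sum]
    refine Finset.sum_congr rfl fun B _ => Finset.sum_congr rfl fun R _ => ?_
    ring

theorem sliceFun_apply (Q : ℕ) (F : Finset (Fin (Q + 1)) → Finset (Fin 9) → ℝ) :
    sliceFun Q F = ∑ B ∈ high Q, ∑ R : Finset (Fin 9), (∏ k ∈ R, wQ Q k) * F B R := rfl

theorem sliceFun_congr (Q : ℕ) {F G : Finset (Fin (Q + 1)) → Finset (Fin 9) → ℝ}
    (h : ∀ B ∈ high Q, ∀ R, F B R = G B R) : sliceFun Q F = sliceFun Q G := by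
  rw [sliceFun_apply, sliceFun_apply]
  refine Finset.sum_congr rfl fun B hB => Finset.sum_congr rfl fun R _ => ?_
  rw [h B hB R]

theorem sliceFun_mul (Q : ℕ) (c : ℝ) (F : Finset (Fin (Q + 1)) → Finset (Fin 9) → ℝ) :
    c * sliceFun Q F = sliceFun Q (fun B R => c * F B R) := by
  rw [← smul_eq_mul, ← map_smul]
  rfl

theorem slice_quad (Q : ℕ) (A B : Op Q) (f : Finset (Fin (Q + 1)) → ℝ) :
    f ⬝ᵥ ((Aᵀ * B) *ᵥ f) = (A *ᵥ f) ⬝ᵥ (B *ᵥ f) := by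
  rw [← Matrix.mulVec_mulVec, Matrix.dotProduct_mulVec, Matrix.vecMul_transpose]

theorem slice_dot (Q : ℕ) (hQ : 8 ≤ Q) (u v : Finset (Fin (Q + 1)) → ℝ) :
    u ⬝ᵥ v = sliceFun Q (fun B R => gB Q hQ u B R * gB Q hQ v B R) := dot_slice Q hQ u v

theorem lann_smul_slice (m : Fin 9) (c : ℝ) (g : Finset (Fin 9) → ℝ) (R : Finset (Fin 9)) :
    lann m (fun R => c * g R) R = c * lann m g R := by
  unfold lann
  split_ifs
  · simp
  · ring

theorem lb_smul_slice (s : ℕ) (c : ℝ) (g : Finset (Fin 9) → ℝ) (R : Finset (Fin 9)) :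
    lb s (fun R => c * g R) R = c * lb s g R := by
  unfold lb
  have h : ∀ a : Fin 9, lann a (fun R => c * g R) = fun R => c * lann a g R := by
    intro a
    funext R
    exact lann_smul_slice a c g R
  rw [Finset.mul_sum]
  refine Finset.sum_congr rfl fun a _ => ?_
  rw [Finset.mul_sum]
  refine Finset.sum_congr rfl fun b _ => ?_
  split_ifs
  · rw [h a, lann_smul_slice]
    ring
  · simp

theorem gB_chbh (Q : ℕ) (hQ : 8 ≤ Q) (r : Fin 8) (m : Fin 9) (f : Finset (Fin (Q + 1)) → ℝ)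
    (B : Finset (Fin (Q + 1))) (hB : B ∈ high Q) (R : Finset (Fin 9)) :
    gB Q hQ ((ch Q m * bh Q r) *ᵥ f) B R =
      √((Q : ℝ) ^ ((r : ℕ) + m + 1)) * lann m (lb r (gB Q hQ f B)) R := by
  rw [← Matrix.mulVec_mulVec, gB_ch Q hQ m _ B hB R]
  have h : gB Q hQ (bh Q r *ᵥ f) B = fun R => √((Q : ℝ) ^ ((r : ℕ) + 1)) *
      lb r (gB Q hQ f B) R := by
    funext R
    exact gB_bh Q hQ r (by omega) f B hB R
  rw [h, lann_smul_slice, ← mul_assoc, ← Real.sqrt_mul (by positivity), ← pow_add]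
  congr 3
  ring

theorem gB_bhbh (Q : ℕ) (hQ : 8 ≤ Q) (r s : Fin 8) (f : Finset (Fin (Q + 1)) → ℝ)
    (B : Finset (Fin (Q + 1))) (hB : B ∈ high Q) (R : Finset (Fin 9)) :
    gB Q hQ ((bh Q s * bh Q r) *ᵥ f) B R =
      √((Q : ℝ) ^ ((r : ℕ) + s + 2)) * lb s (lb r (gB Q hQ f B)) R := by
  rw [← Matrix.mulVec_mulVec, gB_bh Q hQ s (by omega) _ B hB R]
  have h : gB Q hQ (bh Q r *ᵥ f) B = fun R => √((Q : ℝ) ^ ((r : ℕ) + 1)) *
      lb r (gB Q hQ f B) R := by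
    funext R
    exact gB_bh Q hQ r (by omega) f B hB R
  rw [h, lb_smul_slice, ← mul_assoc, ← Real.sqrt_mul (by positivity), ← pow_add]
  congr 3
  ring

theorem slice_term0 (Q : ℕ) (hQ : 8 ≤ Q) (s : ℕ) (hs : s ≤ 7) (f : Finset (Fin (Q + 1)) → ℝ) :
    f ⬝ᵥ (((bh Q s)ᵀ * bh Q s) *ᵥ f) =
      (Q : ℝ) ^ (s + 1) * sliceFun Q (fun B R => (lb s (gB Q hQ f B) R) ^ 2) := by
  rw [slice_quad, slice_dot Q hQ, sliceFun_mul]
  apply sliceFun_congr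
  intro B hB R
  rw [gB_bh Q hQ s hs f B hB R]
  have h : √((Q : ℝ) ^ (s + 1)) * √((Q : ℝ) ^ (s + 1)) = (Q : ℝ) ^ (s + 1) :=
    Real.mul_self_sqrt (by positivity)
  linear_combination (lb s (gB Q hQ f B) R) ^ 2 * h

theorem slice_term1 (Q : ℕ) (hQ : 8 ≤ Q) (r : Fin 8) (m : Fin 9) (r' : Fin 8) (m' : Fin 9)
    (hrm : (r : ℕ) + m = r' + m') (f : Finset (Fin (Q + 1)) → ℝ) :
    f ⬝ᵥ (((ch Q m * bh Q r)ᵀ * (ch Q m' * bh Q r')) *ᵥ f) =
      (Q : ℝ) ^ ((r : ℕ) + m + 1) * sliceFun Q (fun B R =>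
        lann m (lb r (gB Q hQ f B)) R * lann m' (lb r' (gB Q hQ f B)) R) := by
  rw [slice_quad, slice_dot Q hQ, sliceFun_mul]
  apply sliceFun_congr
  intro B hB R
  rw [gB_chbh Q hQ r m f B hB R, gB_chbh Q hQ r' m' f B hB R, ← hrm]
  have h : √((Q : ℝ) ^ ((r : ℕ) + m + 1)) * √((Q : ℝ) ^ ((r : ℕ) + m + 1)) =
      (Q : ℝ) ^ ((r : ℕ) + m + 1) := Real.mul_self_sqrt (by positivity)
  linear_combination (lann m (lb r (gB Q hQ f B)) R * lann m' (lb r' (gB Q hQ f B)) R) * h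

theorem slice_term2 (Q : ℕ) (hQ : 8 ≤ Q) (r s r' s' : Fin 8)
    (hrs : (r : ℕ) + s = r' + s') (f : Finset (Fin (Q + 1)) → ℝ) :
    f ⬝ᵥ (((bh Q s * bh Q r)ᵀ * (bh Q s' * bh Q r')) *ᵥ f) =
      (Q : ℝ) ^ ((r : ℕ) + s + 2) * sliceFun Q (fun B R =>
        lb s (lb r (gB Q hQ f B)) R * lb s' (lb r' (gB Q hQ f B)) R) := by
  rw [slice_quad, slice_dot Q hQ, sliceFun_mul]
  apply sliceFun_congr
  intro B hB R
  rw [gB_bhbh Q hQ r s f B hB R, gB_bhbh Q hQ r' s' f B hB R, ← hrs]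
  have h : √((Q : ℝ) ^ ((r : ℕ) + s + 2)) * √((Q : ℝ) ^ ((r : ℕ) + s + 2)) =
      (Q : ℝ) ^ ((r : ℕ) + s + 2) := Real.mul_self_sqrt (by positivity)
  linear_combination (lb s (lb r (gB Q hQ f B)) R * lb s' (lb r' (gB Q hQ f B)) R) * h

theorem X1r_eq_zero {r m r' m' : ℕ} (h : r + m ≠ r' + m') : X1r r m r' m' = 0 := by
  unfold X1r X1z
  rw [if_neg (fun h2 => h h2.1)]
  simp

theorem X2r_eq_zero {r s r' s' : ℕ} (h : r + s ≠ r' + s') : X2r r s r' s' = 0 := by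
  unfold X2r X2z
  rw [if_neg (fun h2 => h h2.1)]
  simp

/-- `f ⬝ O_loc f = Σ_B locForm w_Q (gB f B)` -/
theorem slice_Oloc (Q : ℕ) (hQ : 8 ≤ Q) (f : Finset (Fin (Q + 1)) → ℝ) :
    f ⬝ᵥ (Oloc Q *ᵥ f) = ∑ B ∈ high Q, locForm (wQ Q) (gB Q hQ f B) := by
  have hQ0 : (Q : ℝ) ≠ 0 := by
    have : 0 < Q := by omega
    positivity
  have hR : ∑ B ∈ high Q, locForm (wQ Q) (gB Q hQ f B) =
      sliceFun Q (fun B R => locR (gB Q hQ f B) R) := rfl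
  have e : (fun B R => locR (gB Q hQ f B) R) =
      (∑ s : Fin 8, X0r s • (fun B R => (lb s (gB Q hQ f B) R) ^ 2 :
        Finset (Fin (Q + 1)) → Finset (Fin 9) → ℝ))
      + (∑ r : Fin 8, ∑ m : Fin 9, ∑ r' : Fin 8, ∑ m' : Fin 9, X1r r m r' m' •
        (fun B R => lann m (lb r (gB Q hQ f B)) R * lann m' (lb r' (gB Q hQ f B)) R :
          Finset (Fin (Q + 1)) → Finset (Fin 9) → ℝ))
      + (∑ r : Fin 8, ∑ s : Fin 8, ∑ r' : Fin 8, ∑ s' : Fin 8, X2r r s r' s' •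
        (fun B R => lb s (lb r (gB Q hQ f B)) R * lb s' (lb r' (gB Q hQ f B)) R :
          Finset (Fin (Q + 1)) → Finset (Fin 9) → ℝ)) := by
    funext B R
    simp only [locR, Finset.sum_apply, Pi.add_apply, Pi.smul_apply, smul_eq_mul]
  rw [hR, e]
  unfold Oloc
  simp only [map_add, map_sum, map_smul, Matrix.add_mulVec, Matrix.sum_mulVec,
    Matrix.smul_mulVec, dotProduct_add, dotProduct_sum, dotProduct_smul, smul_eq_mul]
  congr 1
  · congr 1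
    · refine Finset.sum_congr rfl fun s _ => ?_
      rw [slice_term0 Q hQ s (by omega) f]
      field_simp
    · refine Finset.sum_congr rfl fun r _ => Finset.sum_congr rfl fun m _ =>
        Finset.sum_congr rfl fun r' _ => Finset.sum_congr rfl fun m' _ => ?_
      by_cases h : (r : ℕ) + m = r' + m'
      · rw [slice_term1 Q hQ r m r' m' h f]
        field_simp
      · rw [X1r_eq_zero h]
        simp
  · refine Finset.sum_congr rfl fun r _ => Finset.sum_congr rfl fun s _ =>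
      Finset.sum_congr rfl fun r' _ => Finset.sum_congr rfl fun s' _ => ?_
    by_cases h : (r : ℕ) + s = r' + s'
    · rw [slice_term2 Q hQ r s r' s' h f]
      field_simp
    · rw [X2r_eq_zero h]
      simp

/-- `|b_s f|² = Q^s/C(2Q-2,s) Σ_B Σ_R (∏_{k∈R} w_Q k) (lb s (gB f B) R)²` -/
theorem slice_bb (Q : ℕ) (hQ : 8 ≤ Q) (s : ℕ) (hs : s ≤ 7) (f : Finset (Fin (Q + 1)) → ℝ) :
    f ⬝ᵥ (((bb Q s)ᵀ * bb Q s) *ᵥ f) = ((Q : ℝ) ^ s / ((2 * Q - 2).choose s : ℝ)) *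
      ∑ B ∈ high Q, ∑ R : Finset (Fin 9), (∏ k ∈ R, wQ Q k) * (lb s (gB Q hQ f B) R) ^ 2 := by
  have hQ0 : (0 : ℝ) < Q := by
    have : 0 < Q := by omega
    positivity
  have hC : (0 : ℝ) < ((2 * Q - 2).choose s : ℝ) := by
    exact_mod_cast Nat.choose_pos (by omega)
  have h0 := slice_term0 Q hQ s hs f
  rw [sliceFun_apply] at h0
  have hsq : √((Q : ℝ) * ((2 * Q - 2).choose s : ℝ)) * √((Q : ℝ) * ((2 * Q - 2).choose s : ℝ)) =
      (Q : ℝ) * ((2 * Q - 2).choose s : ℝ) := Real.mul_self_sqrt (by positivity)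
  have h1 : (bh Q s)ᵀ * bh Q s =
      ((Q : ℝ) * ((2 * Q - 2).choose s : ℝ)) • ((bb Q s)ᵀ * bb Q s) := by
    unfold bh
    rw [Matrix.transpose_smul, smul_mul_smul_comm, hsq]
  rw [h1, Matrix.smul_mulVec, dotProduct_smul, smul_eq_mul] at h0
  have h2 : f ⬝ᵥ (((bb Q s)ᵀ * bb Q s) *ᵥ f) =
      ((Q : ℝ) * ((2 * Q - 2).choose s : ℝ))⁻¹ * (((Q : ℝ) * ((2 * Q - 2).choose s : ℝ)) *
        (f ⬝ᵥ (((bb Q s)ᵀ * bb Q s) *ᵥ f))) := by
    field_simp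
  rw [h2, h0, ← mul_assoc]
  congr 1
  rw [pow_succ]
  field_simp

end Vale.Agent.P359
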