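import Vale.Agent.Lib.P359.LocPert
import Vale.Agent.Lib.P359.Slice

/-!
# P359 / LocPos : the local operator is almost positive on the sphere

From `slice_Oloc`, `slice_bb`, `loc_pert` (with `ε/8`): `w_Q k ≥ 1` (`C(Q,k) ≤ Q^k`), and
`Q^s/C(2Q-2,s) → s!/2^s ≥ 1/2`, so eventually `Q^s/C(2Q-2,s) ≥ 1/4` for `s ≤ 7`, hence
`Σ_B Σ_R (lb s (gB f B) R)² ≤ 4 |b_s f|²`.
(We use the cruder bound `Q^s/C(2Q-2,s) ≥ 1/128`.)
-/

namespace Vale.Agent.P359

open Finset Matrix Filter Topology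

private theorem lp_X1sym : ∀ (r : Fin 8) (m : Fin 9) (r' : Fin 8) (m' : Fin 9),
    X1z r m r' m' = X1z r' m' r m := by
  decide +kernel

private theorem lp_X2sym : ∀ (r s r' s' : Fin 8), X2z r s r' s' = X2z r' s' r s := by
  decide +kernel

private theorem lp_sym4 {ι κ n : Type*} [Fintype ι] [Fintype κ] [Fintype n]
    (c : ι → κ → ι → κ → ℝ) (hc : ∀ r m r' m', c r m r' m' = c r' m' r m)
    (A : ι → κ → Matrix n n ℝ) :
    (∑ r, ∑ m, ∑ r', ∑ m', c r m r' m' • ((A r m)ᵀ * A r' m'))ᵀ =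
      ∑ r, ∑ m, ∑ r', ∑ m', c r m r' m' • ((A r m)ᵀ * A r' m') := by
  have h1 : (∑ r, ∑ m, ∑ r', ∑ m', c r m r' m' • ((A r m)ᵀ * A r' m'))ᵀ =
      ∑ r, ∑ m, ∑ r', ∑ m', c r' m' r m • ((A r' m')ᵀ * A r m) := by
    simp only [Matrix.transpose_sum, Matrix.transpose_smul, Matrix.transpose_mul,
      Matrix.transpose_transpose]
    refine Finset.sum_congr rfl fun r _ => Finset.sum_congr rfl fun m _ =>
      Finset.sum_congr rfl fun r' _ => Finset.sum_congr rfl fun m' _ => ?_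
    rw [hc r m r' m']
  rw [h1]
  calc ∑ r, ∑ m, ∑ r', ∑ m', c r' m' r m • ((A r' m')ᵀ * A r m)
      = ∑ x : ι × κ, ∑ y : ι × κ, c y.1 y.2 x.1 x.2 • ((A y.1 y.2)ᵀ * A x.1 x.2) := by
        simp only [Fintype.sum_prod_type]
    _ = ∑ y : ι × κ, ∑ x : ι × κ, c y.1 y.2 x.1 x.2 • ((A y.1 y.2)ᵀ * A x.1 x.2) :=
        Finset.sum_comm
    _ = _ := by simp only [Fintype.sum_prod_type]

private theorem lp_Oloc_sym (Q : ℕ) : (Oloc Q)ᵀ = Oloc Q := by
  unfold Oloc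
  rw [Matrix.transpose_add, Matrix.transpose_add]
  congr 1
  · congr 1
    · simp only [Matrix.transpose_sum, Matrix.transpose_smul, Matrix.transpose_mul,
        Matrix.transpose_transpose]
    · refine lp_sym4 (fun (r : Fin 8) (m : Fin 9) (r' : Fin 8) (m' : Fin 9) =>
        X1r r m r' m' / (Q : ℝ) ^ ((r : ℕ) + m + 1)) ?_
        (fun (r : Fin 8) (m : Fin 9) => ch Q m * bh Q r)
      intro r m r' m'
      by_cases h : (r : ℕ) + m = r' + m'
      · simp only [X1r]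
        rw [lp_X1sym r m r' m', h]
      · simp only [X1r, X1z]
        rw [if_neg (fun hh => h hh.1), if_neg (fun hh => h hh.1.symm)]
        simp
  · refine lp_sym4 (fun (r s r' s' : Fin 8) =>
        X2r r s r' s' / (Q : ℝ) ^ ((r : ℕ) + s + 2)) ?_
        (fun (r s : Fin 8) => bh Q s * bh Q r)
    intro r s r' s'
    by_cases h : (r : ℕ) + s = r' + s'
    · simp only [X2r]
      rw [lp_X2sym r s r' s', h]
    · simp only [X2r, X2z]
      rw [if_neg (fun hh => h hh.1), if_neg (fun hh => h hh.1.symm)]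
      simp

private theorem lp_w_ge (Q : ℕ) (hQ : 8 ≤ Q) (k : Fin 9) : 1 ≤ wQ Q k := by
  unfold wQ
  have hk : (k : ℕ) ≤ Q := by omega
  have hpos : (0 : ℝ) < (Q.choose k : ℝ) := by exact_mod_cast Nat.choose_pos hk
  rw [le_div_iff₀ hpos, one_mul]
  exact_mod_cast Nat.choose_le_pow Q k

private theorem lp_ratio (Q : ℕ) (hQ : 8 ≤ Q) (s : ℕ) (hs : s ≤ 7) :
    (1 / 128 : ℝ) ≤ (Q : ℝ) ^ s / ((2 * Q - 2).choose s : ℝ) := by
  have hpos : (0 : ℝ) < ((2 * Q - 2).choose s : ℝ) := by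
    exact_mod_cast Nat.choose_pos (by omega)
  rw [le_div_iff₀ hpos]
  have h1 : (2 * Q - 2).choose s ≤ (2 * Q) ^ s :=
    (Nat.choose_le_pow _ _).trans (Nat.pow_le_pow_left (by omega) s)
  have h2 : ((2 * Q - 2).choose s : ℝ) ≤ (2 : ℝ) ^ s * (Q : ℝ) ^ s := by
    rw [← mul_pow]
    exact_mod_cast h1
  have h3 : (2 : ℝ) ^ s ≤ 2 ^ 7 := pow_le_pow_right₀ (by norm_num) hs
  have h4 : (0 : ℝ) ≤ (Q : ℝ) ^ s := by positivity
  nlinarith [mul_le_mul_of_nonneg_right h3 h4]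

theorem loc_pos (ε : ℝ) (hε : 0 < ε) : ∀ᶠ Q : ℕ in atTop,
    (Oloc Q + ε • ∑ s ∈ range 8, (bb Q s)ᵀ * bb Q s).PosSemidef := by
  filter_upwards [loc_pert (ε / 128) (by positivity), eventually_ge_atTop 8] with Q hpert hQ
  refine PosSemidef.of_dotProduct_mulVec_nonneg ?_ ?_
  · unfold Matrix.IsHermitian
    rw [Matrix.conjTranspose_eq_transpose_of_trivial, Matrix.transpose_add, lp_Oloc_sym]
    congr 1
    simp only [Matrix.transpose_sum, Matrix.transpose_smul, Matrix.transpose_mul,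
      Matrix.transpose_transpose]
  · intro f
    have hstar : star f = f := by
      funext i
      simp
    rw [hstar, Matrix.add_mulVec, dotProduct_add, Matrix.smul_mulVec, dotProduct_smul,
      Matrix.sum_mulVec, dotProduct_sum, slice_Oloc Q hQ f, smul_eq_mul]
    have hb : ∀ s ∈ range 8, (1 / 128 : ℝ) * ∑ B ∈ high Q, ∑ R : Finset (Fin 9),
        (lb s (gB Q hQ f B) R) ^ 2 ≤ f ⬝ᵥ (((bb Q s)ᵀ * bb Q s) *ᵥ f) := by
      intro s hs
      have hs7 : s ≤ 7 := by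
        have := Finset.mem_range.1 hs
        omega
      rw [slice_bb Q hQ s hs7 f]
      refine mul_le_mul (lp_ratio Q hQ s hs7) ?_ ?_ ?_
      · refine Finset.sum_le_sum fun B _ => Finset.sum_le_sum fun R _ => ?_
        have h1 : (1 : ℝ) ≤ ∏ k ∈ R, wQ Q k := by
          calc (1 : ℝ) = ∏ k ∈ R, (1 : ℝ) := by simp
            _ ≤ ∏ k ∈ R, wQ Q k :=
              Finset.prod_le_prod (fun _ _ => zero_le_one) (fun k _ => lp_w_ge Q hQ k)
        nlinarith [sq_nonneg (lb s (gB Q hQ f B) R)]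
      · exact Finset.sum_nonneg fun B _ => Finset.sum_nonneg fun R _ => sq_nonneg _
      · positivity
    have h2 : ε * ∑ s ∈ range 8, (1 / 128 : ℝ) * ∑ B ∈ high Q, ∑ R : Finset (Fin 9),
        (lb s (gB Q hQ f B) R) ^ 2 ≤ ε * ∑ s ∈ range 8, f ⬝ᵥ (((bb Q s)ᵀ * bb Q s) *ᵥ f) :=
      mul_le_mul_of_nonneg_left (Finset.sum_le_sum hb) hε.le
    have h3 : 0 ≤ ∑ B ∈ high Q, locForm (wQ Q) (gB Q hQ f B) +
        ε * ∑ s ∈ range 8, (1 / 128 : ℝ) * ∑ B ∈ high Q, ∑ R : Finset (Fin 9),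
          (lb s (gB Q hQ f B) R) ^ 2 := by
      have h4 : ε * ∑ s ∈ range 8, (1 / 128 : ℝ) * ∑ B ∈ high Q, ∑ R : Finset (Fin 9),
          (lb s (gB Q hQ f B) R) ^ 2 = ∑ B ∈ high Q, ε / 128 * ∑ s ∈ range 8,
            ∑ R : Finset (Fin 9), (lb s (gB Q hQ f B) R) ^ 2 := by
        rw [← Finset.mul_sum, ← Finset.mul_sum, Finset.sum_comm]
        ring
      rw [h4, ← Finset.sum_add_distrib]
      exact Finset.sum_nonneg fun B _ => hpert (gB Q hQ f B)
    linarith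

end Vale.Agent.P359
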