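import Vale.Agent.Lib.P359.Defs

/-!
# P359: the local certificate

The certificate consists of integers (denominator `65536`).
`X0data[s]`, `s = 0..7`; `X1data[l]` is a symmetric matrix indexed by `r` with
`max 0 (l-8) ≤ r ≤ min 7 l` (the pair `(r, l - r)`, `r ≤ 7`, `l - r ≤ 8`);
`X2data[l]` is a symmetric matrix indexed by `r` with `max 0 (l-7) ≤ r ≤ l/2`
(the pair `(r, l-r)`, `r ≤ l - r ≤ 7`).
-/

namespace Vale.Agent.P359

open Finset Matrix

def X0data : List ℤ := [30528, 32, 1339, 5624, 19462, 11671, 22170, 126761]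

def X1data : List (List (List ℤ)) := [
    [[0]],
    [[0, 0],
     [0, 0]],
    [[-9104, 4552, -2276],
     [4552, -2276, 1138],
     [-2276, 1138, -569]],
    [[-2664, 0, 666, -666],
     [0, 0, 0, 0],
     [666, 0, -167, 167],
     [-666, 0, 167, -167]],
    [[-83892, 27813, -13907, 10487, -8777],
     [27813, 1078, -539, -3477, 5484],
     [-13907, -539, 269, 1738, -2742],
     [10487, -3477, 1738, -1311, 1097],
     [-8777, 5484, -2742, 1097, -275]],
    [[-747853, 279990, -42609, -27388, 25436, -5985],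
     [279990, 109546, 18159, -45546, -8420, 69232],
     [-42609, 18159, -4881, 341, 223, 349],
     [-27388, -45546, 341, 11045, 1882, -17657],
     [25436, -8420, 223, 1882, -1478, 548],
     [-5985, 69232, 349, -17657, 548, 20887]],
    [[-7423926, 1699105, 62739, -244598, 107454, -34538, 50753],
     [1699105, -15279, 32416, -4404, -15796, -38342, 131198],
     [62739, 32416, -4118, 3092, -5601, -670, 12086],
     [-244598, -4404, 3092, -10127, 13422, -3082, -14019],
     [107454, -15796, -5601, 13422, -13958, 9919, -4436],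
     [-34538, -38342, -670, -3082, 9919, -3192, -11555],
     [50753, 131198, 12086, -14019, -4436, -11555, 49626]],
    [[4492945, 17086531, 1653110, 1292831, -2346177, 858643, -1833563, 6357254],
     [17086531, 2295510, 1018927, 164451, -288656, -322298, -14404, 1592380],
     [1653110, 1018927, 542266, 84540, -132007, -197610, 151257, 420435],
     [1292831, 164451, 84540, -5834, -18618, -6561, -26206, 136814],
     [-2346177, -288656, -132007, -18618, 33832, 44307, 1291, -207891],
     [858643, -322298, -197610, -6561, 44307, 40175, -38002, -99181],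
     [-1833563, -14404, 151257, -26206, 1291, -38002, 64225, -56963],
     [6357254, 1592380, 420435, 136814, -207891, -99181, -56963, 830569]],
    [[1188138692, 344935119, 59745985, -15807170, -4638144, -1825919, 6469277, -44404246],
     [344935119, 77914080, 18262915, 424145, -2156502, -906903, -1013644, -6385821],
     [59745985, 18262915, 6408047, 75770, -333108, -514362, -549269, -755112],
     [-15807170, 424145, 75770, 593307, 55315, -350994, -39368, 468025],
     [-4638144, -2156502, -333108, 55315, -70992, 89438, 56228, 13945],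
     [-1825919, -906903, -514362, -350994, 89438, 154237, 18632, -47444],
     [6469277, -1013644, -549269, -39368, 56228, 18632, 65383, -65754],
     [-44404246, -6385821, -755112, 468025, 13945, -47444, -65754, 935307]],
    [[136292987, 39886726, 6711799, -3606487, -4349626, 3810519, -2004893],
     [39886726, 24254527, 1542047, -3666854, -563259, 2479545, -2775902],
     [6711799, 1542047, 148890, 1173951, -131369, -905180, -260295],
     [-3606487, -3666854, 1173951, -74434, 194578, -440345, 420759],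
     [-4349626, -563259, -131369, 194578, -34946, -32324, 38308],
     [3810519, 2479545, -905180, -440345, -32324, 572233, -170468],
     [-2004893, -2775902, -260295, 420759, 38308, -170468, 111685]],
    [[54588787, 88276899, 75379426, 39631924, 15251251, -794268],
     [88276899, 87411636, 82537129, 49811520, 16470359, -624563],
     [75379426, 82537129, 74302399, 46560671, 18788973, 373928],
     [39631924, 49811520, 46560671, 26738711, 9976736, 43147],
     [15251251, 16470359, 18788973, 9976736, 3615876, 172501],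
     [-794268, -624563, 373928, 43147, 172501, -520354]],
    [[37824881, 99708131, 10792682, 47245559, 18340391],
     [99708131, 28797186, 60422520, 41015073, 8904974],
     [10792682, 60422520, 56209158, 15201680, 1331147],
     [47245559, 41015073, 15201680, 15243281, 9017203],
     [18340391, 8904974, 1331147, 9017203, 6375074]],
    [[217900528, 55734069, 104764731, 51057726],
     [55734069, 84363492, 94165608, 3708075],
     [104764731, 94165608, 102790969, -18004321],
     [51057726, 3708075, -18004321, 1946764]],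
    [[53981764, 390173420, 236642929],
     [390173420, 226471415, 178376685],
     [236642929, 178376685, 19001403]],
    [[663352926, -156837245],
     [-156837245, 41902523]],
    [[-1844731408]]]

def X2data : List (List (List ℤ)) := [
    [[0]],
    [[0]],
    [[0, 0],
     [0, 0]],
    [[0, 0],
     [0, 0]],
    [[3408, -3408, 3408],
     [-3408, 3408, -3408],
     [3408, -3408, 3408]],
    [[11711, -7027, 2342],
     [-7027, 4216, -1405],
     [2342, -1405, 468]],
    [[5812, 267, -3914, 5130],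
     [267, 3287, -5420, 6131],
     [-3914, -5420, 11021, -12888],
     [5130, 6131, -12888, 15140]],
    [[-1727366, 301992, 191541, -125970],
     [301992, -31889, -54394, 30386],
     [191541, -54394, -331, 5605],
     [-125970, 30386, 5605, -5841]],
    [[-2020920, -291111, 285661, -51734],
     [-291111, -31140, 25467, 9595],
     [285661, 25467, -4119, -37668],
     [-51734, 9595, -37668, 55918]],
    [[23321306, 33439936, 40136499],
     [33439936, 47064415, 55678167],
     [40136499, 55678167, 66144334]],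
    [[9812734, 9661391, 6568802],
     [9661391, 9929827, 6001773],
     [6568802, 6001773, 4376799]],
    [[9765673, 6929702],
     [6929702, 8064191]],
    [[84198421, 18184248],
     [18184248, 6323365]],
    [[489143672]],
    [[647387878]]]

/-- integer coefficient of `b̂_s† b̂_s` -/
def X0z (s : ℕ) : ℤ := X0data.getD s 0

/-- integer coefficient of `(ĉ_m b̂_r)† (ĉ_m' b̂_r')` -/
def X1z (r m r' m' : ℕ) : ℤ :=
  if r + m = r' + m' ∧ r ≤ 7 ∧ m ≤ 8 ∧ r' ≤ 7 ∧ m' ≤ 8 then
    ((X1data.getD (r + m) []).getD (r - (r + m - 8)) []).getD (r' - (r + m - 8)) 0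
  else 0

/-- integer coefficient of `(b̂_s b̂_r)† (b̂_s' b̂_r')`, `r ≤ s`, `r' ≤ s'` -/
def X2z (r s r' s' : ℕ) : ℤ :=
  if r + s = r' + s' ∧ r ≤ s ∧ s ≤ 7 ∧ r' ≤ s' ∧ s' ≤ 7 then
    ((X2data.getD (r + s) []).getD (r - (r + s - 7)) []).getD (r' - (r + s - 7)) 0
  else 0

noncomputable section

def X0r (s : ℕ) : ℝ := (X0z s : ℝ) / 65536
def X1r (r m r' m' : ℕ) : ℝ := (X1z r m r' m' : ℝ) / 65536
def X2r (r s r' s' : ℕ) : ℝ := (X2z r s r' s' : ℝ) / 65536

/-! ### the local form on functions on subsets of `{0,…,8}` -/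

/-- local annihilation operator `ĉ_m` -/
def lann (m : Fin 9) (g : Finset (Fin 9) → ℝ) (R : Finset (Fin 9)) : ℝ :=
  if m ∈ R then 0 else sgn m R * g (insert m R)

/-- local pair annihilator `b̂_s = Σ_{a<b, a+b=s+1} (b-a) ĉ_b ĉ_a` -/
def lb (s : ℕ) (g : Finset (Fin 9) → ℝ) (R : Finset (Fin 9)) : ℝ :=
  ∑ a : Fin 9, ∑ b : Fin 9,
    if a < b ∧ (a : ℕ) + b = s + 1 then (((b : ℕ) : ℝ) - ((a : ℕ) : ℝ)) * lann b (lann a g) R else 0

/-- the local quadratic expression at `R` -/
def locR (g : Finset (Fin 9) → ℝ) (R : Finset (Fin 9)) : ℝ :=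
  (∑ s : Fin 8, X0r s * (lb s g R) ^ 2)
  + (∑ r : Fin 8, ∑ m : Fin 9, ∑ r' : Fin 8, ∑ m' : Fin 9,
      X1r r m r' m' * (lann m (lb r g) R * lann m' (lb r' g) R))
  + (∑ r : Fin 8, ∑ s : Fin 8, ∑ r' : Fin 8, ∑ s' : Fin 8,
      X2r r s r' s' * (lb s (lb r g) R * lb s' (lb r' g) R))

/-- the local form with weights `w` -/
def locForm (w : Fin 9 → ℝ) (g : Finset (Fin 9) → ℝ) : ℝ :=
  ∑ R : Finset (Fin 9), (∏ k ∈ R, w k) * locR g R

/-! ### the local operator on the sphere -/

/-- `b̂_s = √(Q C(2Q-2,s)) b_s` -/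
def bh (Q s : ℕ) : Op Q := √((Q : ℝ) * ((2 * Q - 2).choose s : ℝ)) • bb Q s
/-- `ĉ_m = √C(Q,m) c_m` -/
def ch (Q m : ℕ) : Op Q := √((Q.choose m : ℝ)) • cN Q m

/-- the local operator -/
def Oloc (Q : ℕ) : Op Q :=
  (∑ s : Fin 8, (X0r s / (Q : ℝ) ^ ((s : ℕ) + 1)) • ((bh Q s)ᵀ * bh Q s))
  + (∑ r : Fin 8, ∑ m : Fin 9, ∑ r' : Fin 8, ∑ m' : Fin 9,
      (X1r r m r' m' / (Q : ℝ) ^ ((r : ℕ) + m + 1)) •
        ((ch Q m * bh Q r)ᵀ * (ch Q m' * bh Q r')))
  + (∑ r : Fin 8, ∑ s : Fin 8, ∑ r' : Fin 8, ∑ s' : Fin 8,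
      (X2r r s r' s' / (Q : ℝ) ^ ((r : ℕ) + s + 2)) •
        ((bh Q s * bh Q r)ᵀ * (bh Q s' * bh Q r')))

/-! ### channel coefficients of the local operator -/

/-- coefficient of `γ` -/
def al0 (Q : ℕ) : ℝ := ∑ s : Fin 8, X0r s * (((2 * Q - 2).choose s : ℝ) / (Q : ℝ) ^ (s : ℕ))

/-- coefficient of the channel `q` of the impurity–electron forms -/
def B1 (Q q : ℕ) : ℝ :=
  ∑ r : Fin 8, ∑ m : Fin 9, ∑ r' : Fin 8, ∑ m' : Fin 9,
    (X1r r m r' m' / (Q : ℝ) ^ ((r : ℕ) + m + 1)) *
      (√((Q.choose m : ℝ)) * √((Q : ℝ) * ((2 * Q - 2).choose r : ℝ))) *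
      (√((Q.choose m' : ℝ)) * √((Q : ℝ) * ((2 * Q - 2).choose r' : ℝ))) *
      (cgv (2 * Q - 2) Q q (r + m - q) r m * cgv (2 * Q - 2) Q q (r' + m' - q) r' m')

/-- coefficient of the channel `j` of the impurity–impurity forms -/
def C1 (Q j : ℕ) : ℝ :=
  ∑ r : Fin 8, ∑ s : Fin 8, ∑ r' : Fin 8, ∑ s' : Fin 8,
    (X2r r s r' s' / (Q : ℝ) ^ ((r : ℕ) + s + 2)) *
      (√((Q : ℝ) * ((2 * Q - 2).choose r : ℝ)) * √((Q : ℝ) * ((2 * Q - 2).choose s : ℝ))) *
      (√((Q : ℝ) * ((2 * Q - 2).choose r' : ℝ)) * √((Q : ℝ) * ((2 * Q - 2).choose s' : ℝ))) *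
      (cgv (2 * Q - 2) (2 * Q - 2) j (r + s - j) r s *
        cgv (2 * Q - 2) (2 * Q - 2) j (r' + s' - j) r' s')

end

end Vale.Agent.P359
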