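import Vale.Agent.Lib.P359.Inv
import Vale.Agent.Lib.P359.Data

/-!
# P359 / OlocTr : the trace of the local operator against an invariant `P`

Use linearity, `ch Q m * bh Q r = (√C(Q,m) √(Q C(2Q-2,r))) • (cN Q m * bb Q r)`, `T3 Q (r,m)`,
`G3_spec`, and: for `r + m = q + k'` only `k = r + m - q` contributes to
`Σ_k cgv q k r m * cgv q k r' m'` (the support condition of `cgv`), and it is in the range
`k ≤ 3Q-2-2q` when `cgv ≠ 0` (`r ≤ 2Q-2`, `m ≤ Q`, else the square root in the denominator is `0`).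
The coefficients `X1r` vanish unless `r+m = r'+m'`, `X2r` unless `r+s = r'+s'`.
`√x * √x = x`: `(X0r s / Q^(s+1)) * (Q C(2Q-2,s)) = X0r s * (C(2Q-2,s)/Q^s)`.
-/

namespace Vale.Agent.P359

open Finset Matrix

theorem oloc_trace_pair {Q : ℕ} (P A B : Op Q) (c a b : ℝ) :
    trace (P * (c • ((a • A)ᵀ * (b • B)))) = c * a * b * trace (P * (Aᵀ * B)) := by
  rw [Matrix.transpose_smul, Matrix.smul_mul, Matrix.mul_smul, Matrix.mul_smul, Matrix.mul_smul,
    Matrix.mul_smul, Matrix.trace_smul, Matrix.trace_smul, Matrix.trace_smul, smul_eq_mul,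
    smul_eq_mul, smul_eq_mul]
  ring

/-- the sum over `k` of the products of Clebsch–Gordan coefficients with the same total weight -/
theorem oloc_sum_cgv (A B q r m r' m' N : ℕ) (h : r + m = r' + m') (hN : q ≤ r + m → r + m - q < N) :
    ∑ k ∈ range N, cgv A B q k r m * cgv A B q k r' m'
      = cgv A B q (r + m - q) r m * cgv A B q (r' + m' - q) r' m' := by
  rw [← h]
  rcases lt_or_ge (r + m) q with h1 | h1
  · have e : ∀ k, cgv A B q k r m = 0 := by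
      intro k
      unfold cgv
      rw [if_neg (by omega)]
    rw [e, zero_mul]
    exact Finset.sum_eq_zero fun k _ => by rw [e, zero_mul]
  · refine Finset.sum_eq_single (r + m - q) (fun k _ hk => ?_) (fun hk => ?_)
    · have e : cgv A B q k r m = 0 := by
        unfold cgv
        rw [if_neg (by omega)]
      rw [e, zero_mul]
    · exact absurd (Finset.mem_range.2 (hN h1)) hk

theorem oloc_X1r_zero {r m r' m' : ℕ} (h : r + m ≠ r' + m') : X1r r m r' m' = 0 := by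
  unfold X1r X1z
  rw [if_neg (fun h' => h h'.1)]
  simp

theorem oloc_X2r_zero {r m r' m' : ℕ} (h : r + m ≠ r' + m') : X2r r m r' m' = 0 := by
  unfold X2r X2z
  rw [if_neg (fun h' => h h'.1)]
  simp

theorem oloc_sum_swap {α : Type*} (s : Finset α) {a b c d : ℕ}
    (g : α → ℝ) (F : Fin a → Fin b → Fin c → Fin d → ℝ)
    (D : α → Fin a → Fin b → Fin c → Fin d → ℝ) :
    ∑ x : Fin a, ∑ y : Fin b, ∑ z : Fin c, ∑ w : Fin d,
      F x y z w * ∑ q ∈ s, g q * D q x y z w =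
    ∑ q ∈ s, g q * ∑ x : Fin a, ∑ y : Fin b, ∑ z : Fin c, ∑ w : Fin d,
      F x y z w * D q x y z w := by
  simp_rw [Finset.mul_sum]
  symm
  rw [Finset.sum_comm]
  refine Finset.sum_congr rfl fun x _ => ?_
  rw [Finset.sum_comm]
  refine Finset.sum_congr rfl fun y _ => ?_
  rw [Finset.sum_comm]
  refine Finset.sum_congr rfl fun z _ => ?_
  rw [Finset.sum_comm]
  refine Finset.sum_congr rfl fun w _ => ?_
  refine Finset.sum_congr rfl fun q _ => ?_
  ring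

theorem oloc_part0 (Q : ℕ) (hQ : 20 ≤ Q) (P : Op Q) (hP : Pᵀ = P) (hJ : P * Jp Q = Jp Q * P) :
    trace (P * (∑ s : Fin 8, (X0r s / (Q : ℝ) ^ ((s : ℕ) + 1)) • ((bh Q s)ᵀ * bh Q s)))
      = al0 Q * G2 Q P 0 0 := by
  rw [Matrix.mul_sum, Matrix.trace_sum, al0, Finset.sum_mul]
  refine Finset.sum_congr rfl fun s _ => ?_
  have hQ0 : (Q : ℝ) ≠ 0 := by
    have : 0 < Q := by omega
    positivity
  unfold bh
  rw [oloc_trace_pair]
  have hs : (s : ℕ) < 2 * Q - 2 + 1 := by have := s.2; omega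
  have h1 : trace (P * ((bb Q s)ᵀ * bb Q s)) = G2 Q P ⟨s, hs⟩ ⟨s, hs⟩ := rfl
  rw [h1, G2_spec Q (by omega) P hP hJ, if_pos rfl, mul_assoc (X0r s / (Q : ℝ) ^ ((s : ℕ) + 1)),
    Real.mul_self_sqrt (by positivity), pow_succ]
  field_simp

theorem oloc_part1 (Q : ℕ) (hQ : 20 ≤ Q) (P : Op Q) (hP : Pᵀ = P) (hJ : P * Jp Q = Jp Q * P) :
    trace (P * (∑ r : Fin 8, ∑ m : Fin 9, ∑ r' : Fin 8, ∑ m' : Fin 9,
      (X1r r m r' m' / (Q : ℝ) ^ ((r : ℕ) + m + 1)) •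
        ((ch Q m * bh Q r)ᵀ * (ch Q m' * bh Q r'))))
      = ∑ q ∈ range (Q + 1),
          (cgvec (2 * Q - 2) Q q 0 ⬝ᵥ G3 Q P *ᵥ cgvec (2 * Q - 2) Q q 0) * B1 Q q := by
  have hcb : ∀ (m : Fin 9) (r : Fin 8), ch Q m * bh Q r =
      (√((Q.choose m : ℝ)) * √((Q : ℝ) * ((2 * Q - 2).choose r : ℝ))) • (cN Q m * bb Q r) := by
    intro m r
    unfold ch bh
    rw [Matrix.smul_mul, Matrix.mul_smul, smul_smul]
  unfold B1
  rw [← oloc_sum_swap]
  simp_rw [Matrix.mul_sum, Matrix.trace_sum]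
  refine Finset.sum_congr rfl fun r _ => ?_
  refine Finset.sum_congr rfl fun m _ => ?_
  refine Finset.sum_congr rfl fun r' _ => ?_
  refine Finset.sum_congr rfl fun m' _ => ?_
  rw [hcb, hcb, oloc_trace_pair]
  by_cases hrm : (r : ℕ) + m = r' + m'
  · congr 1
    have hr : (r : ℕ) < 2 * Q - 2 + 1 := by have := r.2; omega
    have hr' : (r' : ℕ) < 2 * Q - 2 + 1 := by have := r'.2; omega
    have hm : (m : ℕ) < Q + 1 := by have := m.2; omega
    have hm' : (m' : ℕ) < Q + 1 := by have := m'.2; omega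
    have e1 : cN Q m * bb Q r = T3 Q (⟨r, hr⟩, ⟨m, hm⟩) := by
      unfold cN T3
      rw [dif_pos hm]
    have e2 : cN Q m' * bb Q r' = T3 Q (⟨r', hr'⟩, ⟨m', hm'⟩) := by
      unfold cN T3
      rw [dif_pos hm']
    have e3 : trace (P * ((cN Q m * bb Q r)ᵀ * (cN Q m' * bb Q r'))) =
        G3 Q P (⟨r, hr⟩, ⟨m, hm⟩) (⟨r', hr'⟩, ⟨m', hm'⟩) := by
      rw [e1, e2]
      rfl
    rw [e3, G3_spec Q (by omega) P hP hJ]
    refine Finset.sum_congr rfl fun q _ => ?_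
    congr 1
    refine oloc_sum_cgv (2 * Q - 2) Q q r m r' m' _ hrm fun hq => ?_
    have := r.2
    have := m.2
    omega
  · rw [oloc_X1r_zero hrm]
    simp

theorem oloc_part2 (Q : ℕ) (hQ : 20 ≤ Q) (P : Op Q) (hP : Pᵀ = P) (hJ : P * Jp Q = Jp Q * P) :
    trace (P * (∑ r : Fin 8, ∑ s : Fin 8, ∑ r' : Fin 8, ∑ s' : Fin 8,
      (X2r r s r' s' / (Q : ℝ) ^ ((r : ℕ) + s + 2)) •
        ((bh Q s * bh Q r)ᵀ * (bh Q s' * bh Q r'))))
      = ∑ j ∈ range (2 * Q - 2 + 1),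
          (cgvec (2 * Q - 2) (2 * Q - 2) j 0 ⬝ᵥ G4 Q P *ᵥ cgvec (2 * Q - 2) (2 * Q - 2) j 0)
            * C1 Q j := by
  have hcb : ∀ (s : Fin 8) (r : Fin 8), bh Q s * bh Q r =
      (√((Q : ℝ) * ((2 * Q - 2).choose r : ℝ)) * √((Q : ℝ) * ((2 * Q - 2).choose s : ℝ))) •
        (bb Q s * bb Q r) := by
    intro s r
    unfold bh
    rw [Matrix.smul_mul, Matrix.mul_smul, smul_smul, mul_comm (√((Q : ℝ) * _))]
  unfold C1
  rw [← oloc_sum_swap]
  simp_rw [Matrix.mul_sum, Matrix.trace_sum]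
  refine Finset.sum_congr rfl fun r _ => ?_
  refine Finset.sum_congr rfl fun s _ => ?_
  refine Finset.sum_congr rfl fun r' _ => ?_
  refine Finset.sum_congr rfl fun s' _ => ?_
  rw [hcb, hcb, oloc_trace_pair]
  by_cases hrm : (r : ℕ) + s = r' + s'
  · congr 1
    have hr : (r : ℕ) < 2 * Q - 2 + 1 := by have := r.2; omega
    have hr' : (r' : ℕ) < 2 * Q - 2 + 1 := by have := r'.2; omega
    have hs : (s : ℕ) < 2 * Q - 2 + 1 := by have := s.2; omega
    have hs' : (s' : ℕ) < 2 * Q - 2 + 1 := by have := s'.2; omega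
    have e3 : trace (P * ((bb Q s * bb Q r)ᵀ * (bb Q s' * bb Q r'))) =
        G4 Q P (⟨r, hr⟩, ⟨s, hs⟩) (⟨r', hr'⟩, ⟨s', hs'⟩) := rfl
    rw [e3, G4_spec Q (by omega) P hP hJ]
    refine Finset.sum_congr rfl fun q _ => ?_
    congr 1
    refine oloc_sum_cgv (2 * Q - 2) (2 * Q - 2) q r s r' s' _ hrm fun hq => ?_
    have := r.2
    have := s.2
    omega
  · rw [oloc_X2r_zero hrm]
    simp

theorem tr_Oloc (Q : ℕ) (hQ : 20 ≤ Q) (P : Op Q) (hP : Pᵀ = P) (hJ : P * Jp Q = Jp Q * P) :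
    trace (P * Oloc Q) = al0 Q * G2 Q P 0 0
      + (∑ q ∈ range (Q + 1),
          (cgvec (2 * Q - 2) Q q 0 ⬝ᵥ G3 Q P *ᵥ cgvec (2 * Q - 2) Q q 0) * B1 Q q)
      + ∑ j ∈ range (2 * Q - 2 + 1),
          (cgvec (2 * Q - 2) (2 * Q - 2) j 0 ⬝ᵥ G4 Q P *ᵥ cgvec (2 * Q - 2) (2 * Q - 2) j 0)
            * C1 Q j := by
  unfold Oloc
  rw [mul_add, mul_add, Matrix.trace_add, Matrix.trace_add, oloc_part0 Q hQ P hP hJ,
    oloc_part1 Q hQ P hP hJ, oloc_part2 Q hQ P hP hJ]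

end Vale.Agent.P359
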