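import Mathlib

/-!
# P359 / Proj : an invariant positive semidefinite `P` attached to an eigenvalue

`P` = orthogonal projection onto the eigenspace of the symmetric matrix `H` for the eigenvalue `μ`
(as a matrix).  It is symmetric, idempotent, nonzero, `H P = μ P`; if `J` commutes with `H` then so
does `Jᵀ`, both preserve the eigenspace, so `P` commutes with `J`.  (Alternatively `P = p(H)` for a
polynomial `p`.)
-/

namespace Vale.Agent.P359

open Finset Matrix

theorem exists_inv {n : Type*} [Fintype n] [DecidableEq n] (H : Matrix n n ℝ) (hH : Hᵀ = H)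
    (μ : ℝ) (f : n → ℝ) (hf : f ≠ 0) (hHf : H *ᵥ f = μ • f) :
    ∃ P : Matrix n n ℝ, Pᵀ = P ∧ P.PosSemidef ∧ 0 < trace P ∧ P * H = μ • P ∧
      ∀ J : Matrix n n ℝ, H * J = J * H → P * J = J * P := by
  classical
  have hct : ∀ A : Matrix n n ℝ, star A = Aᵀ := fun A => by
    rw [star_eq_conjTranspose, conjTranspose_eq_transpose_of_trivial]
  have hsa : IsSelfAdjoint H := by
    rw [isSelfAdjoint_iff, hct, hH]
  have hcont : ∀ g : ℝ → ℝ, ContinuousOn g (spectrum ℝ H) := fun g =>
    (Matrix.finite_real_spectrum (A := H)).continuousOn g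
  set g : ℝ → ℝ := fun x => if x = μ then 1 else 0 with hg
  set P : Matrix n n ℝ := cfc g H with hP
  have hPsa : IsSelfAdjoint P := cfc_predicate g H
  have hPt : Pᵀ = P := by rw [← hct, hPsa.star_eq]
  have hPP : P * P = P := by
    rw [hP, ← cfc_mul g g H (hcont g) (hcont g)]
    congr 1
    funext x
    by_cases hx : x = μ <;> simp [hg, hx]
  have hPH : P * H = μ • P := by
    conv_lhs => rw [← cfc_id' ℝ H hsa, hP]
    rw [cfc_id' ℝ H hsa]
    nth_rewrite 2 [← cfc_id' ℝ H hsa]
    rw [← cfc_mul g (fun x => x) H (hcont g) (hcont _), hP, ← cfc_smul μ g H (hcont g)]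
    congr 1
    funext x
    by_cases hx : x = μ <;> simp [hg, hx]
  have hP0 : P ≠ 0 := by
    intro h0
    have h1 : (1 : Matrix n n ℝ) = P + cfc (fun x => if x = μ then 0 else (x - μ)⁻¹) H *
        (H - algebraMap ℝ _ μ) := by
      have e1 : H - algebraMap ℝ (Matrix n n ℝ) μ = cfc (fun x => x - μ) H := by
        rw [cfc_sub (fun x => x) (fun _ => μ) H (hcont _) (hcont _), cfc_id' ℝ H hsa,
          cfc_const μ H hsa]
      rw [e1, ← cfc_mul _ _ H (hcont _) (hcont _), hP, ← cfc_add (a := H) _ _ (hcont _) (hcont _),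
        ← cfc_const_one ℝ H hsa]
      congr 1
      funext x
      by_cases hx : x = μ
      · simp [hg, hx]
      · have : x - μ ≠ 0 := sub_ne_zero.2 hx
        simp [hg, hx, this]
    have h2 : f = 0 := by
      have h3 : (H - algebraMap ℝ (Matrix n n ℝ) μ) *ᵥ f = 0 := by
        rw [sub_mulVec, hHf, Algebra.algebraMap_eq_smul_one, smul_mulVec, one_mulVec, sub_self]
      have h4 := congrArg (fun A : Matrix n n ℝ => A *ᵥ f) h1
      beta_reduce at h4
      rw [one_mulVec, h0, zero_add, ← mulVec_mulVec, h3, mulVec_zero] at h4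
      exact h4
    exact hf h2
  have hpsd : P.PosSemidef := by
    have := posSemidef_conjTranspose_mul_self P
    rwa [conjTranspose_eq_transpose_of_trivial, hPt, hPP] at this
  refine ⟨P, hPt, hpsd, ?_, hPH, ?_⟩
  · have h1 : 0 ≤ trace P := hpsd.trace_nonneg
    rcases h1.lt_or_eq with h | h
    · exact h
    · exact absurd (hpsd.trace_eq_zero_iff.1 h.symm) hP0
  · intro J hJ
    have hc : Commute H J := hJ
    exact (hc.cfc_real g).eq

end Vale.Agent.P359
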