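import Vale.Agent.Lib.P359.Tail1
import Vale.Agent.Lib.P359.Asym1
import Vale.Agent.Lib.P359.AsymV

/-!
# P359 / Tail : the channels `q ≥ 16`

Even `q ≥ 2`: `vv Q q ≥ 0` (`q (2Q-1-q)/Q + q - 1 ≥ 0`), the summand is `≥ 0`.
Odd `q`: `|vv Q q| y_q (3Q-1-2q) ≤ γ |vv Q q| (3Q-1-2q) / (cgv (2Q-2) Q q k 0 (q+k))²`.

* `17 ≤ q ≤ 49` odd, `k = 6`: `(cgv …)² = C(Q,q+6) kap² / (Sq C(3Q-2-2q,6))` with
  `kap (2Q-2) Q q 0 m = C(m,q)/C(Q,q)`; it tends to `(2/3)^q C(q+6,6)/729`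
  (`= L3 q 0 (q+6) 0 (q+6) · (q+6)!`), so
  `|vv| (3Q-1-2q)/((2Q-1) (cgv…)²) → (3/2)(3q-1) 2^{-q} 729 / ((2/3)^q C(q+6,6)) =: t_q`, and
  `Σ_{q=17,19,…,49} t_q = 0.00643 < 0.007`.
* `q ≥ 51` odd, `k = 0`: `(cgv (2Q-2) Q q 0 0 q)² = 1/(C(Q,q) Sq)` and
  `C(Q,q) Sq = Σ_i C(q,i) ∏_{j=1}^{i} (Q-q+j)/(2Q-2-i+j) ≤ (2Q/(2Q-3)) Σ_i C(q,i)/2^i ≤ 2 (3/2)^q`
  for `Q ≥ 3` (each factor is `≤ 1/2` except, for `i = q`, the factors `j = q-1`, `j = q`, which are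
  `(Q-1)/(2Q-3)` and `Q/(2Q-2)`);
  `C(Q,q)/C(2Q-2,q) = ∏_{i<q} (Q-i)/(2Q-2-i) ≤ 2^{-q} 2Q/(2Q-3) ≤ 2·2^{-q}`, so `|vv Q q| ≤ 6 q 2^{-q}`;
  `(3Q-1-2q)/(2Q-1) ≤ 2`.  Each summand is `≤ 24 q (3/4)^q (2Q-1) γ`, and
  `Σ_{q≥51} 24 q (3/4)^q < 0.0023`.
Total `< 0.0094 < 1/100`.
-/

namespace Vale.Agent.P359

open Finset Matrix Filter Topology

/-- the bound for the channel `q` -/
noncomputable def tailNearT (q : ℕ) : ℝ :=
  (3 / 2 : ℝ) * (3 * (q : ℝ) - 1) * 729 * (3 / 4) ^ q / ((q + 6).choose 6 : ℝ)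

theorem tailNear_num : ∑ q ∈ Icc (16 : ℕ) 50, (if q % 2 = 1 then
    (tailNearT q + 1 / 50000) else 0) ≤ 7 / 1000 := by
  unfold tailNearT
  simp only [Finset.sum_Icc_succ_top, Nat.reduceLeDiff, Nat.reduceMod, Nat.reduceAdd]
  norm_num [Nat.choose]

theorem tailNear_sig2 (q : ℕ) : sig2 0 (q + 6) q = ((q + 6).choose 6 : ℚ) := by
  unfold sig2
  rw [Finset.sum_eq_single 0]
  · have h : (q + 6).choose q = (q + 6).choose 6 := Nat.choose_symm_add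
    simp [h]
  · intro i _ hi
    have h : Nat.choose 0 i = 0 := Nat.choose_eq_zero_of_lt (Nat.pos_of_ne_zero hi)
    simp [h]
  · intro h
    exact absurd (Finset.mem_range.2 (Nat.succ_pos q)) h

theorem tailNear_Sq_nonneg (A B q : ℕ) : 0 ≤ Sq A B q := by
  unfold Sq
  exact Finset.sum_nonneg fun i _ => by positivity

theorem tailNear_cgv_eq (Q q : ℕ) : (cgv (2 * Q - 2) Q q 6 0 (q + 6)) ^ 2 =
    (Q.choose (q + 6) : ℝ) * kap (2 * Q - 2) Q q 0 (q + 6) ^ 2 /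
      (Sq (2 * Q - 2) Q q * (((2 * Q - 2 + Q - 2 * q).choose 6 : ℕ) : ℝ)) := by
  unfold cgv
  rw [if_pos (by omega), div_pow, mul_pow, Real.sq_sqrt (by positivity),
    Real.sq_sqrt (mul_nonneg (tailNear_Sq_nonneg _ _ _) (Nat.cast_nonneg _))]
  simp

theorem tailNear_n_lim (q : ℕ) :
    Tendsto (fun Q : ℕ => ((2 * Q - 2 + Q - 2 * q : ℕ) : ℝ) / Q) atTop (𝓝 3) := by
  have h1 : Tendsto (fun Q : ℕ => (3 : ℝ) - (2 + 2 * q) * (1 / (Q : ℝ))) atTop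
      (𝓝 (3 - (2 + 2 * q) * 0)) :=
    tendsto_const_nhds.sub (tendsto_one_div_atTop_nhds_zero_nat.const_mul _)
  rw [mul_zero, sub_zero] at h1
  refine h1.congr' ?_
  filter_upwards [eventually_ge_atTop (q + 1)] with Q hQ
  have hQ0 : (0 : ℝ) < Q := by exact_mod_cast (by omega : 0 < Q)
  have h2 : ((2 * Q - 2 + Q - 2 * q : ℕ) : ℝ) = 3 * (Q : ℝ) - (2 + 2 * q) := by
    have h3 : 2 * Q - 2 + Q - 2 * q + (2 + 2 * q) = 3 * Q := by omega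
    have h4 : ((2 * Q - 2 + Q - 2 * q : ℕ) : ℝ) + (2 + 2 * q) = 3 * (Q : ℝ) := by
      exact_mod_cast h3
    linarith
  rw [h2]
  field_simp

theorem tailNear_cgv_lim (q : ℕ) :
    Tendsto (fun Q : ℕ => (cgv (2 * Q - 2) Q q 6 0 (q + 6)) ^ 2) atTop
      (𝓝 ((2 / 3 : ℝ) ^ q * ((q + 6).choose 6 : ℝ) / 729)) := by
  have h1 : Tendsto (fun Q : ℕ => (Q.choose (q + 6) : ℝ) / (Q : ℝ) ^ (q + 6)) atTop
      (𝓝 (1 ^ (q + 6) / (q + 6).factorial)) := by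
    refine tendsto_choose (fun Q => Q) 1 (q + 6) ?_
    refine tendsto_const_nhds.congr' ?_
    filter_upwards [eventually_ge_atTop 1] with Q hQ
    have hQ0 : (Q : ℝ) ≠ 0 := by exact_mod_cast (by omega : Q ≠ 0)
    exact (div_self hQ0).symm
  have h2 := tendsto_kap3 q 0 (q + 6)
  have h3 := tendsto_Sq3 q
  have h4 := tendsto_choose (fun Q => 2 * Q - 2 + Q - 2 * q) 3 6 (tailNear_n_lim q)
  have hf : (0 : ℝ) < q.factorial := by exact_mod_cast q.factorial_pos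
  have hden : ((q.factorial : ℝ) * (3 / 2) ^ q) * (3 ^ 6 / (Nat.factorial 6 : ℕ)) ≠ 0 := by
    positivity
  have h5 := (h1.mul (h2.pow 2)).div (h3.mul h4) hden
  have hlim : 1 ^ (q + 6) / ((q + 6).factorial : ℝ) *
      ((q.factorial : ℝ) * (sig2 0 (q + 6) q : ℝ)) ^ 2 /
      ((q.factorial : ℝ) * (3 / 2) ^ q * (3 ^ 6 / (Nat.factorial 6 : ℕ))) =
      (2 / 3 : ℝ) ^ q * ((q + 6).choose 6 : ℝ) / 729 := by
    rw [tailNear_sig2]
    have h6 : (q + 6).choose 6 * Nat.factorial 6 * q.factorial = (q + 6).factorial := by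
      have h := Nat.choose_mul_factorial_mul_factorial (Nat.le_add_left 6 q)
      rwa [Nat.add_sub_cancel] at h
    have h7 : ((q + 6).factorial : ℝ) = ((q + 6).choose 6 : ℝ) * 720 * q.factorial := by
      rw [← h6]
      push_cast
      norm_num [Nat.factorial]
    have hc : (0 : ℝ) < ((q + 6).choose 6 : ℝ) := by
      exact_mod_cast Nat.choose_pos (Nat.le_add_left 6 q)
    have h8 : (2 / 3 : ℝ) ^ q = 1 / (3 / 2 : ℝ) ^ q := by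
      rw [one_div, ← inv_pow]
      norm_num
    have h9 : ((Nat.factorial 6 : ℕ) : ℝ) = 720 := by norm_num [Nat.factorial]
    have h10 : (0 : ℝ) < (3 / 2 : ℝ) ^ q := by positivity
    rw [h7, h8, h9, one_pow]
    push_cast
    field_simp
    norm_num
  rw [hlim] at h5
  refine h5.congr' ?_
  filter_upwards [eventually_ge_atTop 1] with Q hQ
  have hQ0 : (Q : ℝ) ≠ 0 := by exact_mod_cast (by omega : Q ≠ 0)
  simp only [Pi.div_apply]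
  rw [tailNear_cgv_eq, pow_add (Q : ℝ) q 6]
  by_cases hden2 : Sq (2 * Q - 2) Q q * (((2 * Q - 2 + Q - 2 * q).choose 6 : ℕ) : ℝ) = 0
  · rw [hden2, div_zero]
    rcases mul_eq_zero.1 hden2 with h | h
    · rw [h]; simp
    · rw [h]; simp
  · have ha : Sq (2 * Q - 2) Q q ≠ 0 := left_ne_zero_of_mul hden2
    have hb : (((2 * Q - 2 + Q - 2 * q).choose 6 : ℕ) : ℝ) ≠ 0 := right_ne_zero_of_mul hden2
    field_simp

theorem tailNear_ratio_lim (q : ℕ) :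
    Tendsto (fun Q : ℕ => (3 * (Q : ℝ) - 1 - 2 * q) / (2 * (Q : ℝ) - 1)) atTop (𝓝 (3 / 2)) := by
  have h1 : Tendsto (fun Q : ℕ => ((3 : ℝ) - (1 + 2 * q) * (1 / (Q : ℝ))) /
      (2 - 1 / (Q : ℝ))) atTop (𝓝 ((3 - (1 + 2 * q) * 0) / (2 - 0))) :=
    (tendsto_const_nhds.sub (tendsto_one_div_atTop_nhds_zero_nat.const_mul _)).div
      (tendsto_const_nhds.sub tendsto_one_div_atTop_nhds_zero_nat) (by norm_num)
  rw [mul_zero, sub_zero, sub_zero] at h1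
  refine h1.congr' ?_
  filter_upwards [eventually_ge_atTop 1] with Q hQ
  have hQ0 : (0 : ℝ) < Q := by exact_mod_cast (by omega : 0 < Q)
  have hQ1 : (1 : ℝ) ≤ Q := by exact_mod_cast hQ
  have h2 : 2 * (Q : ℝ) - 1 ≠ 0 := by linarith
  have h3 : (2 : ℝ) - 1 / Q ≠ 0 := by
    have : (1 : ℝ) / Q ≤ 1 := by
      rw [div_le_one hQ0]
      exact hQ1
    linarith
  rw [div_eq_div_iff h3 h2]
  field_simp
  ring

theorem tailNear_q (q : ℕ) (hq : q % 2 = 1) : ∀ᶠ Q : ℕ in atTop, ∀ (y : ℕ → ℝ) (γ : ℝ),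
    (∀ q ≤ Q, 0 ≤ y q) →
    (∀ q k, q + k ≤ Q → y q * (cgv (2 * Q - 2) Q q k 0 (q + k)) ^ 2 ≤ γ) →
    -((tailNearT q + 1 / 50000) * ((2 * (Q : ℝ) - 1) * γ)) ≤
      vv Q q * y q * (3 * (Q : ℝ) - 1 - 2 * q) := by
  have hq1 : 1 ≤ q := by omega
  have hq1R : (1 : ℝ) ≤ q := by exact_mod_cast hq1
  have hc : (0 : ℝ) < ((q + 6).choose 6 : ℝ) := by
    exact_mod_cast Nat.choose_pos (Nat.le_add_left 6 q)
  have hv := tendsto_vv q
  have hsign : (-1 : ℝ) ^ q = -1 := by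
    have hodd : Odd q := Nat.odd_iff.2 hq
    exact hodd.neg_one_pow
  rw [hsign] at hv
  have hg := tailNear_cgv_lim q
  have hgpos : (0 : ℝ) < (2 / 3 : ℝ) ^ q * ((q + 6).choose 6 : ℝ) / 729 := by positivity
  have hF := ((hv.mul (tailNear_ratio_lim q)).div hg hgpos.ne')
  have hlim : -1 * (3 * (q : ℝ) - 1) / 2 ^ q * (3 / 2) /
      ((2 / 3 : ℝ) ^ q * ((q + 6).choose 6 : ℝ) / 729) = -tailNearT q := by
    unfold tailNearT
    have h1 : (3 / 4 : ℝ) ^ q = 1 / (2 ^ q * (2 / 3 : ℝ) ^ q) := by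
      rw [← mul_pow, one_div, ← inv_pow]
      norm_num
    have h2 : (0 : ℝ) < (2 / 3 : ℝ) ^ q := by positivity
    have h3 : (0 : ℝ) < (2 : ℝ) ^ q := by positivity
    rw [h1]
    field_simp
  rw [hlim] at hF
  have hvneg : -1 * (3 * (q : ℝ) - 1) / 2 ^ q < 0 := by
    have h3 : (0 : ℝ) < (2 : ℝ) ^ q := by positivity
    apply div_neg_of_neg_of_pos _ h3
    linarith
  filter_upwards [hF.eventually (lt_mem_nhds (show -tailNearT q - 1 / 50000 < -tailNearT q by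
      linarith)), hg.eventually (lt_mem_nhds hgpos), hv.eventually (gt_mem_nhds hvneg),
    eventually_ge_atTop (q + 6)] with Q h1 h2 h3 h4
  intro y γ hy hb
  simp only [Pi.div_apply] at h1
  have hy0 : 0 ≤ y q := hy q (by omega)
  have hb6 := hb q 6 h4
  have hγ : 0 ≤ γ := le_trans (mul_nonneg hy0 (sq_nonneg _)) hb6
  have hQR : (q : ℝ) + 6 ≤ Q := by exact_mod_cast h4
  have hR : 0 < 3 * (Q : ℝ) - 1 - 2 * q := by linarith
  have hQ1 : 0 < 2 * (Q : ℝ) - 1 := by linarith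
  set c := (cgv (2 * Q - 2) Q q 6 0 (q + 6)) ^ 2 with hcdef
  have hyle : y q ≤ γ / c := by
    rw [le_div_iff₀ h2]
    exact hb6
  have h5 : vv Q q * (3 * (Q : ℝ) - 1 - 2 * q) ≤ 0 :=
    mul_nonpos_of_nonpos_of_nonneg h3.le hR.le
  have h6 : vv Q q * (3 * (Q : ℝ) - 1 - 2 * q) * (γ / c) ≤
      vv Q q * (3 * (Q : ℝ) - 1 - 2 * q) * y q :=
    mul_le_mul_of_nonpos_left hyle h5
  have h7 : vv Q q * (3 * (Q : ℝ) - 1 - 2 * q) * (γ / c) =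
      (vv Q q * ((3 * (Q : ℝ) - 1 - 2 * q) / (2 * (Q : ℝ) - 1)) / c) *
        ((2 * (Q : ℝ) - 1) * γ) := by
    have hinv : (2 * (Q : ℝ) - 1) * (2 * (Q : ℝ) - 1)⁻¹ = 1 := mul_inv_cancel₀ hQ1.ne'
    rw [div_eq_mul_inv, div_eq_mul_inv, div_eq_mul_inv]
    linear_combination (-(vv Q q * (3 * (Q : ℝ) - 1 - 2 * q) * c⁻¹ * γ)) * hinv
  have h8 : (-tailNearT q - 1 / 50000) * ((2 * (Q : ℝ) - 1) * γ) ≤
      (vv Q q * ((3 * (Q : ℝ) - 1 - 2 * q) / (2 * (Q : ℝ) - 1)) / c) *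
        ((2 * (Q : ℝ) - 1) * γ) :=
    mul_le_mul_of_nonneg_right h1.le (mul_nonneg hQ1.le hγ)
  linarith

/-- limit part: `16 ≤ q ≤ 50` -/
theorem tail_near : ∀ᶠ Q : ℕ in atTop, ∀ (y : ℕ → ℝ) (γ : ℝ), (∀ q ≤ Q, 0 ≤ y q) →
    (∀ q k, q + k ≤ Q → y q * (cgv (2 * Q - 2) Q q k 0 (q + k)) ^ 2 ≤ γ) →
    -(7 / 1000) * (2 * (Q : ℝ) - 1) * γ
      ≤ ∑ q ∈ Icc 16 50, vv Q q * y q * (3 * (Q : ℝ) - 1 - 2 * q) := by
  have hall : ∀ᶠ Q : ℕ in atTop, ∀ q ∈ Icc (16 : ℕ) 50, q % 2 = 1 → ∀ (y : ℕ → ℝ) (γ : ℝ),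
      (∀ q ≤ Q, 0 ≤ y q) →
      (∀ q k, q + k ≤ Q → y q * (cgv (2 * Q - 2) Q q k 0 (q + k)) ^ 2 ≤ γ) →
      -((tailNearT q + 1 / 50000) * ((2 * (Q : ℝ) - 1) * γ)) ≤
        vv Q q * y q * (3 * (Q : ℝ) - 1 - 2 * q) := by
    rw [Filter.eventually_all_finset]
    intro q _
    by_cases hq : q % 2 = 1
    · filter_upwards [tailNear_q q hq] with Q hQ _
      exact hQ
    · exact Eventually.of_forall fun Q h => absurd h hq
  filter_upwards [hall, eventually_ge_atTop 100] with Q hQ hQ100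
  intro y γ hy hb
  have hQR : (100 : ℝ) ≤ Q := by exact_mod_cast hQ100
  have hγ : 0 ≤ γ := le_trans (mul_nonneg (hy 0 (by omega)) (sq_nonneg _)) (hb 0 0 (by omega))
  have hpos : 0 ≤ (2 * (Q : ℝ) - 1) * γ := mul_nonneg (by linarith) hγ
  have hterm : ∀ q ∈ Icc (16 : ℕ) 50, -((if q % 2 = 1 then (tailNearT q + 1 / 50000) else 0) *
      ((2 * (Q : ℝ) - 1) * γ)) ≤ vv Q q * y q * (3 * (Q : ℝ) - 1 - 2 * q) := by
    intro q hq
    have hq' := Finset.mem_Icc.1 hq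
    by_cases hodd : q % 2 = 1
    · rw [if_pos hodd]
      exact hQ q hq hodd y γ hy hb
    · rw [if_neg hodd, zero_mul, neg_zero]
      have h1 : 0 ≤ vv Q q := vv_even_nonneg Q q (by omega) (by omega) (by omega)
        (Nat.even_iff.2 (by omega))
      have h2 : (q : ℝ) ≤ 50 := by exact_mod_cast hq'.2
      exact mul_nonneg (mul_nonneg h1 (hy q (by omega))) (by linarith)
  have hsum := Finset.sum_le_sum hterm
  rw [Finset.sum_neg_distrib, ← Finset.sum_mul] at hsum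
  refine le_trans ?_ hsum
  have h3 := mul_le_mul_of_nonneg_right tailNear_num hpos
  linarith

end Vale.Agent.P359
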