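import Vale.Agent.Lib.P359.TailFar
import Vale.Agent.Lib.P359.TailNear

/-!
# P359 / Tail : the channels `q ≥ 16`

Even `q ≥ 2`: `vv Q q ≥ 0` (`q (2Q-1-q)/Q + q - 1 ≥ 0`), the summand is `≥ 0`.
Odd `q`: `|vv Q q| y_q (3Q-1-2q) ≤ γ |vv Q q| (3Q-1-2q) / (cgv (2Q-2) Q q k 0 (q+k))²`.

* `17 ≤ q ≤ 49` odd, `k = 6`: `(cgv …)² = C(Q,q+6) kap² / (Sq C(3Q-2-2q,6))` with
  `kap (2Q-2) Q q 0 m = C(m,q)/C(Q,q)`; it tends to `(2/3)^q C(q+6,6)/729`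
  (`= L3 q 0 (q+6) 0 (q+6) · (q+6)!`), so
  `|vv| (3Q-1-2q)/((2Q-1) (cgv…)²) → (3/2)(3q-1) 2^{-q} 729 / ((2/3)^q C(q+6,6)) =: t_q`, and
  `Σ_{q=17,19,…,49} t_q = 0.00643 < 0.007`.
* `q ≥ 51` odd, `k = 0`: `(cgv (2Q-2) Q q 0 0 q)² = 1/(C(Q,q) Sq)` and
  `C(Q,q) Sq = Σ_i C(q,i) ∏_{j=1}^{i} (Q-q+j)/(2Q-2-i+j) ≤ (2Q/(2Q-3)) Σ_i C(q,i)/2^i ≤ 2 (3/2)^q`
  for `Q ≥ 3` (each factor is `≤ 1/2` except, for `i = q`, the factors `j = q-1`, `j = q`, which are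
  `(Q-1)/(2Q-3)` and `Q/(2Q-2)`);
  `C(Q,q)/C(2Q-2,q) = ∏_{i<q} (Q-i)/(2Q-2-i) ≤ 2^{-q} 2Q/(2Q-3) ≤ 2·2^{-q}`, so `|vv Q q| ≤ 6 q 2^{-q}`;
  `(3Q-1-2q)/(2Q-1) ≤ 2`.  Each summand is `≤ 24 q (3/4)^q (2Q-1) γ`, and
  `Σ_{q≥51} 24 q (3/4)^q < 0.0023`.
Total `< 0.0094 < 1/100`.
-/

namespace Vale.Agent.P359

open Finset Matrix Filter Topology

theorem tail : ∀ᶠ Q : ℕ in atTop, ∀ (y : ℕ → ℝ) (γ : ℝ), (∀ q ≤ Q, 0 ≤ y q) →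
    (∀ q k, q + k ≤ Q → y q * (cgv (2 * Q - 2) Q q k 0 (q + k)) ^ 2 ≤ γ) →
    -(1 / 100) * (2 * (Q : ℝ) - 1) * γ
      ≤ ∑ q ∈ Icc 16 Q, vv Q q * y q * (3 * (Q : ℝ) - 1 - 2 * q) := by
  filter_upwards [tail_near, eventually_ge_atTop 100] with Q hnear hQ y γ hy hb
  have h1 := hnear y γ hy hb
  have h2 := tail_far Q hQ y γ hy hb
  have hγ : 0 ≤ γ :=
    le_trans (mul_nonneg (hy 0 (Nat.zero_le Q)) (sq_nonneg _)) (hb 0 0 (Nat.zero_le Q))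
  have hsplit : Icc 16 Q = Icc 16 50 ∪ Icc 51 Q := by
    ext q
    simp only [mem_union, mem_Icc]
    omega
  have hdisj : Disjoint (Icc 16 50) (Icc 51 Q) := by
    rw [Finset.disjoint_left]
    intro q hq hq'
    simp only [mem_Icc] at hq hq'
    omega
  rw [hsplit, sum_union hdisj]
  have hQ' : (100 : ℝ) ≤ Q := by exact_mod_cast hQ
  have h3 : 0 ≤ (2 * (Q : ℝ) - 1) * γ := mul_nonneg (by linarith) hγ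
  have h4 : -(1 / 100) * (2 * (Q : ℝ) - 1) * γ ≤
      -(7 / 1000) * (2 * (Q : ℝ) - 1) * γ + -(24 / 10000) * (2 * (Q : ℝ) - 1) * γ := by
    nlinarith [h3]
  linarith

end Vale.Agent.P359
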