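import Vale.Agent.Lib.P359.CG

/-!
# P359 / Schur : symmetric matrices commuting with the raising matrix

`spectral`: let `G` be symmetric and commute with `E = E2 A B` (hence with `Eᵀ`).  Put
`g(q,k,q',k') = ⟨u_{qk}, G u_{q'k'}⟩`, `u = cgvec`, `κ_{q,k} = √((k+1)(2J_q-k))`, `2J_q = A+B-2q`.
From `⟨Eᵀ u_{qk}, G u_{q'k'}⟩ = ⟨u_{qk}, G E u_{q'k'}⟩`:
`κ_{q,k} g(q,k+1,q',k') = κ_{q',k'-1} g(q,k,q',k'-1)` (right side `0` if `k'=0`), for
`k+1 ≤ 2J_q`.  Hence `g(q,k+1,q',0)=0`; by symmetry `g(q,0,q',k'+1)=0`; by induction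
`g(q,k,q',k')=0` whenever `k ≠ k'`, and `g(q,k,q,k) = g(q,0,q,0) =: y_q`.
For `q ≠ q'`, wlog `2J_q > 2J_q'` : from `⟨E u_{qk}, G u_{q'k'}⟩ = ⟨u_{qk}, G Eᵀ u_{q'k'}⟩`:
`κ_{q,k-1} g(q,k-1,q',k') = κ_{q',k'} g(q,k,q',k'+1)`, right side `0` for `k' = 2J_q'`; with
`k = k'+1 ≤ 2J_q` this gives `g(q,2J_q',q',2J_q')=0`, and then the first relation with `k=k'`
descends to `g(q,k,q',k)=0` for all `k`.
Expanding `G x x' = Σ u_{qk}(x) g(q,k,q',k') u_{q'k'}(x')` (completeness `cg_complete`) gives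
the claim.

`spectral_one`: the same for a single spin (`E = Emat A`): the basis vectors `e_j` are one string.
-/

namespace Vale.Agent.P359

open Finset Matrix

theorem schur_expand (A B : ℕ) (hBA : B ≤ A) (v : Fin (A + 1) × Fin (B + 1) → ℝ)
    (x : Fin (A + 1) × Fin (B + 1)) :
    v x = ∑ q ∈ range (B + 1), ∑ k ∈ range (A + B - 2 * q + 1),
      (cgvec A B q k ⬝ᵥ v) * cgvec A B q k x := by
  have h : v x = ∑ y, v y * (if x = y then 1 else 0) := by simp
  rw [h]
  simp_rw [← cg_complete A B hBA x, Finset.mul_sum]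
  rw [Finset.sum_comm]
  apply sum_congr rfl
  intro q _
  rw [Finset.sum_comm]
  apply sum_congr rfl
  intro k _
  rw [dotProduct, Finset.sum_mul]
  apply sum_congr rfl
  intro y _
  ring

/-- the matrix elements of `G` -/
noncomputable def schurG (A B : ℕ)
    (G : Matrix (Fin (A + 1) × Fin (B + 1)) (Fin (A + 1) × Fin (B + 1)) ℝ)
    (q k q' k' : ℕ) : ℝ := cgvec A B q k ⬝ᵥ G *ᵥ cgvec A B q' k'

section Schur

variable (A B : ℕ) (G : Matrix (Fin (A + 1) × Fin (B + 1)) (Fin (A + 1) × Fin (B + 1)) ℝ)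

theorem schurG_symm (hs : Gᵀ = G) (q k q' k' : ℕ) :
    schurG A B G q k q' k' = schurG A B G q' k' q k := by
  unfold schurG
  rw [dotProduct_mulVec, ← mulVec_transpose, hs, dotProduct_comm]

theorem schur_move (hE : G * E2 A B = E2 A B * G) (v w : Fin (A + 1) × Fin (B + 1) → ℝ) :
    (E2 A B)ᵀ *ᵥ v ⬝ᵥ G *ᵥ w = v ⬝ᵥ G *ᵥ (E2 A B *ᵥ w) := by
  rw [mulVec_transpose, ← dotProduct_mulVec, mulVec_mulVec, mulVec_mulVec, hE]

theorem schur_move' (hs : Gᵀ = G) (hE : G * E2 A B = E2 A B * G)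
    (v w : Fin (A + 1) × Fin (B + 1) → ℝ) :
    E2 A B *ᵥ v ⬝ᵥ G *ᵥ w = v ⬝ᵥ G *ᵥ ((E2 A B)ᵀ *ᵥ w) := by
  have hE' : G * (E2 A B)ᵀ = (E2 A B)ᵀ * G := by
    have h := congrArg Matrix.transpose hE
    rw [transpose_mul, transpose_mul, hs] at h
    exact h.symm
  have h1 : E2 A B *ᵥ v = v ᵥ* (E2 A B)ᵀ := by rw [vecMul_transpose]
  rw [h1, ← dotProduct_mulVec, mulVec_mulVec, mulVec_mulVec, hE']

theorem schur_kap_pos {q k : ℕ} (hk : k + 1 ≤ A + B - 2 * q) :
    0 < √(((k : ℝ) + 1) * ((A + B - 2 * q - k : ℕ) : ℝ)) := by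
  apply Real.sqrt_pos.2
  have h : 0 < A + B - 2 * q - k := by omega
  have h' : (0 : ℝ) < ((A + B - 2 * q - k : ℕ) : ℝ) := by exact_mod_cast h
  positivity

theorem schurG_step (hE : G * E2 A B = E2 A B * G) {q k q' k' : ℕ}
    (hA : q ≤ A) (hB : q ≤ B) (hk : k + 1 ≤ A + B - 2 * q)
    (hA' : q' ≤ A) (hB' : q' ≤ B) (hk' : k' + 1 ≤ A + B - 2 * q') :
    √(((k : ℝ) + 1) * ((A + B - 2 * q - k : ℕ) : ℝ)) * schurG A B G q (k + 1) q' (k' + 1)
      = √(((k' : ℝ) + 1) * ((A + B - 2 * q' - k' : ℕ) : ℝ)) * schurG A B G q k q' k' := by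
  have h := schur_move A B G hE (cgvec A B q k) (cgvec A B q' (k' + 1))
  rw [cg_lower A B q k hA hB hk, cg_raise A B q' k' hA' hB' hk', smul_dotProduct,
    mulVec_smul, dotProduct_smul, smul_eq_mul, smul_eq_mul] at h
  exact h

theorem schurG_zero_right (hE : G * E2 A B = E2 A B * G) {q k q' : ℕ}
    (hA : q ≤ A) (hB : q ≤ B) (hk : k + 1 ≤ A + B - 2 * q) (hA' : q' ≤ A) (hB' : q' ≤ B) :
    schurG A B G q (k + 1) q' 0 = 0 := by
  have h := schur_move A B G hE (cgvec A B q k) (cgvec A B q' 0)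
  rw [cg_lower A B q k hA hB hk, cg_raise_zero A B q' hA' hB', smul_dotProduct,
    mulVec_zero, dotProduct_zero, smul_eq_mul] at h
  rcases mul_eq_zero.1 h with h | h
  · exact absurd h (schur_kap_pos A B hk).ne'
  · exact h

theorem schurG_offdiag (hs : Gᵀ = G) (hE : G * E2 A B = E2 A B * G) (k : ℕ) :
    ∀ {q q' k' : ℕ}, q ≤ A → q ≤ B → k ≤ A + B - 2 * q → q' ≤ A → q' ≤ B →
      k' ≤ A + B - 2 * q' → k ≠ k' → schurG A B G q k q' k' = 0 := by
  induction k with
  | zero =>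
    intro q q' k' hA hB hk hA' hB' hk' hne
    obtain ⟨l, rfl⟩ : ∃ l, k' = l + 1 := ⟨k' - 1, by omega⟩
    rw [schurG_symm A B G hs]
    exact schurG_zero_right A B G hE hA' hB' hk' hA hB
  | succ k ih =>
    intro q q' k' hA hB hk hA' hB' hk' hne
    rcases Nat.eq_zero_or_pos k' with h0 | h0
    · subst h0
      exact schurG_zero_right A B G hE hA hB hk hA' hB'
    · obtain ⟨l, rfl⟩ : ∃ l, k' = l + 1 := ⟨k' - 1, by omega⟩
      have h := schurG_step A B G hE hA hB hk hA' hB' hk'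
      rw [ih hA hB (by omega) hA' hB' (by omega) (by omega), mul_zero] at h
      rcases mul_eq_zero.1 h with h | h
      · exact absurd h (schur_kap_pos A B hk).ne'
      · exact h

theorem schurG_diag (hE : G * E2 A B = E2 A B * G) {q : ℕ} (hA : q ≤ A) (hB : q ≤ B) (k : ℕ)
    (hk : k ≤ A + B - 2 * q) : schurG A B G q k q k = schurG A B G q 0 q 0 := by
  induction k with
  | zero => rfl
  | succ k ih =>
    have h := schurG_step A B G hE hA hB hk hA hB hk
    have h2 := mul_left_cancel₀ (schur_kap_pos A B hk).ne' h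
    rw [h2, ih (by omega)]

theorem schurG_top (hs : Gᵀ = G) (hE : G * E2 A B = E2 A B * G) {q q' : ℕ} (hqq : q < q')
    (hA : q ≤ A) (hB : q ≤ B) (hA' : q' ≤ A) (hB' : q' ≤ B) :
    schurG A B G q (A + B - 2 * q') q' (A + B - 2 * q') = 0 := by
  have hk : A + B - 2 * q' + 1 ≤ A + B - 2 * q := by omega
  have h := schur_move' A B G hs hE (cgvec A B q (A + B - 2 * q' + 1))
    (cgvec A B q' (A + B - 2 * q'))
  rw [cg_raise A B q _ hA hB hk, cg_lower_top A B q' hA' hB', smul_dotProduct,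
    mulVec_zero, dotProduct_zero, smul_eq_mul] at h
  rcases mul_eq_zero.1 h with h | h
  · exact absurd h (schur_kap_pos A B hk).ne'
  · exact h

theorem schurG_lt (hs : Gᵀ = G) (hE : G * E2 A B = E2 A B * G) {q q' : ℕ} (hqq : q < q')
    (hA : q ≤ A) (hB : q ≤ B) (hA' : q' ≤ A) (hB' : q' ≤ B) (j : ℕ) :
    ∀ k, k + j = A + B - 2 * q' → schurG A B G q k q' k = 0 := by
  induction j with
  | zero =>
    intro k hk
    have : k = A + B - 2 * q' := by omega
    rw [this]
    exact schurG_top A B G hs hE hqq hA hB hA' hB'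
  | succ j ih =>
    intro k hk
    have h := schurG_step A B G hE hA hB (k := k) (by omega) hA' hB' (k' := k) (by omega)
    rw [ih (k + 1) (by omega), mul_zero] at h
    rcases mul_eq_zero.1 h.symm with h | h
    · exact absurd h (schur_kap_pos A B (q := q') (k := k) (by omega)).ne'
    · exact h

theorem schurG_eq (hs : Gᵀ = G) (hE : G * E2 A B = E2 A B * G) {q q' k k' : ℕ}
    (hA : q ≤ A) (hB : q ≤ B) (hk : k ≤ A + B - 2 * q)
    (hA' : q' ≤ A) (hB' : q' ≤ B) (hk' : k' ≤ A + B - 2 * q') :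
    schurG A B G q k q' k' = if q = q' ∧ k = k' then schurG A B G q 0 q 0 else 0 := by
  by_cases hkk : k = k'
  · subst hkk
    rcases lt_trichotomy q q' with h | h | h
    · rw [if_neg (by omega)]
      exact schurG_lt A B G hs hE h hA hB hA' hB' (A + B - 2 * q' - k) k (by omega)
    · subst h
      rw [if_pos ⟨rfl, rfl⟩]
      exact schurG_diag A B G hE hA hB k hk
    · rw [if_neg (by omega), schurG_symm A B G hs]
      exact schurG_lt A B G hs hE h hA' hB' hA hB (A + B - 2 * q - k) k (by omega)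
  · rw [if_neg (fun h => hkk h.2)]
    exact schurG_offdiag A B G hs hE k hA hB hk hA' hB' hk' hkk

theorem schur_eigen (hBA : B ≤ A) (hs : Gᵀ = G) (hE : G * E2 A B = E2 A B * G) {q k : ℕ}
    (hB : q ≤ B) (hk : k ≤ A + B - 2 * q) (x : Fin (A + 1) × Fin (B + 1)) :
    (G *ᵥ cgvec A B q k) x = schurG A B G q 0 q 0 * cgvec A B q k x := by
  rw [schur_expand A B hBA (G *ᵥ cgvec A B q k) x]
  rw [Finset.sum_eq_single q, Finset.sum_eq_single k]
  · have h := schurG_eq A B G hs hE (q := q) (q' := q) (k := k) (k' := k)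
      (by omega) hB hk (by omega) hB hk
    rw [if_pos ⟨rfl, rfl⟩] at h
    have h' : cgvec A B q k ⬝ᵥ G *ᵥ cgvec A B q k = schurG A B G q 0 q 0 := h
    rw [h']
  · intro l hl hne
    have hl' : l ≤ A + B - 2 * q := by
      have := Finset.mem_range.1 hl
      omega
    have h := schurG_eq A B G hs hE (q := q) (q' := q) (k := l) (k' := k)
      (by omega) hB hl' (by omega) hB hk
    rw [if_neg (fun h => hne h.2)] at h
    have h' : cgvec A B q l ⬝ᵥ G *ᵥ cgvec A B q k = 0 := h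
    rw [h', zero_mul]
  · intro h
    exact absurd (Finset.mem_range.2 (by omega)) h
  · intro p hp hne
    apply Finset.sum_eq_zero
    intro l hl
    have hp' : p ≤ B := by
      have := Finset.mem_range.1 hp
      omega
    have hl' : l ≤ A + B - 2 * p := by
      have := Finset.mem_range.1 hl
      omega
    have h := schurG_eq A B G hs hE (q := p) (q' := q) (k := l) (k' := k)
      (by omega) hp' hl' (by omega) hB hk
    rw [if_neg (fun h => hne h.1)] at h
    have h' : cgvec A B p l ⬝ᵥ G *ᵥ cgvec A B q k = 0 := h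
    rw [h', zero_mul]
  · intro h
    exact absurd (Finset.mem_range.2 (by omega)) h

end Schur

theorem spectral (A B : ℕ) (hBA : B ≤ A)
    (G : Matrix (Fin (A + 1) × Fin (B + 1)) (Fin (A + 1) × Fin (B + 1)) ℝ)
    (hs : Gᵀ = G) (hE : G * E2 A B = E2 A B * G) :
    ∀ x x', G x x' = ∑ q ∈ range (B + 1),
      (cgvec A B q 0 ⬝ᵥ G *ᵥ cgvec A B q 0) *
        ∑ k ∈ range (A + B - 2 * q + 1), cgvec A B q k x * cgvec A B q k x' := by
  intro x x'
  have h : G x x' = ∑ z, G x z * (if x' = z then 1 else 0) := by simp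
  rw [h]
  simp_rw [← cg_complete A B hBA x', Finset.mul_sum]
  rw [Finset.sum_comm]
  apply sum_congr rfl
  intro q hq
  rw [Finset.sum_comm]
  apply sum_congr rfl
  intro k hk
  have hq' : q ≤ B := by
    have := Finset.mem_range.1 hq
    omega
  have hk' : k ≤ A + B - 2 * q := by
    have := Finset.mem_range.1 hk
    omega
  have he := schur_eigen A B G hBA hs hE hq' hk' x
  have h2 : ∑ z, G x z * (cgvec A B q k x' * cgvec A B q k z)
      = (G *ᵥ cgvec A B q k) x * cgvec A B q k x' := by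
    rw [mulVec, dotProduct, Finset.sum_mul]
    apply sum_congr rfl
    intro z _
    ring
  rw [h2, he]
  unfold schurG
  ring

end Vale.Agent.P359
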