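import Vale.Agent.Lib.P359.VComm
import Vale.Agent.Lib.P359.Schur

/-!
# P359 / VEig : the impurity–electron interaction is channel-diagonal with eigenvalues `vv Q q`

* so `spectral` applies with `A = 2Q-2`, `B = Q` (`Q ≥ 2`), and the eigenvalue is read off from the
  component `(0,q)` of `V u_{q0} = v u_{q0}` : row `(0,q)` of `V` has only the two entries
  `V_{(0,q),(q-1,1)} = -w_0(0,1) w_{q-1}(0,q)` and `V_{(0,q),(q,0)} = -w_0(1,0) w_q(1,q)`
  on the weight space `s + m = q`.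
-/

namespace Vale.Agent.P359

open Finset Matrix

/-- channel-diagonal symmetric matrices act as scalars on the highest weight vectors -/
theorem veig_apply (Q q : ℕ) (hQ : 2 ≤ Q) (hq : q ≤ Q) :
    VV Q *ᵥ cgvec (2 * Q - 2) Q q 0
      = (cgvec (2 * Q - 2) Q q 0 ⬝ᵥ VV Q *ᵥ cgvec (2 * Q - 2) Q q 0) •
          cgvec (2 * Q - 2) Q q 0 := by
  have hBA : Q ≤ 2 * Q - 2 := by omega
  obtain ⟨c, hc⟩ : ∃ c : ℕ → ℝ, ∀ q', c q' =
      cgvec (2 * Q - 2) Q q' 0 ⬝ᵥ VV Q *ᵥ cgvec (2 * Q - 2) Q q' 0 := ⟨_, fun _ => rfl⟩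
  have hsp := spectral (2 * Q - 2) Q hBA (VV Q) (VV_symm Q) (VV_comm Q hQ)
  simp only [← hc] at hsp
  rw [← hc]
  funext x
  have h1 : (VV Q *ᵥ cgvec (2 * Q - 2) Q q 0) x
      = ∑ q' ∈ range (Q + 1), c q' *
        ∑ k ∈ range (2 * Q - 2 + Q - 2 * q' + 1), cgvec (2 * Q - 2) Q q' k x *
          (cgvec (2 * Q - 2) Q q' k ⬝ᵥ cgvec (2 * Q - 2) Q q 0) := by
    simp only [Matrix.mulVec, dotProduct]
    rw [Finset.sum_congr rfl (fun y _ => by rw [hsp x y, Finset.sum_mul])]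
    rw [Finset.sum_comm]
    refine Finset.sum_congr rfl fun q' _ => ?_
    rw [Finset.sum_congr rfl (fun y _ => by rw [mul_assoc, Finset.sum_mul])]
    rw [← Finset.mul_sum, Finset.sum_comm]
    congr 1
    refine Finset.sum_congr rfl fun k _ => ?_
    rw [Finset.mul_sum]
    exact Finset.sum_congr rfl fun y _ => by ring
  rw [h1]
  have h2 : ∀ q' ∈ range (Q + 1), ∀ k ∈ range (2 * Q - 2 + Q - 2 * q' + 1),
      cgvec (2 * Q - 2) Q q' k ⬝ᵥ cgvec (2 * Q - 2) Q q 0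
        = if q' = q ∧ k = 0 then (1 : ℝ) else 0 := by
    intro q' hq' k hk
    simp only [Finset.mem_range] at hq' hk
    exact cg_orthonormal (2 * Q - 2) Q q' k q 0 (by omega) (by omega) (by omega) hq (by omega)
      (by omega)
  rw [Finset.sum_congr rfl (fun q' hq' => by
    rw [Finset.sum_congr rfl (fun k hk => by rw [h2 q' hq' k hk])])]
  rw [Finset.sum_eq_single q]
  · rw [Finset.sum_eq_single 0]
    · simp
    · intro k _ hk; simp [hk]
    · intro h; simp at h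
  · intro q' _ hq'; simp [hq']
  · intro h; exact absurd (Finset.mem_range.mpr (by omega)) h

/-- the row `(0,q)` of the interaction -/
theorem vrow_two (Q q : ℕ) (hQ : 2 ≤ Q) (hq : q ≤ Q) (s : Fin (2 * Q - 2 + 1)) (m : Fin (Q + 1))
    (hm0 : (m : ℕ) ≠ 0) (hm1 : (m : ℕ) ≠ 1) :
    VV Q (⟨0, by omega⟩, ⟨q, by omega⟩) (s, m) = 0 := by
  unfold VV
  rw [neg_eq_zero]
  refine Finset.sum_eq_zero fun k _ => ?_
  simp only
  rw [ww_eq Q 0 (k : ℕ) (m : ℕ) (by omega), if_neg (by omega), zero_mul]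

theorem vrow_zero (Q q : ℕ) (hQ : 2 ≤ Q) (hq : q ≤ Q) (s : Fin (2 * Q - 2 + 1)) :
    VV Q (⟨0, by omega⟩, ⟨q, by omega⟩) (s, ⟨0, by omega⟩) = ww Q s 1 q := by
  unfold VV
  simp only
  rw [Finset.sum_eq_single (⟨1, by omega⟩ : Fin (Q + 1))]
  · rw [ww_eq Q 0 _ _ (by omega)]
    have hQ0 : (Q : ℝ) ≠ 0 := by positivity
    simp [hQ0]
  · intro k _ hk
    have : (k : ℕ) ≠ 1 := fun h => hk (Fin.ext h)
    rw [ww_eq Q 0 _ _ (by omega), if_neg (by simp; omega), zero_mul]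
  · intro h; exact absurd (Finset.mem_univ _) h

theorem vrow_one (Q q : ℕ) (hQ : 2 ≤ Q) (hq : q ≤ Q) (s : Fin (2 * Q - 2 + 1)) :
    VV Q (⟨0, by omega⟩, ⟨q, by omega⟩) (s, ⟨1, by omega⟩) = - ww Q s 0 q := by
  unfold VV
  simp only
  rw [Finset.sum_eq_single (⟨0, by omega⟩ : Fin (Q + 1))]
  · rw [ww_eq Q 0 _ _ (by omega)]
    have hQ0 : (Q : ℝ) ≠ 0 := by positivity
    simp [hQ0]
  · intro k _ hk
    have : (k : ℕ) ≠ 0 := fun h => hk (Fin.ext h)
    rw [ww_eq Q 0 _ _ (by omega), if_neg (by simpa using this), zero_mul]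
  · intro h; exact absurd (Finset.mem_univ _) h

theorem veig_top_val (Q q r m : ℕ) (h : r + m = q) :
    cgv (2 * Q - 2) Q q 0 r m = √(((2 * Q - 2).choose r : ℝ) * (Q.choose m : ℝ))
      * ((-1) ^ r * (q.choose r : ℝ) / (((2 * Q - 2).choose r : ℝ) * (Q.choose m : ℝ)))
      / √(Sq (2 * Q - 2) Q q) := by
  unfold cgv
  rw [if_pos (by omega), kap_top _ _ _ _ _ h]
  simp

theorem VV_eig (Q q : ℕ) (hQ : 2 ≤ Q) (hq : q ≤ Q) :
    cgvec (2 * Q - 2) Q q 0 ⬝ᵥ VV Q *ᵥ cgvec (2 * Q - 2) Q q 0 = vv Q q := by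
  have hap := congrFun (veig_apply Q q hQ hq)
    ((⟨0, by omega⟩, ⟨q, by omega⟩) : Fin (2 * Q - 2 + 1) × Fin (Q + 1))
  set v := cgvec (2 * Q - 2) Q q 0 ⬝ᵥ VV Q *ᵥ cgvec (2 * Q - 2) Q q 0 with hv
  have hS := Sq_pos (2 * Q - 2) Q q (by omega) hq
  set S := √(Sq (2 * Q - 2) Q q) with hSdef
  have hSpos : 0 < S := Real.sqrt_pos.mpr hS
  have hCQ : (0 : ℝ) < (Q.choose q : ℝ) := by exact_mod_cast Nat.choose_pos hq
  have hCA : (0 : ℝ) < ((2 * Q - 2).choose q : ℝ) := by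
    exact_mod_cast Nat.choose_pos (by omega)
  have hQpos : (0 : ℝ) < (Q : ℝ) := by positivity
  -- left side
  have hL : (VV Q *ᵥ cgvec (2 * Q - 2) Q q 0)
      ((⟨0, by omega⟩, ⟨q, by omega⟩) : Fin (2 * Q - 2 + 1) × Fin (Q + 1))
      = (∑ s : Fin (2 * Q - 2 + 1), ww Q s 1 q * cgv (2 * Q - 2) Q q 0 s 0)
        + ∑ s : Fin (2 * Q - 2 + 1), (- ww Q s 0 q) * cgv (2 * Q - 2) Q q 0 s 1 := by
    simp only [Matrix.mulVec, dotProduct]
    rw [Fintype.sum_prod_type, Finset.sum_comm]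
    rw [Fintype.sum_eq_add (⟨0, by omega⟩ : Fin (Q + 1)) (⟨1, by omega⟩ : Fin (Q + 1))]
    · congr 1
      · refine Finset.sum_congr rfl fun s _ => ?_
        rw [vrow_zero Q q hQ hq s]; rfl
      · refine Finset.sum_congr rfl fun s _ => ?_
        rw [vrow_one Q q hQ hq s]; rfl
    · simp
    · intro m hm
      refine Finset.sum_eq_zero fun s _ => ?_
      rw [vrow_two Q q hQ hq s m (fun h => hm.1 (Fin.ext h)) (fun h => hm.2 (Fin.ext h)), zero_mul]
  have hterm1 : (∑ s : Fin (2 * Q - 2 + 1), ww Q s 1 q * cgv (2 * Q - 2) Q q 0 s 0)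
      = ww Q q 1 q * cgv (2 * Q - 2) Q q 0 q 0 := by
    rw [Finset.sum_eq_single (⟨q, by omega⟩ : Fin (2 * Q - 2 + 1))]
    · intro s _ hs
      have : (s : ℕ) ≠ q := fun h => hs (Fin.ext h)
      rw [ww_eq Q s 1 q (by omega), if_neg (by omega), zero_mul]
    · intro h; exact absurd (Finset.mem_univ _) h
  have hw1 : ww Q q 1 q * cgv (2 * Q - 2) Q q 0 q 0
      = ((q : ℝ) - 1) * (-1) ^ q * √(Q.choose q : ℝ) / ((2 * Q - 2).choose q : ℝ) / S := by
    rw [ww_eq Q q 1 q (by omega), if_pos (by omega), veig_top_val Q q q 0 (by omega)]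
    have e1 : ((Q.choose 1 : ℝ) * (Q.choose q : ℝ) / ((Q : ℝ) * ((2 * Q - 2).choose q : ℝ)))
        = (Q.choose q : ℝ) / ((2 * Q - 2).choose q : ℝ) := by
      rw [Nat.choose_one_right]; field_simp
    rw [e1, Real.sqrt_div hCQ.le]
    simp only [Nat.choose_zero_right, Nat.cast_one, mul_one, Nat.choose_self]
    have hs : √((2 * Q - 2).choose q : ℝ) ≠ 0 := (Real.sqrt_pos.mpr hCA).ne'
    rw [← hSdef]
    field_simp
  have hu0 : cgvec (2 * Q - 2) Q q 0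
      ((⟨0, by omega⟩, ⟨q, by omega⟩) : Fin (2 * Q - 2 + 1) × Fin (Q + 1))
      = √(Q.choose q : ℝ) / (Q.choose q : ℝ) / S := by
    change cgv (2 * Q - 2) Q q 0 0 q = _
    rw [veig_top_val Q q 0 q (by omega), ← hSdef]
    simp
    field_simp
  rw [Pi.smul_apply, smul_eq_mul, hu0, hL, hterm1, hw1] at hap
  have hsq : √(Q.choose q : ℝ) ≠ 0 := (Real.sqrt_pos.mpr hCQ).ne'
  rcases Nat.eq_zero_or_pos q with h0 | hpos
  · subst h0
    have hz : (∑ s : Fin (2 * Q - 2 + 1), (- ww Q s 0 0) * cgv (2 * Q - 2) Q 0 0 s 1) = 0 := by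
      refine Finset.sum_eq_zero fun s _ => ?_
      rw [ww_eq Q s 0 0 (by omega), if_neg (by omega)]; simp
    rw [hz] at hap
    unfold vv
    simp at hap ⊢
    have : v = -1 := by
      field_simp at hap
      linarith
    rw [this]
  · have hterm2 : (∑ s : Fin (2 * Q - 2 + 1), (- ww Q s 0 q) * cgv (2 * Q - 2) Q q 0 s 1)
        = (- ww Q (q - 1) 0 q) * cgv (2 * Q - 2) Q q 0 (q - 1) 1 := by
      rw [Finset.sum_eq_single (⟨q - 1, by omega⟩ : Fin (2 * Q - 2 + 1))]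
      · intro s _ hs
        have : (s : ℕ) ≠ q - 1 := fun h => hs (Fin.ext h)
        rw [ww_eq Q s 0 q (by omega), if_neg (by omega)]; simp
      · intro h; exact absurd (Finset.mem_univ _) h
    have hCA1 : (0 : ℝ) < ((2 * Q - 2).choose (q - 1) : ℝ) := by
      exact_mod_cast Nat.choose_pos (by omega)
    have hchoose : ((2 * Q - 2).choose q : ℝ) * (q : ℝ)
        = ((2 * Q - 2).choose (q - 1) : ℝ) * (2 * (Q : ℝ) - 1 - q) := by
      obtain ⟨p, rfl⟩ : ∃ p, q = p + 1 := ⟨q - 1, by omega⟩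
      have := Nat.choose_succ_right_eq (2 * Q - 2) p
      have h2 : ((2 * Q - 2 - p : ℕ) : ℝ) = 2 * (Q : ℝ) - 1 - ((p + 1 : ℕ) : ℝ) := by
        rw [Nat.cast_sub (by omega), Nat.cast_sub (by omega)]; push_cast; ring
      rw [Nat.add_sub_cancel, ← h2]
      exact_mod_cast this
    have hw2 : (- ww Q (q - 1) 0 q) * cgv (2 * Q - 2) Q q 0 (q - 1) 1
        = (-1) ^ q * (q : ℝ) ^ 2 * √(Q.choose q : ℝ)
          / ((Q : ℝ) * ((2 * Q - 2).choose (q - 1) : ℝ)) / S := by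
      rw [ww_eq Q (q - 1) 0 q (by omega), if_pos (by omega),
        veig_top_val Q q (q - 1) 1 (by omega)]
      have e1 : ((Q.choose 0 : ℝ) * (Q.choose q : ℝ)
          / ((Q : ℝ) * ((2 * Q - 2).choose (q - 1) : ℝ)))
          = (Q.choose q : ℝ) / (((2 * Q - 2).choose (q - 1) : ℝ) * (Q : ℝ)) := by
        rw [Nat.choose_zero_right]; push_cast; rw [one_mul, mul_comm (Q : ℝ)]
      have e2 : (q.choose (q - 1) : ℝ) = q := by
        rw [Nat.choose_symm_of_eq_add (show q = (q - 1) + 1 by omega), Nat.choose_one_right]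
      have e3 : ((-1 : ℝ)) ^ (q - 1) = - (-1) ^ q := by
        obtain ⟨p, rfl⟩ : ∃ p, q = p + 1 := ⟨q - 1, by omega⟩
        rw [Nat.add_sub_cancel, pow_succ]; ring
      rw [e1, e2, e3, Real.sqrt_div hCQ.le, Nat.choose_one_right]
      have hs : √(((2 * Q - 2).choose (q - 1) : ℝ) * (Q : ℝ)) ≠ 0 :=
        (Real.sqrt_pos.mpr (by positivity)).ne'
      push_cast
      rw [← hSdef]
      field_simp
      ring
    rw [hterm2, hw2] at hap
    unfold vv
    have key : v = (-1) ^ q * (Q.choose q : ℝ) * (((q : ℝ) - 1) / ((2 * Q - 2).choose q : ℝ)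
        + (q : ℝ) ^ 2 / ((Q : ℝ) * ((2 * Q - 2).choose (q - 1) : ℝ))) := by
      field_simp at hap ⊢
      linear_combination -hap
    rw [key]
    have hq0 : (q : ℝ) ≠ 0 := by positivity
    have e4 : (q : ℝ) ^ 2 / ((Q : ℝ) * ((2 * Q - 2).choose (q - 1) : ℝ))
        = (q : ℝ) * (2 * (Q : ℝ) - 1 - q) / Q / ((2 * Q - 2).choose q : ℝ) := by
      rw [div_div, div_eq_div_iff (by positivity) (by positivity)]
      linear_combination (q : ℝ) * (Q : ℝ) * hchoose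
    rw [e4]
    field_simp
    ring

theorem VV_spec (Q : ℕ) (hQ : 2 ≤ Q) (x x' : I3 Q) :
    VV Q x x' = ∑ q ∈ range (Q + 1), vv Q q *
      ∑ k ∈ range (2 * Q - 2 + Q - 2 * q + 1),
        cgvec (2 * Q - 2) Q q k x * cgvec (2 * Q - 2) Q q k x' := by
  rw [spectral (2 * Q - 2) Q (by omega) (VV Q) (VV_symm Q) (VV_comm Q hQ) x x']
  refine Finset.sum_congr rfl fun q hq => ?_
  simp only [Finset.mem_range] at hq
  rw [VV_eig Q q hQ (by omega)]

end Vale.Agent.P359
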