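import Vale.Agent.Lib.P359.PauliB
import Vale.Agent.Lib.P359.VEig
import Vale.Agent.Lib.P359.HSq
import Vale.Agent.Lib.P359.Chan
import Vale.Agent.Lib.P359.Tail
import Vale.Agent.Lib.P359.LocPos
import Vale.Agent.Lib.P359.OlocTr
import Vale.Agent.Lib.P359.Proj

/-!
# P359 / Core : every nonzero eigenvalue of `HH Q` is at least `1/25`, for all large `Q`
-/

namespace Vale.Agent.P359

open Finset Matrix Filter Topology

/-- the trace identity `tr(P H²)` -/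
theorem tr_HH_sq (Q : ℕ) (hQ : 3 ≤ Q) (P : Op Q) (hP : Pᵀ = P) (hJ : P * Jp Q = Jp Q * P) :
    trace (P * (HH Q * HH Q)) = trace (P * HH Q)
      + (∑ q ∈ range (Q + 1), vv Q q *
          (cgvec (2 * Q - 2) Q q 0 ⬝ᵥ G3 Q P *ᵥ cgvec (2 * Q - 2) Q q 0)
            * ((2 * Q - 2 + Q - 2 * q + 1 : ℕ) : ℝ))
      + ∑ j ∈ range (2 * Q - 2 + 1),
          (cgvec (2 * Q - 2) (2 * Q - 2) j 0 ⬝ᵥ G4 Q P *ᵥ cgvec (2 * Q - 2) (2 * Q - 2) j 0)
            * ((2 * Q - 2 + (2 * Q - 2) - 2 * j + 1 : ℕ) : ℝ) := by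
  rw [HH_sq Q (by omega), Matrix.mul_add, Matrix.mul_add, Matrix.trace_add, Matrix.trace_add]
  congr 1
  · congr 1
    have h1 : trace (P * ∑ x : I3 Q, ∑ y : I3 Q, VV Q x y • ((T3 Q x)ᵀ * T3 Q y))
        = ∑ x : I3 Q, ∑ y : I3 Q, VV Q x y * G3 Q P x y := by
      simp only [Matrix.mul_sum, Matrix.trace_sum, Matrix.mul_smul, Matrix.trace_smul,
        smul_eq_mul, G3]
    rw [h1]
    exact trace_spectral (2 * Q - 2) Q (by omega) _ (vv Q) (G3 Q P) (VV Q)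
      (G3_spec Q (by omega) P hP hJ) (VV_spec Q (by omega))
  · have h1 : trace (P * ∑ x : I4 Q, (T4 Q x)ᵀ * T4 Q x) = ∑ x : I4 Q, G4 Q P x x := by
      simp only [Matrix.mul_sum, Matrix.trace_sum, G4]
    rw [h1]
    simp_rw [G4_spec Q (by omega) P hP hJ]
    rw [Finset.sum_comm]
    refine Finset.sum_congr rfl fun j hj => ?_
    rw [← Finset.mul_sum, Finset.sum_comm]
    congr 1
    have h2 : ∀ k ∈ range (2 * Q - 2 + (2 * Q - 2) - 2 * j + 1),
        ∑ x : I4 Q, cgvec (2 * Q - 2) (2 * Q - 2) j k x * cgvec (2 * Q - 2) (2 * Q - 2) j k x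
          = 1 := by
      intro k hk
      have hj' : j ≤ 2 * Q - 2 := by simpa [Nat.lt_succ_iff] using hj
      have hk' : k ≤ 2 * Q - 2 + (2 * Q - 2) - 2 * j := by simpa [Nat.lt_succ_iff] using hk
      have := cg_orthonormal (2 * Q - 2) (2 * Q - 2) j k j k hj' hj' hj' hj' hk' hk'
      simpa [dotProduct] using this
    rw [Finset.sum_congr rfl h2]
    simp

theorem tr_HH (Q : ℕ) (hQ : 3 ≤ Q) (P : Op Q) (hP : Pᵀ = P) (hJ : P * Jp Q = Jp Q * P) :
    trace (P * HH Q) = (2 * (Q : ℝ) - 1) * G2 Q P 0 0 := by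
  have h1 : trace (P * HH Q) = ∑ s : Fin (2 * Q - 2 + 1), G2 Q P s s := by
    rw [HH, Finset.sum_range, Matrix.mul_sum, Matrix.trace_sum]
    rfl
  rw [h1]
  have h0 : ∀ s : Fin (2 * Q - 2 + 1), G2 Q P s s = G2 Q P 0 0 := by
    intro s
    rw [G2_spec Q (by omega) P hP hJ s s, if_pos rfl]
  rw [Finset.sum_congr rfl fun s _ => h0 s]
  have : ((2 * Q - 2 + 1 : ℕ) : ℝ) = 2 * (Q : ℝ) - 1 := by
    have : 2 * Q - 2 + 1 = 2 * Q - 1 := by omega
    rw [this, Nat.cast_sub (by omega)]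
    push_cast; ring
  rw [Finset.sum_const, Finset.card_univ, Fintype.card_fin, nsmul_eq_mul, this]

theorem core_gap : ∃ Q0 : ℕ, ∀ Q ≥ Q0, ∀ (μ : ℝ) (f : Finset (Fin (Q + 1)) → ℝ), f ≠ 0 →
    HH Q *ᵥ f = μ • f → μ ≠ 0 → 1 / 25 ≤ μ := by
  have hε : (0 : ℝ) < 1 / 10000 := by norm_num
  obtain ⟨Q0, hQ0⟩ := Filter.eventually_atTop.1
    ((((ev_al0.and ev_B1).and ev_C1).and (tail.and (loc_pos _ hε))).and
      (Filter.eventually_ge_atTop 100))
  refine ⟨Q0, fun Q hQ μ f hf hHf hμ => ?_⟩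
  obtain ⟨⟨⟨⟨hal, hB⟩, hC⟩, htail, hloc⟩, h100⟩ := hQ0 Q hQ
  have hQr : (100 : ℝ) ≤ (Q : ℝ) := by exact_mod_cast h100
  have hHsymm : (HH Q)ᵀ = HH Q := by
    unfold HH
    rw [Matrix.transpose_sum]
    refine Finset.sum_congr rfl fun s _ => ?_
    rw [Matrix.transpose_mul, Matrix.transpose_transpose]
  obtain ⟨P, hPt, hPp, htr, hPH, hcomm⟩ := exists_inv (HH Q) hHsymm μ f hf hHf
  have hJ : P * Jp Q = Jp Q * P := hcomm _ (HH_comm Q (by omega))
  set γ := G2 Q P 0 0 with hγ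
  set y : ℕ → ℝ := fun q => cgvec (2 * Q - 2) Q q 0 ⬝ᵥ G3 Q P *ᵥ cgvec (2 * Q - 2) Q q 0 with hy
  set z : ℕ → ℝ := fun j =>
    cgvec (2 * Q - 2) (2 * Q - 2) j 0 ⬝ᵥ G4 Q P *ᵥ cgvec (2 * Q - 2) (2 * Q - 2) j 0 with hz
  have hy0 : ∀ q, 0 ≤ y q := fun q => chan3_nonneg Q q P hPp
  have hz0 : ∀ j, 0 ≤ z j := fun j => chan4_nonneg Q j P hPp
  have hγ0 : 0 ≤ γ := by
    apply trace_psd_nonneg P _ hPp
    have := Matrix.posSemidef_conjTranspose_mul_self (bb Q 0)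
    simpa using this
  have hT1 := tr_HH Q (by omega) P hPt hJ
  have hT2 := tr_HH_sq Q (by omega) P hPt hJ
  have hPH1 : trace (P * HH Q) = μ * trace P := by
    rw [hPH, Matrix.trace_smul, smul_eq_mul]
  have hPH2 : trace (P * (HH Q * HH Q)) = μ * trace (P * HH Q) := by
    rw [← Matrix.mul_assoc, hPH, Matrix.smul_mul, Matrix.trace_smul, smul_eq_mul, hPH]
  have hHp : (HH Q).PosSemidef := by
    unfold HH
    refine Matrix.posSemidef_sum _ fun s _ => ?_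
    have := Matrix.posSemidef_conjTranspose_mul_self (bb Q s)
    simpa using this
  have hμ0 : 0 ≤ μ * trace P := by
    rw [← hPH1]; exact trace_psd_nonneg P _ hPp hHp
  have hμp : 0 < μ := by
    rcases lt_trichotomy μ 0 with h | h | h
    · exact absurd hμ0 (not_le.2 (mul_neg_of_neg_of_pos h htr))
    · exact absurd h hμ
    · exact h
  have hγp : 0 < γ := by
    have h1 : 0 < (2 * (Q : ℝ) - 1) * γ := by
      rw [← hT1, hPH1]; exact mul_pos hμp htr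
    by_contra hcon
    have : γ = 0 := le_antisymm (not_lt.1 hcon) hγ0
    rw [this, mul_zero] at h1
    exact lt_irrefl _ h1
  -- local positivity
  have hL : 0 ≤ trace (P * Oloc Q) + 1 / 10000 * (8 * γ) := by
    have h1 := trace_psd_nonneg P _ hPp hloc
    rw [Matrix.mul_add, Matrix.trace_add] at h1
    have h2 : trace (P * ((1 / 10000 : ℝ) • ∑ s ∈ range 8, (bb Q s)ᵀ * bb Q s))
        = 1 / 10000 * (8 * γ) := by
      rw [Matrix.mul_smul, Matrix.trace_smul, smul_eq_mul, Matrix.mul_sum, Matrix.trace_sum]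
      congr 1
      have h3 : ∀ s ∈ range 8, trace (P * ((bb Q s)ᵀ * bb Q s)) = γ := by
        intro s hs
        have hs' : s < 2 * Q - 2 + 1 := by
          have := Finset.mem_range.1 hs
          omega
        have := G2_spec Q (by omega) P hPt hJ ⟨s, hs'⟩ ⟨s, hs'⟩
        rw [if_pos rfl] at this
        exact this
      rw [Finset.sum_congr rfl h3]
      simp
    rwa [h2] at h1
  rw [tr_Oloc Q (by omega) P hPt hJ] at hL
  -- the sums
  have hTail := htail y γ (fun q _ => hy0 q) (fun q k hqk => pauli_bound Q (by omega) P hPp hJ q k hqk)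
  have hcast3 : ∀ q ∈ range (Q + 1), ((2 * Q - 2 + Q - 2 * q + 1 : ℕ) : ℝ) = 3 * (Q : ℝ) - 1 - 2 * q := by
    intro q hq
    have hq' : q ≤ Q := by simpa [Nat.lt_succ_iff] using hq
    have : 2 * Q - 2 + Q - 2 * q + 1 + (1 + 2 * q) = 3 * Q := by omega
    have h2 : (((2 * Q - 2 + Q - 2 * q + 1 : ℕ) : ℝ)) + (1 + 2 * (q : ℝ)) = 3 * (Q : ℝ) := by
      exact_mod_cast this
    linarith
  have hcast4 : ∀ j ∈ range (2 * Q - 2 + 1),
      ((2 * Q - 2 + (2 * Q - 2) - 2 * j + 1 : ℕ) : ℝ) = 4 * (Q : ℝ) - 3 - 2 * j := by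
    intro j hj
    have hj' : j ≤ 2 * Q - 2 := by simpa [Nat.lt_succ_iff] using hj
    have : 2 * Q - 2 + (2 * Q - 2) - 2 * j + 1 + (3 + 2 * j) = 4 * Q := by omega
    have h2 : (((2 * Q - 2 + (2 * Q - 2) - 2 * j + 1 : ℕ) : ℝ)) + (3 + 2 * (j : ℝ)) = 4 * (Q : ℝ) := by
      exact_mod_cast this
    linarith
  -- S3 inequality
  have hS3 : (2 * (Q : ℝ) - 1) * (∑ q ∈ range (Q + 1), y q * B1 Q q)
      - (1 / 100) * (2 * (Q : ℝ) - 1) * γ
      ≤ ∑ q ∈ range (Q + 1), vv Q q * y q * ((2 * Q - 2 + Q - 2 * q + 1 : ℕ) : ℝ) := by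
    have hsplit : ∀ g : ℕ → ℝ, ∑ q ∈ range (Q + 1), g q
        = ∑ q ∈ range 16, g q + ∑ q ∈ Icc 16 Q, g q := by
      intro g
      have h1 : range (Q + 1) = range 16 ∪ Icc 16 Q := by
        ext a; simp only [mem_range, mem_union, mem_Icc]; omega
      rw [h1, Finset.sum_union]
      rw [Finset.disjoint_left]
      intro a ha hb
      simp only [mem_range] at ha
      simp only [mem_Icc] at hb
      omega
    have hA : ∑ q ∈ range (Q + 1), vv Q q * y q * ((2 * Q - 2 + Q - 2 * q + 1 : ℕ) : ℝ)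
        = ∑ q ∈ range (Q + 1), vv Q q * y q * (3 * (Q : ℝ) - 1 - 2 * q) :=
      Finset.sum_congr rfl fun q hq => by rw [hcast3 q hq]
    rw [hA, hsplit (fun q => vv Q q * y q * (3 * (Q : ℝ) - 1 - 2 * q)),
      hsplit (fun q => y q * B1 Q q)]
    have h16 : ∑ q ∈ Icc 16 Q, y q * B1 Q q = 0 :=
      Finset.sum_eq_zero fun q hq => by
        rw [B1_zero Q q (Finset.mem_Icc.1 hq).1, mul_zero]
    rw [h16, add_zero]
    have hlow : (2 * (Q : ℝ) - 1) * ∑ q ∈ range 16, y q * B1 Q q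
        ≤ ∑ q ∈ range 16, vv Q q * y q * (3 * (Q : ℝ) - 1 - 2 * q) := by
      rw [Finset.mul_sum]
      refine Finset.sum_le_sum fun q hq => ?_
      have hq16 := Finset.mem_range.1 hq
      by_cases hc : q = 0 ∨ q = 1 ∨ q = 3
      · have : y q = 0 := chan3_zero Q q P (by omega) hc
        rw [this]; simp
      · have hc' : q = 2 ∨ (4 ≤ q ∧ q ≤ 15) := by omega
        have h1 := hB q hc'
        have h2 := mul_le_mul_of_nonneg_left h1 (hy0 q)
        calc (2 * (Q : ℝ) - 1) * (y q * B1 Q q) = y q * ((2 * (Q : ℝ) - 1) * B1 Q q) := by ring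
          _ ≤ y q * (vv Q q * (3 * (Q : ℝ) - 1 - 2 * q)) := h2
          _ = _ := by ring
    linarith
  have hS4 : (2 * (Q : ℝ) - 1) * (∑ j ∈ range (2 * Q - 2 + 1), z j * C1 Q j)
      ≤ ∑ j ∈ range (2 * Q - 2 + 1), z j * ((2 * Q - 2 + (2 * Q - 2) - 2 * j + 1 : ℕ) : ℝ) := by
    rw [Finset.mul_sum]
    refine Finset.sum_le_sum fun j hj => ?_
    have hj' : j ≤ 2 * Q - 2 := by simpa [Nat.lt_succ_iff] using hj
    by_cases hc : j = 0 ∨ j = 2 ∨ Odd j
    · have : z j = 0 := chan4_zero Q j P (by omega) hj' hc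
      rw [this]; simp
    · by_cases h15 : 15 ≤ j
      · rw [C1_zero Q j h15, mul_zero, mul_zero]
        exact mul_nonneg (hz0 j) (Nat.cast_nonneg _)
      · have hc' : j = 4 ∨ j = 6 ∨ j = 8 ∨ j = 10 ∨ j = 12 ∨ j = 14 := by
          rcases Nat.even_or_odd j with he | ho
          · obtain ⟨t, ht⟩ := he
            have : j ≠ 0 ∧ j ≠ 2 := by
              refine ⟨fun h => hc (Or.inl h), fun h => hc (Or.inr (Or.inl h))⟩
            omega
          · exact absurd (Or.inr (Or.inr ho)) hc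
        rw [hcast4 j hj]
        have h1 := hC j hc'
        have h2 := mul_le_mul_of_nonneg_left h1 (hz0 j)
        calc (2 * (Q : ℝ) - 1) * (z j * C1 Q j) = z j * ((2 * (Q : ℝ) - 1) * C1 Q j) := by ring
          _ ≤ _ := h2
  -- assemble
  have key : μ * ((2 * (Q : ℝ) - 1) * γ) ≥ (2 * (Q : ℝ) - 1) * γ
      + ((2 * (Q : ℝ) - 1) * (∑ q ∈ range (Q + 1), y q * B1 Q q)
        - (1 / 100) * (2 * (Q : ℝ) - 1) * γ)
      + (2 * (Q : ℝ) - 1) * (∑ j ∈ range (2 * Q - 2 + 1), z j * C1 Q j) := by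
    rw [← hT1, ← hPH2, hT2, hT1]
    linarith
  have hpos : 0 < (2 * (Q : ℝ) - 1) := by linarith
  have hdiv : μ * γ ≥ γ + (∑ q ∈ range (Q + 1), y q * B1 Q q) - (1 / 100) * γ
      + ∑ j ∈ range (2 * Q - 2 + 1), z j * C1 Q j := by
    have : (2 * (Q : ℝ) - 1) * (γ + (∑ q ∈ range (Q + 1), y q * B1 Q q) - (1 / 100) * γ
      + ∑ j ∈ range (2 * Q - 2 + 1), z j * C1 Q j) ≤ (2 * (Q : ℝ) - 1) * (μ * γ) := by
      nlinarith [key]
    exact le_of_mul_le_mul_left this hpos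
  have hfin : μ * γ ≥ (1 - 947 / 1000 - 1 / 100 - 8 / 10000) * γ := by
    have h1 : al0 Q * γ ≤ 947 / 1000 * γ := mul_le_mul_of_nonneg_right hal hγ0
    nlinarith [hL, hdiv]
  have hγc : (1 / 25 : ℝ) * γ ≤ μ * γ := by nlinarith
  exact le_of_mul_le_mul_right hγc hγp

end Vale.Agent.P359
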