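import Mathlib

/-!
# P359 / Inv : the reduced forms of an invariant `P` are channel-diagonal

General lemma `cov_comm`: let `P` be symmetric and commute with `J` (hence with `Jᵀ`), let
`T : ι → Op` satisfy `Jᵀ T_x - T_x Jᵀ = -Σ_y E_{yx} T_y` and `J T_x - T_x J = -Σ_y E_{xy} T_y`.
Then `G_{xy} = tr(P T_xᵀ T_y)` is symmetric and commutes with `E`:
`0 = tr(P [Jᵀ, T_xᵀ T_y])` (cyclicity, `P Jᵀ = Jᵀ P`), `[Jᵀ, T_xᵀ] = (T_x J - J T_x)ᵀ =
Σ_z E_{xz} T_zᵀ`, `[Jᵀ, T_y] = -Σ_z E_{zy} T_z`, so `0 = (E G)_{xy} - (G E)_{xy}`.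
-/

namespace Vale.Agent.P359

open Finset Matrix

theorem cov_symm {n ι : Type*} [Fintype n] [DecidableEq n] [Fintype ι]
    (P : Matrix n n ℝ) (T : ι → Matrix n n ℝ) (hP : Pᵀ = P) (x y : ι) :
    trace (P * ((T y)ᵀ * T x)) = trace (P * ((T x)ᵀ * T y)) := by
  rw [← trace_transpose (P * ((T y)ᵀ * T x)), transpose_mul, transpose_mul, transpose_transpose,
    hP, trace_mul_comm]

theorem cov_comm {n ι : Type*} [Fintype n] [DecidableEq n] [Fintype ι] [DecidableEq ι]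
    (P J : Matrix n n ℝ) (T : ι → Matrix n n ℝ) (E : Matrix ι ι ℝ)
    (hP : Pᵀ = P) (hJ : P * J = J * P)
    (h1 : ∀ x, Jᵀ * T x - T x * Jᵀ = - ∑ y, E y x • T y)
    (h2 : ∀ x, J * T x - T x * J = - ∑ y, E x y • T y) (x y : ι) :
    (∑ z, E x z * trace (P * ((T z)ᵀ * T y))) = ∑ z, trace (P * ((T x)ᵀ * T z)) * E z y := by
  have hJt : Jᵀ * P = P * Jᵀ := by
    have h := congrArg transpose hJ
    rw [transpose_mul, transpose_mul, hP] at h
    exact h
  -- the commutator with the transpose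
  have h3 : Jᵀ * (T x)ᵀ - (T x)ᵀ * Jᵀ = ∑ z, E x z • (T z)ᵀ := by
    have h := congrArg transpose (h2 x)
    rw [transpose_sub, transpose_mul, transpose_mul, transpose_neg, transpose_sum] at h
    simp only [transpose_smul] at h
    rw [← neg_sub, h, neg_neg]
  have h4 : trace (P * (Jᵀ * ((T x)ᵀ * T y) - ((T x)ᵀ * T y) * Jᵀ)) = 0 := by
    rw [mul_sub, trace_sub, ← mul_assoc P Jᵀ, ← hJt, mul_assoc Jᵀ P, trace_mul_comm Jᵀ,
      mul_assoc P, sub_self]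
  have h5 : Jᵀ * ((T x)ᵀ * T y) - ((T x)ᵀ * T y) * Jᵀ =
      (∑ z, E x z • (T z)ᵀ) * T y - (T x)ᵀ * ∑ z, E z y • T z := by
    rw [← h3]
    have h := h1 y
    have h6 : ∑ z, E z y • T z = T y * Jᵀ - Jᵀ * T y := by
      rw [← neg_sub, h, neg_neg]
    rw [h6]
    noncomm_ring
  rw [h5, mul_sub, trace_sub, sub_eq_zero] at h4
  simp only [Finset.sum_mul, Finset.mul_sum, trace_sum, smul_mul_assoc, mul_smul_comm,
    trace_smul, smul_eq_mul] at h4
  rw [h4]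
  exact Finset.sum_congr rfl fun z _ => mul_comm _ _

end Vale.Agent.P359
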