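import Mathlib

/-!
# P359: common definitions

* Clebsch–Gordan vectors `cgv A B q k` for `V_A ⊗ V_B` (spins `A/2`, `B/2`), in the orthonormal
  weight bases (index `j = 0..A` is the state with `J_z = A/2 - j`).
* Fock space: real matrices indexed by `Finset (Fin (Q+1))`.
-/

namespace Vale.Agent.P359

open Finset Matrix

noncomputable section

/-! ### spin matrices and Clebsch–Gordan vectors -/

/-- raising matrix of spin `A/2` : `E e_j = √(j (A+1-j)) e_{j-1}` -/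
def Emat (A : ℕ) : Matrix (Fin (A + 1)) (Fin (A + 1)) ℝ :=
  fun i j => if (i : ℕ) + 1 = (j : ℕ) then √((j : ℝ) * ((A : ℝ) + 1 - (j : ℝ))) else 0

/-- total raising matrix on `V_A ⊗ V_B` -/
def E2 (A B : ℕ) : Matrix (Fin (A + 1) × Fin (B + 1)) (Fin (A + 1) × Fin (B + 1)) ℝ :=
  fun x y => Emat A x.1 y.1 * (if x.2 = y.2 then 1 else 0)
    + (if x.1 = y.1 then 1 else 0) * Emat B x.2 y.2

/-- the coefficient `κ^q_{r,m}` -/
def kap (A B q r m : ℕ) : ℝ :=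
  ∑ i ∈ range (q + 1), (-1 : ℝ) ^ i * (q.choose i : ℝ) * (r.choose i : ℝ) * (m.choose (q - i) : ℝ)
    / ((A.choose i : ℝ) * (B.choose (q - i) : ℝ))

/-- squared norm of the highest weight vector -/
def Sq (A B q : ℕ) : ℝ :=
  ∑ i ∈ range (q + 1), (q.choose i : ℝ) ^ 2 / ((A.choose i : ℝ) * (B.choose (q - i) : ℝ))

/-- the normalized Clebsch–Gordan vector `|q,k⟩` of total spin `(A+B)/2 - q`, evaluated at `(r,m)` -/
def cgv (A B q k r m : ℕ) : ℝ :=
  if r + m = q + k then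
    √((A.choose r : ℝ) * (B.choose m : ℝ)) * kap A B q r m
      / √(Sq A B q * (((A + B - 2 * q).choose k : ℕ) : ℝ))
  else 0

/-- `cgv` as a vector -/
def cgvec (A B q k : ℕ) : Fin (A + 1) × Fin (B + 1) → ℝ := fun x => cgv A B q k x.1 x.2

/-! ### Fock space -/

/-- operators on the Fock space of the `Q+1` orbitals -/
abbrev Op (Q : ℕ) := Matrix (Finset (Fin (Q + 1))) (Finset (Fin (Q + 1))) ℝ

/-- Jordan–Wigner sign -/
def sgn {n : ℕ} (m : Fin n) (R : Finset (Fin n)) : ℝ := (-1) ^ (R.filter (fun k => k < m)).card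

/-- annihilation operator `c_m`: `(c_m f)(R) = sgn m R * f (insert m R)` if `m ∉ R`, else `0` -/
def cc (Q : ℕ) (m : Fin (Q + 1)) : Op Q :=
  fun R S => if m ∉ R ∧ S = insert m R then sgn m R else 0

/-- annihilation operator at a natural number index (zero beyond `Q`) -/
def cN (Q m : ℕ) : Op Q := if h : m < Q + 1 then cc Q ⟨m, h⟩ else 0

/-- two-particle amplitude of relative angular momentum one, normalized on `a < b` -/
def ww (Q s a b : ℕ) : ℝ := √2 * cgv Q Q 1 s a b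

/-- pair annihilator `b_s`, `s = 0..2Q-2` -/
def bb (Q s : ℕ) : Op Q :=
  (1 / 2 : ℝ) • ∑ a : Fin (Q + 1), ∑ b : Fin (Q + 1), ww Q s a b • (cc Q b * cc Q a)

/-- the second-quantized Hamiltonian -/
def HH (Q : ℕ) : Op Q := ∑ s ∈ range (2 * Q - 2 + 1), (bb Q s)ᵀ * bb Q s

/-- the second-quantized raising operator -/
def Jp (Q : ℕ) : Op Q := ∑ i : Fin (Q + 1), ∑ j : Fin (Q + 1), Emat Q i j • ((cc Q i)ᵀ * cc Q j)

/-- index type (impurity, electron) -/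
abbrev I3 (Q : ℕ) := Fin (2 * Q - 2 + 1) × Fin (Q + 1)
/-- index type (impurity, impurity) -/
abbrev I4 (Q : ℕ) := Fin (2 * Q - 2 + 1) × Fin (2 * Q - 2 + 1)

/-- `c_m b_r` for `x = (r,m)` -/
def T3 (Q : ℕ) (x : I3 Q) : Op Q := cc Q x.2 * bb Q x.1
/-- `b_s b_r` for `x = (r,s)` -/
def T4 (Q : ℕ) (x : I4 Q) : Op Q := bb Q x.2 * bb Q x.1

/-- the impurity–electron interaction: `V_{(r,m'),(s,m)} = -Σ_k w_r(k,m) w_s(k,m')` -/
def VV (Q : ℕ) : Matrix (I3 Q) (I3 Q) ℝ :=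
  fun x y => - ∑ k : Fin (Q + 1), ww Q x.1 k y.2 * ww Q y.1 k x.2

/-- eigenvalue of `VV` on the channel `q` -/
def vv (Q q : ℕ) : ℝ :=
  (-1 : ℝ) ^ q * ((Q.choose q : ℝ) / ((2 * Q - 2).choose q : ℝ))
    * ((q : ℝ) * (2 * (Q : ℝ) - 1 - q) / Q + q - 1)

/-- reduced forms -/
def G3 (Q : ℕ) (P : Op Q) : Matrix (I3 Q) (I3 Q) ℝ := fun x y => trace (P * ((T3 Q x)ᵀ * T3 Q y))
def G4 (Q : ℕ) (P : Op Q) : Matrix (I4 Q) (I4 Q) ℝ := fun x y => trace (P * ((T4 Q x)ᵀ * T4 Q y))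
def G2 (Q : ℕ) (P : Op Q) : Matrix (Fin (2 * Q - 2 + 1)) (Fin (2 * Q - 2 + 1)) ℝ :=
  fun r s => trace (P * ((bb Q r)ᵀ * bb Q s))

end

end Vale.Agent.P359
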