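import Mathlib

/-!
# P359: energy levels of the spherical Laughlin Hamiltonian (definitions)

`U_Q` is the representation of spin `Q/2`, with the orthonormal basis
`e_k = √C(Q,k) u^{Q-k} v^k`, `k = 0, …, Q` (`e_k` has weight `Q/2 - k`).  Tensors in `U_Q ⊗ U_Q` and
in `U_Q^{⊗N}` are given by their coordinates in the orthonormal product basis.
-/

namespace Vale.Agent.P359.Energy

open Finset

noncomputable section

/-- the matrix elements `⟨e_l, J_- e_k⟩` of the lowering operator `J_- = v ∂_u` of `U_Q`: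
`J_- e_k = √((k+1)(Q-k)) e_{k+1}` -/
def low (Q : ℕ) (l k : Fin (Q + 1)) : ℂ :=
  if (l : ℕ) = (k : ℕ) + 1 then ((√(((k : ℝ) + 1) * ((Q : ℝ) - (k : ℝ))) : ℝ) : ℂ) else 0

/-- the lowering operator `J_- ⊗ 1 + 1 ⊗ J_-` of `U_Q ⊗ U_Q` -/
def lowering (Q : ℕ) (φ : Fin (Q + 1) × Fin (Q + 1) → ℂ) : Fin (Q + 1) × Fin (Q + 1) → ℂ :=
  fun p => (∑ c, low Q p.1 c * φ (c, p.2)) + ∑ d, low Q p.2 d * φ (p.1, d)

/-- the highest weight vector `e_0 ⊗ e_1 - e_1 ⊗ e_0` of weight `Q - 1` in `U_Q ⊗ U_Q` -/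
def highest (Q : ℕ) : Fin (Q + 1) × Fin (Q + 1) → ℂ := fun p =>
  if (p.1 : ℕ) = 0 ∧ (p.2 : ℕ) = 1 then 1 else if (p.1 : ℕ) = 1 ∧ (p.2 : ℕ) = 0 then -1 else 0

/-- the vectors `J_-^k (e_0 ⊗ e_1 - e_1 ⊗ e_0)`, `k = 0, 1, …`, which span the irreducible component
of total spin `Q - 1` of `U_Q ⊗ U_Q` -/
def ladder (Q k : ℕ) : Fin (Q + 1) × Fin (Q + 1) → ℂ := (lowering Q)^[k] (highest Q)

/-- the orthogonal projection onto the span of the vectors `v k`, in coordinates -/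
def projSpan {ι : Type} [Fintype ι] (v : ℕ → ι → ℂ) (φ : ι → ℂ) : ι → ℂ :=
  WithLp.ofLp ((Submodule.span ℂ
    (Set.range fun k => (WithLp.toLp 2 (v k) : EuclideanSpace ℂ ι))).starProjection
      (WithLp.toLp 2 φ))

/-- `P^{(1)}_{ij}` on `U_Q^{⊗N}`: the projection onto the component of total spin `Q - 1`, applied to
the tensor factors `i`, `j` -/
def pairProj {N Q : ℕ} (i j : Fin N) (ψ : (Fin N → Fin (Q + 1)) → ℂ) :
    (Fin N → Fin (Q + 1)) → ℂ := fun x =>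
  projSpan (ladder Q) (fun p => ψ (Function.update (Function.update x i p.1) j p.2)) (x i, x j)

/-- the Hamiltonian `H_{N,Q} = ∑_{i<j} P^{(1)}_{ij}` -/
def ham {N Q : ℕ} (ψ : (Fin N → Fin (Q + 1)) → ℂ) : (Fin N → Fin (Q + 1)) → ℂ :=
  fun x => ∑ i, ∑ j ∈ Ioi i, pairProj i j ψ x

/-- `ψ ∈ ⋀^N U_Q`: the tensor `ψ` changes sign under transpositions of two tensor factors -/
def IsFermi {N Q : ℕ} (ψ : (Fin N → Fin (Q + 1)) → ℂ) : Prop :=
  ∀ i j : Fin N, i ≠ j → ∀ x, ψ (x ∘ Equiv.swap i j) = - ψ x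

/-- `H_{N,Q}` has at least `m` eigenvalues `≤ E` on `⋀^N U_Q`, counted with multiplicity: there are
`m` linearly independent eigenvectors in `⋀^N U_Q` with eigenvalues `≤ E` -/
def HasEigenvaluesBelow (m N Q : ℕ) (E : ℝ) : Prop :=
  ∃ v : Fin m → (Fin N → Fin (Q + 1)) → ℂ, LinearIndependent ℂ v ∧
    ∀ i, IsFermi (v i) ∧ ∃ μ : ℝ, μ ≤ E ∧ ham (v i) = (μ : ℂ) • v i

/-- `E_k(N)`, `k = 0, 1, …`: the eigenvalues of `H_{N,3(N-1)}` on `⋀^N U_{3(N-1)}` in increasing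
order, counted with multiplicity -/
def level (k N : ℕ) : ℝ := sInf {E : ℝ | HasEigenvaluesBelow (k + 1) N (3 * (N - 1)) E}

/-- the spectral gap `Δ_N = E_1(N) - E_0(N)` -/
def gap (N : ℕ) : ℝ := level 1 N - level 0 N

end

end Vale.Agent.P359.Energy
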