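import Vale.Agent.Lib.P359.FockDef
import Vale.Agent.Lib.P359.Car

/-!
# P359 / FockEv : `√(n+1) fockC (ev a ψ) = c_a (fockC ψ)`

For antisymmetric `ψ` and `R = {r_1 < … < r_n}`: if `a ∈ R` then `ψ(a, r) = 0` (two equal
arguments); if `a ∉ R`, `ψ(a, r_1, …, r_n) = (-1)^{#{k ∈ R, k < a}} ψ(sorted (insert a R))`: move `a` to
its place (a cycle of `#{k<a}+1` elements, e.g. `Fin.cycleRange`).
-/

namespace Vale.Agent.P359

open Finset Matrix

theorem fockEv_wedge_apply {Q N : ℕ} {ψ : Stmt.Tens Q N} (hψ : ψ ∈ Stmt.Wedge Q N)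
    (σ : Equiv.Perm (Fin N)) (x : Fin N → Fin (Q + 1)) :
    ψ (x ∘ σ) = (((Equiv.Perm.sign σ : ℤˣ) : ℤ) : ℂ) * ψ x := hψ σ x

theorem ev_mem {Q n : ℕ} (a : Fin (Q + 1)) (ψ : Stmt.Tens Q (n + 1))
    (hψ : ψ ∈ Stmt.Wedge Q (n + 1)) : ev a ψ ∈ Stmt.Wedge Q n := by
  intro σ x
  have h := fockEv_wedge_apply hψ (Equiv.Perm.decomposeFin.symm (0, σ)) (Fin.cons a x)
  have hcomp : (Fin.cons a x : Fin (n + 1) → Fin (Q + 1)) ∘ (Equiv.Perm.decomposeFin.symm (0, σ))
      = Fin.cons a (x ∘ σ) := by
    funext i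
    refine Fin.cases ?_ (fun j => ?_) i
    · simp
    · simp
  rw [hcomp] at h
  have hs : Equiv.Perm.sign (Equiv.Perm.decomposeFin.symm ((0 : Fin (n + 1)), σ))
      = Equiv.Perm.sign σ := by
    simp
  rw [hs] at h
  simpa [ev] using h

/-- the tuple `(a, r_1, …, r_n)` vanishes if `a` is one of the `r_j` -/
theorem fockEv_eq_zero {Q n : ℕ} {ψ : Stmt.Tens Q (n + 1)} (hψ : ψ ∈ Stmt.Wedge Q (n + 1))
    (x : Fin (n + 1) → Fin (Q + 1)) (i j : Fin (n + 1)) (hij : i ≠ j) (hx : x i = x j) :
    ψ x = 0 := by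
  have h := fockEv_wedge_apply hψ (Equiv.swap i j) x
  have hcomp : x ∘ (Equiv.swap i j) = x := by
    funext k
    simp only [Function.comp_apply]
    rcases eq_or_ne k i with rfl | hki
    · rw [Equiv.swap_apply_left, hx]
    · rcases eq_or_ne k j with rfl | hkj
      · rw [Equiv.swap_apply_right, hx]
      · rw [Equiv.swap_apply_of_ne_of_ne hki hkj]
  rw [hcomp, Equiv.Perm.sign_swap hij] at h
  have h2 : (2 : ℂ) * ψ x = 0 := by
    push_cast at h
    linear_combination h
  simpa using h2

/-- position of `s q` in the finset enumerated by `s` -/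
theorem fockEv_card_lt {Q n : ℕ} (S : Finset (Fin (Q + 1))) (h : S.card = n) (q : Fin n) :
    (S.filter (fun k => k < S.orderEmbOfFin h q)).card = (q : ℕ) := by
  have himg : S.filter (fun k => k < S.orderEmbOfFin h q)
      = (Finset.Iio q).image (S.orderEmbOfFin h) := by
    ext x
    simp only [mem_filter, mem_image, mem_Iio]
    constructor
    · rintro ⟨hx, hlt⟩
      have : x ∈ Set.range (S.orderEmbOfFin h) := by
        rw [Finset.range_orderEmbOfFin]; exact hx
      obtain ⟨i, rfl⟩ := this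
      exact ⟨i, (S.orderEmbOfFin h).lt_iff_lt.mp hlt, rfl⟩
    · rintro ⟨i, hi, rfl⟩
      exact ⟨Finset.orderEmbOfFin_mem S h i, (S.orderEmbOfFin h).lt_iff_lt.mpr hi⟩
  rw [himg, Finset.card_image_of_injective _ (S.orderEmbOfFin h).injective]
  simp

theorem fockEv_insert {Q n : ℕ} {ψ : Stmt.Tens Q (n + 1)} (hψ : ψ ∈ Stmt.Wedge Q (n + 1))
    (a : Fin (Q + 1)) (R : Finset (Fin (Q + 1))) (haR : a ∉ R) (hR : R.card = n)
    (hS : (insert a R).card = n + 1) :
    ψ (Fin.cons a (fun i => R.orderEmbOfFin hR i))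
      = ((sgn a R : ℝ) : ℂ) * ψ (fun i => (insert a R).orderEmbOfFin hS i) := by
  set S := insert a R with hSdef
  have haS : a ∈ Set.range (S.orderEmbOfFin hS) := by
    rw [Finset.range_orderEmbOfFin]
    simp [hSdef]
  obtain ⟨q, hq⟩ := haS
  have hr : (fun j => S.orderEmbOfFin hS (q.succAbove j)) = R.orderEmbOfFin hR := by
    apply Finset.orderEmbOfFin_unique hR
    · intro j
      have hm := Finset.orderEmbOfFin_mem S hS (q.succAbove j)
      have hne : S.orderEmbOfFin hS (q.succAbove j) ≠ a := by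
        rw [← hq]
        intro hc
        exact Fin.succAbove_ne q j ((S.orderEmbOfFin hS).injective hc)
      rcases Finset.mem_insert.mp hm with hm | hm
      · exact absurd hm hne
      · exact hm
    · exact (S.orderEmbOfFin hS).strictMono.comp (Fin.strictMono_succAbove q)
  have hcomp : (Fin.cons a (fun i => R.orderEmbOfFin hR i) : Fin (n + 1) → Fin (Q + 1))
      = (fun i => S.orderEmbOfFin hS i) ∘ (q.cycleRange.symm) := by
    funext i
    refine Fin.cases ?_ (fun j => ?_) i
    · simp [hq]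
    · simp only [Fin.cons_succ, Function.comp_apply, Fin.cycleRange_symm_succ]
      exact (congrFun hr j).symm
  rw [hcomp, fockEv_wedge_apply hψ]
  congr 1
  have hcard : (R.filter (fun k => k < a)).card = (q : ℕ) := by
    rw [← fockEv_card_lt S hS q, hq, hSdef, Finset.filter_insert, if_neg (lt_irrefl a)]
  rw [sgn, hcard, Equiv.Perm.sign_symm, Fin.sign_cycleRange]
  push_cast
  rfl

theorem fock_ev {Q n : ℕ} (a : Fin (Q + 1)) (ψ : Stmt.Tens Q (n + 1))
    (hψ : ψ ∈ Stmt.Wedge Q (n + 1)) (R : Finset (Fin (Q + 1))) :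
    ((√((n : ℝ) + 1) : ℝ) : ℂ) * fockC (ev a ψ) R = actC (cc Q a) (fockC ψ) R := by
  have hact : actC (cc Q a) (fockC ψ) R
      = if a ∈ R then 0 else ((sgn a R : ℝ) : ℂ) * fockC ψ (insert a R) := by
    unfold actC cc
    by_cases haR : a ∈ R
    · simp [haR]
    · simp only [haR, not_false_eq_true, true_and, if_false]
      rw [Finset.sum_eq_single (insert a R)]
      · simp
      · intro T _ hT
        simp [hT]
      · simp
  rw [hact]
  by_cases hR : R.card = n
  · by_cases haR : a ∈ R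
    · rw [if_pos haR]
      have haS : a ∈ Set.range (R.orderEmbOfFin hR) := by
        rw [Finset.range_orderEmbOfFin]; exact haR
      obtain ⟨j, hj⟩ := haS
      have h0 : ψ (Fin.cons a (fun i => R.orderEmbOfFin hR i)) = 0 := by
        apply fockEv_eq_zero hψ _ 0 j.succ (Fin.succ_ne_zero j).symm
        simp [hj]
      unfold fockC
      rw [dif_pos hR]
      simp only [ev]
      rw [h0]
      simp
    · rw [if_neg haR]
      have hS : (insert a R).card = n + 1 := by
        rw [card_insert_of_notMem haR, hR]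
      unfold fockC
      rw [dif_pos hR, dif_pos hS]
      simp only [ev]
      rw [fockEv_insert hψ a R haR hR hS]
      have hsq : √(((n + 1).factorial : ℕ) : ℝ) = √((n : ℝ) + 1) * √((n.factorial : ℕ) : ℝ) := by
        rw [← Real.sqrt_mul (by positivity)]
        congr 1
        rw [Nat.factorial_succ]
        push_cast
        ring
      rw [hsq]
      push_cast
      ring
  · have h1 : fockC (ev a ψ) R = 0 := by
      unfold fockC
      rw [dif_neg hR]
    rw [h1, mul_zero]
    by_cases haR : a ∈ R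
    · rw [if_pos haR]
    · rw [if_neg haR]
      have hS : (insert a R).card ≠ n + 1 := by
        rw [card_insert_of_notMem haR]
        omega
      unfold fockC
      rw [dif_neg hS, mul_zero]

end Vale.Agent.P359
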