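import Vale.Agent.Lib.P359.FockDef

/-!
# P359 / FockIn : the inner product

For antisymmetric `φ`, `ψ` the function `x ↦ conj φ(x) ψ(x)` is symmetric and vanishes unless `x` is
injective; every injective `x` is `(order embedding of its range) ∘ σ` for a unique permutation `σ`,
so `Σ_x = N! Σ_{card S = N}`.
-/

namespace Vale.Agent.P359

open Finset Matrix

/-- antisymmetric tensors vanish at tuples which are not injective -/
theorem fockIn_zero {Q N : ℕ} {φ : Stmt.Tens Q N} (hφ : φ ∈ Stmt.Wedge Q N)
    {x : Fin N → Fin (Q + 1)} (hx : ¬ Function.Injective x) : φ x = 0 := by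
  obtain ⟨i, j, hij, hne⟩ : ∃ i j, x i = x j ∧ i ≠ j := by
    by_contra h
    push Not at h
    exact hx fun i j hij => h i j hij
  have h1 := hφ (Equiv.swap i j) x
  have h2 : x ∘ (Equiv.swap i j) = x := by
    funext k
    rw [Function.comp_apply]
    by_cases hk : k = i
    · rw [hk, Equiv.swap_apply_left, hij]
    · by_cases hk2 : k = j
      · rw [hk2, Equiv.swap_apply_right, hij]
      · rw [Equiv.swap_apply_of_ne_of_ne hk hk2]
  rw [h2, Equiv.Perm.sign_swap hne] at h1
  have h3 : φ x = - φ x := by
    simpa using h1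
  have h4 : (2 : ℂ) * φ x = 0 := by linear_combination h3
  exact (mul_eq_zero.1 h4).resolve_left two_ne_zero

/-- the product of two antisymmetric tensors is symmetric -/
theorem fockIn_symm {Q N : ℕ} {φ ψ : Stmt.Tens Q N} (hφ : φ ∈ Stmt.Wedge Q N)
    (hψ : ψ ∈ Stmt.Wedge Q N) (σ : Equiv.Perm (Fin N)) (x : Fin N → Fin (Q + 1)) :
    (starRingEnd ℂ) (φ (x ∘ σ)) * ψ (x ∘ σ) = (starRingEnd ℂ) (φ x) * ψ x := by
  rw [hφ σ x, hψ σ x, map_mul]
  rcases Int.units_eq_one_or (Equiv.Perm.sign σ) with h | h
  · rw [h]
    simp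
  · rw [h]
    simp

theorem fock_inner {Q N : ℕ} (φ ψ : Stmt.Tens Q N) (hφ : φ ∈ Stmt.Wedge Q N)
    (hψ : ψ ∈ Stmt.Wedge Q N) :
    inner ℂ φ ψ = ∑ S : Finset (Fin (Q + 1)), (starRingEnd ℂ) (fockC φ S) * fockC ψ S := by
  classical
  have h0 : inner ℂ φ ψ = ∑ x : Fin N → Fin (Q + 1), (starRingEnd ℂ) (φ x) * ψ x := by
    rw [PiLp.inner_apply]
    refine Finset.sum_congr rfl fun x _ => ?_
    rw [RCLike.inner_apply]
    exact mul_comm _ _
  rw [h0, ← Finset.sum_fiberwise (s := (univ : Finset (Fin N → Fin (Q + 1))))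
    (g := fun x => (univ : Finset (Fin N)).image x)]
  refine Finset.sum_congr rfl fun S _ => ?_
  by_cases h : S.card = N
  · have hcS : ∀ χ : Stmt.Tens Q N, fockC χ S =
        ((√((N.factorial : ℕ) : ℝ) : ℝ) : ℂ) * χ (fun i => S.orderEmbOfFin h i) := by
      intro χ
      unfold fockC
      rw [dif_pos h]
    rw [hcS, hcS, map_mul, Complex.conj_ofReal]
    have hsum : ∑ x ∈ (univ : Finset (Fin N → Fin (Q + 1))) with (univ : Finset (Fin N)).image x = S,
        (starRingEnd ℂ) (φ x) * ψ x = ∑ σ : Equiv.Perm (Fin N),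
          (starRingEnd ℂ) (φ ((fun i => S.orderEmbOfFin h i) ∘ σ)) *
            ψ ((fun i => S.orderEmbOfFin h i) ∘ σ) := by
      symm
      refine Finset.sum_bij (fun (σ : Equiv.Perm (Fin N)) _ => (fun i => S.orderEmbOfFin h i) ∘ σ)
        (fun σ _ => ?_) (fun σ _ τ _ hst => ?_) (fun x hx => ?_) (fun σ _ => rfl)
      · rw [Finset.mem_filter]
        refine ⟨Finset.mem_univ _, ?_⟩
        have h1 : (univ : Finset (Fin N)).image ((fun i => S.orderEmbOfFin h i) ∘ σ) ⊆ S := by
          intro a ha
          obtain ⟨i, -, rfl⟩ := Finset.mem_image.1 ha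
          exact Finset.orderEmbOfFin_mem S h (σ i)
        refine Finset.eq_of_subset_of_card_le h1 ?_
        rw [Finset.card_image_of_injective _
          ((S.orderEmbOfFin h).injective.comp σ.injective), Finset.card_univ, Fintype.card_fin, h]
      · ext i
        have := congrFun hst i
        have h2 := (S.orderEmbOfFin h).injective this
        rw [h2]
      · have hxS : (univ : Finset (Fin N)).image x = S := (Finset.mem_filter.1 hx).2
        have hinj : Function.Injective x := by
          have h3 : ((univ : Finset (Fin N)).image x).card = (univ : Finset (Fin N)).card := by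
            rw [hxS, h, Finset.card_univ, Fintype.card_fin]
          have h4 := Finset.card_image_iff.1 h3
          intro a b hab
          exact h4 (Finset.mem_coe.2 (Finset.mem_univ a)) (Finset.mem_coe.2 (Finset.mem_univ b)) hab
        have hmem : ∀ i, x i ∈ S := by
          intro i
          rw [← hxS]
          exact Finset.mem_image_of_mem x (Finset.mem_univ i)
        have he : Function.Injective fun i : Fin N => (S.orderIsoOfFin h).symm ⟨x i, hmem i⟩ := by
          intro a b hab
          have h5 := (S.orderIsoOfFin h).symm.injective hab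
          exact hinj (congrArg Subtype.val h5)
        refine ⟨Equiv.ofBijective _ (Finite.injective_iff_bijective.1 he), Finset.mem_univ _, ?_⟩
        funext i
        rw [Function.comp_apply, Equiv.ofBijective_apply, ← Finset.coe_orderIsoOfFin_apply,
          OrderIso.apply_symm_apply]
    rw [hsum]
    simp only [fockIn_symm hφ hψ]
    rw [Finset.sum_const, Finset.card_univ, Fintype.card_perm, Fintype.card_fin, nsmul_eq_mul]
    have hs : ((√((N.factorial : ℕ) : ℝ) : ℝ) : ℂ) * ((√((N.factorial : ℕ) : ℝ) : ℝ) : ℂ) =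
        ((N.factorial : ℕ) : ℂ) := by
      rw [← Complex.ofReal_mul, Real.mul_self_sqrt (Nat.cast_nonneg _)]
      exact Complex.ofReal_natCast _
    rw [← hs]
    ring
  · have h1 : fockC φ S = 0 := by
      unfold fockC
      rw [dif_neg h]
    rw [h1, map_zero, zero_mul]
    refine Finset.sum_eq_zero fun x hx => ?_
    have hxS : (univ : Finset (Fin N)).image x = S := (Finset.mem_filter.1 hx).2
    have hni : ¬ Function.Injective x := by
      intro hinj
      refine h ?_
      rw [← hxS, Finset.card_image_of_injective _ hinj, Finset.card_univ, Fintype.card_fin]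
    rw [fockIn_zero hφ hni, map_zero, zero_mul]

theorem fock_add {Q N : ℕ} (φ ψ : Stmt.Tens Q N) (S : Finset (Fin (Q + 1))) :
    fockC (φ + ψ) S = fockC φ S + fockC ψ S := by
  unfold fockC
  split_ifs with h
  · rw [PiLp.add_apply, mul_add]
  · rw [add_zero]

theorem fock_smul {Q N : ℕ} (c : ℂ) (ψ : Stmt.Tens Q N) (S : Finset (Fin (Q + 1))) :
    fockC (c • ψ) S = c * fockC ψ S := by
  unfold fockC
  split_ifs with h
  · rw [PiLp.smul_apply, smul_eq_mul]
    ring
  · rw [mul_zero]

end Vale.Agent.P359
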