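import Vale.Agent.Lib.P359.PairSym
import Vale.Agent.Lib.P359.FockIn
import Vale.Agent.Lib.P359.FockEv

/-!
# P359 / HamFock : the energy in terms of `b_s`

Let `Φ_s = Σ_{a,b} cgv Q Q 1 s a b • ev b (ev a ψ)` (so `Φ_s y = Σ cgv … ψ(a,b,y)`).  By `fock_ev` twice,
`√(n+1) √(n+2) fockC Φ_s = Σ_{a,b} cgv … c_b c_a (fockC ψ) = √2 b_s (fockC ψ)`
(`ww = √2 cgv`, `bb = ½ Σ ww c_b c_a`), and `Σ_y |Φ_s y|² = Σ_R |fockC Φ_s R|²` (`fock_inner`).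
So `((n+2)(n+1)/2) Σ_y |Φ_s y|² = Σ_R |b_s (fockC ψ) (R)|²`.
-/

namespace Vale.Agent.P359

open Finset Matrix

theorem hamFock_fock_sum {Q N : ℕ} {ι : Type*} (t : Finset ι) (g : ι → Stmt.Tens Q N)
    (S : Finset (Fin (Q + 1))) : fockC (∑ i ∈ t, g i) S = ∑ i ∈ t, fockC (g i) S := by
  classical
  induction t using Finset.induction_on with
  | empty =>
    have h := fock_smul (0 : ℂ) (0 : Stmt.Tens Q N) S
    rw [zero_smul, zero_mul] at h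
    simpa using h
  | insert i t hi ih => rw [Finset.sum_insert hi, Finset.sum_insert hi, fock_add, ih]

theorem hamFock_act_sum {Q : ℕ} {ι : Type*} (t : Finset ι) (M : ι → Op Q)
    (f : Finset (Fin (Q + 1)) → ℂ) (R : Finset (Fin (Q + 1))) :
    actC (∑ i ∈ t, M i) f R = ∑ i ∈ t, actC (M i) f R := by
  unfold actC
  rw [Finset.sum_comm]
  refine Finset.sum_congr rfl fun T _ => ?_
  rw [Matrix.sum_apply, Complex.ofReal_sum, Finset.sum_mul]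

theorem hamFock_act_smul {Q : ℕ} (c : ℝ) (M : Op Q)
    (f : Finset (Fin (Q + 1)) → ℂ) (R : Finset (Fin (Q + 1))) :
    actC (c • M) f R = (c : ℂ) * actC M f R := by
  unfold actC
  rw [Finset.mul_sum]
  refine Finset.sum_congr rfl fun T _ => ?_
  rw [Matrix.smul_apply, smul_eq_mul, Complex.ofReal_mul, mul_assoc]

theorem hamFock_act_mul {Q : ℕ} (M M' : Op Q)
    (f : Finset (Fin (Q + 1)) → ℂ) (R : Finset (Fin (Q + 1))) :
    actC (M * M') f R = actC M (actC M' f) R := by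
  unfold actC
  simp only [Matrix.mul_apply, Complex.ofReal_sum, Complex.ofReal_mul, Finset.sum_mul,
    Finset.mul_sum]
  rw [Finset.sum_comm]
  refine Finset.sum_congr rfl fun T _ => Finset.sum_congr rfl fun T' _ => ?_
  ring

theorem hamFock_act_fun {Q : ℕ} (M : Op Q) (c : ℂ)
    (f : Finset (Fin (Q + 1)) → ℂ) (R : Finset (Fin (Q + 1))) :
    actC M (fun S => c * f S) R = c * actC M f R := by
  unfold actC
  rw [Finset.mul_sum]
  refine Finset.sum_congr rfl fun T _ => ?_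
  ring

/-- the contraction of two tensor factors with the Clebsch-Gordan vector -/
noncomputable def hamFockPhi {Q n : ℕ} (s : ℕ) (ψ : Stmt.Tens Q (n + 2)) : Stmt.Tens Q n :=
  ∑ a : Fin (Q + 1), ∑ b : Fin (Q + 1), ((cgv Q Q 1 s a b : ℝ) : ℂ) • ev b (ev a ψ)

theorem hamFockPhi_apply {Q n : ℕ} (s : ℕ) (ψ : Stmt.Tens Q (n + 2)) (y : Fin n → Fin (Q + 1)) :
    hamFockPhi s ψ y = ∑ a : Fin (Q + 1), ∑ b : Fin (Q + 1), ((cgv Q Q 1 s a b : ℝ) : ℂ)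
        * ψ (Fin.cons a (Fin.cons b y)) := by
  unfold hamFockPhi
  simp only [WithLp.ofLp_sum, WithLp.ofLp_smul, Finset.sum_apply, Pi.smul_apply, smul_eq_mul]
  rfl

theorem hamFockPhi_mem {Q n : ℕ} (s : ℕ) (ψ : Stmt.Tens Q (n + 2))
    (hψ : ψ ∈ Stmt.Wedge Q (n + 2)) : hamFockPhi s ψ ∈ Stmt.Wedge Q n := by
  unfold hamFockPhi
  refine Submodule.sum_mem _ fun a _ => Submodule.sum_mem _ fun b _ => Submodule.smul_mem _ _ ?_
  exact ev_mem b _ (ev_mem a _ hψ)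

theorem hamFock_norm {Q n : ℕ} (φ : Stmt.Tens Q n) (hφ : φ ∈ Stmt.Wedge Q n) :
    ∑ y, ‖φ y‖ ^ 2 = ∑ S : Finset (Fin (Q + 1)), ‖fockC φ S‖ ^ 2 := by
  have h := fock_inner φ φ hφ hφ
  rw [PiLp.inner_apply] at h
  have h1 : ∀ z : ℂ, inner ℂ z z = ((‖z‖ ^ 2 : ℝ) : ℂ) := by
    intro z
    rw [inner_self_eq_norm_sq_to_K]
    push_cast
    rfl
  have h2 : ∀ z : ℂ, (starRingEnd ℂ) z * z = ((‖z‖ ^ 2 : ℝ) : ℂ) := by
    intro z
    rw [Complex.conj_mul']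
    push_cast
    rfl
  simp only [h1, h2] at h
  exact_mod_cast h

theorem hamFock_bb {Q n : ℕ} (s : ℕ) (ψ : Stmt.Tens Q (n + 2)) (hψ : ψ ∈ Stmt.Wedge Q (n + 2))
    (R : Finset (Fin (Q + 1))) :
    actC (bb Q s) (fockC ψ) R
      = (((√2 / 2) * (√((n : ℝ) + 1) * √((n : ℝ) + 2)) : ℝ) : ℂ) * fockC (hamFockPhi s ψ) R := by
  have h1 : ∀ a : Fin (Q + 1), actC (cc Q a) (fockC ψ)
      = fun S => ((√((n : ℝ) + 2) : ℝ) : ℂ) * fockC (ev a ψ) S := by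
    intro a
    funext S
    have h := fock_ev a ψ hψ S
    rw [← h]
    have h3 : (((n + 1 : ℕ) : ℝ) + 1) = (n : ℝ) + 2 := by push_cast; ring
    rw [h3]
  have h2 : ∀ a b : Fin (Q + 1), actC (cc Q b * cc Q a) (fockC ψ) R
      = ((√((n : ℝ) + 2) : ℝ) : ℂ) * (((√((n : ℝ) + 1) : ℝ) : ℂ) * fockC (ev b (ev a ψ)) R) := by
    intro a b
    rw [hamFock_act_mul, h1, hamFock_act_fun, ← fock_ev b (ev a ψ) (ev_mem a ψ hψ) R]
  unfold bb hamFockPhi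
  rw [hamFock_act_smul, hamFock_act_sum, hamFock_fock_sum]
  simp only [hamFock_act_sum, hamFock_fock_sum, hamFock_act_smul, fock_smul, h2, ww,
    Finset.mul_sum]
  refine Finset.sum_congr rfl fun a _ => Finset.sum_congr rfl fun b _ => ?_
  push_cast
  ring

theorem fock_pair {Q n : ℕ} (s : ℕ) (ψ : Stmt.Tens Q (n + 2)) (hψ : ψ ∈ Stmt.Wedge Q (n + 2)) :
    ((((n : ℝ) + 2) * ((n : ℝ) + 1) / 2) * ∑ y : Fin n → Fin (Q + 1),
      ‖∑ a : Fin (Q + 1), ∑ b : Fin (Q + 1), ((cgv Q Q 1 s a b : ℝ) : ℂ)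
        * ψ (Fin.cons a (Fin.cons b y))‖ ^ 2)
      = ∑ R : Finset (Fin (Q + 1)), ‖actC (bb Q s) (fockC ψ) R‖ ^ 2 := by
  simp only [hamFock_bb s ψ hψ, norm_mul, mul_pow, ← hamFockPhi_apply, Complex.norm_real,
    Real.norm_eq_abs, sq_abs]
  rw [hamFock_norm _ (hamFockPhi_mem s ψ hψ), Finset.mul_sum]
  refine Finset.sum_congr rfl fun R _ => ?_
  rw [div_pow, Real.sq_sqrt (by norm_num : (0:ℝ) ≤ 2),
    Real.sq_sqrt (by positivity : (0:ℝ) ≤ (n : ℝ) + 1),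
    Real.sq_sqrt (by positivity : (0:ℝ) ≤ (n : ℝ) + 2)]
  ring

theorem ham_fock {Q N : ℕ} (hQ : 1 ≤ Q) (hN : 2 ≤ N) (ψ : Stmt.Tens Q N)
    (hψ : ψ ∈ Stmt.Wedge Q N) :
    inner ℂ ψ (Stmt.Ham ψ) = ((∑ s ∈ range (2 * Q - 2 + 1), ∑ R : Finset (Fin (Q + 1)),
      ‖actC (bb Q s) (fockC ψ) R‖ ^ 2 : ℝ) : ℂ) := by
  obtain ⟨n, rfl⟩ : ∃ n, N = n + 2 := ⟨N - 2, by omega⟩
  rw [ham_inner hQ ψ hψ]
  congr 1
  rw [Finset.mul_sum]
  exact Finset.sum_congr rfl fun s _ => fock_pair s ψ hψ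

end Vale.Agent.P359
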