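import Vale.Agent.Lib.P359.RealGap
import Vale.Agent.Lib.P359.HamFock

/-!
# P359 / Final : the spectral gap in first quantization

For `ψ ∈ ⋀^N U_Q`, `Q = 3(N-1)`: write `ψ = P_L ψ + φ`.  `φ ∈ ⋀^N U_Q`, `φ ⊥ Ψ_L`,
`‖ψ‖² - ‖P_L ψ‖² = ‖φ‖²`; by `ham_fock` and `laughlin_ker`, `⟨ψ,Hψ⟩ = Σ_s Σ_R |b_s fockC φ|²`.
Split `fockC φ = f + i g` with real `f`, `g`, both supported on the sector `N`, both orthogonal to
the real function `fockC Ψ_L`, which spans the kernel in the sector (`ker_uniq`); so `psd_gap` with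
`δ = 1/25` (`core_gap`) applies to `f` and `g`.
-/

namespace Vale.Agent.P359

open Finset Matrix

/-- the real and the imaginary part of `actC` -/
theorem final_actC {Q : ℕ} (M : Op Q) (F : Finset (Fin (Q + 1)) → ℂ) (R : Finset (Fin (Q + 1))) :
    ‖actC M F R‖ ^ 2 = (M *ᵥ fun S => (F S).re) R * (M *ᵥ fun S => (F S).re) R
      + (M *ᵥ fun S => (F S).im) R * (M *ᵥ fun S => (F S).im) R := by
  have h1 : (actC M F R).re = (M *ᵥ fun S => (F S).re) R := by
    unfold actC mulVec dotProduct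
    rw [Complex.re_sum]
    refine Finset.sum_congr rfl fun T _ => ?_
    rw [Complex.re_ofReal_mul]
  have h2 : (actC M F R).im = (M *ᵥ fun S => (F S).im) R := by
    unfold actC mulVec dotProduct
    rw [Complex.im_sum]
    refine Finset.sum_congr rfl fun T _ => ?_
    rw [Complex.im_ofReal_mul]
  rw [Complex.sq_norm, Complex.normSq_apply, h1, h2]

theorem final (N : ℕ) (hN : 2 ≤ N)
    (hgap : ∀ (μ : ℝ) (f : Finset (Fin (3 * (N - 1) + 1)) → ℝ), f ≠ 0 →
      HH (3 * (N - 1)) *ᵥ f = μ • f → μ ≠ 0 → 1 / 25 ≤ μ)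
    (ψ : Stmt.Tens (3 * (N - 1)) N) (hψ : ψ ∈ Stmt.Wedge (3 * (N - 1)) N) :
    (1 / 25) * (‖ψ‖ ^ 2 - ‖Stmt.PL N ψ‖ ^ 2) ≤ (inner ℂ ψ (Stmt.Ham ψ)).re := by
  classical
  set L := Stmt.laughlin N with hL
  have hPmem : Stmt.PL N ψ ∈ Submodule.span ℂ {L} :=
    Submodule.starProjection_apply_mem _ _
  obtain ⟨c, hc⟩ := Submodule.mem_span_singleton.1 hPmem
  set φ := ψ - Stmt.PL N ψ with hφdef
  have hLmem := laughlin_mem N
  have hφ : φ ∈ Stmt.Wedge (3 * (N - 1)) N := by
    rw [hφdef, ← hc]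
    exact Submodule.sub_mem _ hψ (Submodule.smul_mem _ _ hLmem)
  have hψφ : ψ = φ + c • L := by
    rw [hφdef, hc]
    abel
  have horth : inner ℂ L φ = 0 := by
    have h1 : φ ∈ (Submodule.span ℂ {L})ᗮ := Submodule.sub_starProjection_mem_orthogonal _
    exact (Submodule.mem_orthogonal _ _).1 h1 L (Submodule.mem_span_singleton_self L)
  have hnorm : ‖ψ‖ ^ 2 - ‖Stmt.PL N ψ‖ ^ 2 = ‖φ‖ ^ 2 := by
    have h1 : inner ℂ (c • L) φ = 0 := by
      rw [inner_smul_left, horth, mul_zero]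
    have h2 := norm_add_sq_eq_norm_sq_add_norm_sq_of_inner_eq_zero (c • L) φ h1
    have h3 : ψ = c • L + φ := by rw [hψφ]; abel
    rw [← h3] at h2
    rw [← hc, sq, sq, sq]
    linarith
  -- Fock space
  have hF : ∀ S, fockC ψ S = fockC φ S + c * fockC L S := by
    intro S
    conv_lhs => rw [hψφ]
    rw [fock_add, fock_smul]
  have hact : ∀ s R, actC (bb (3 * (N - 1)) s) (fockC ψ) R =
      actC (bb (3 * (N - 1)) s) (fockC φ) R := by
    intro s R
    have h1 := laughlin_ker N hN s R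
    have h2 : actC (bb (3 * (N - 1)) s) (fockC ψ) R = actC (bb (3 * (N - 1)) s) (fockC φ) R +
        c * actC (bb (3 * (N - 1)) s) (fockC L) R := by
      unfold actC
      rw [Finset.mul_sum, ← Finset.sum_add_distrib]
      refine Finset.sum_congr rfl fun T _ => ?_
      rw [hF T]
      ring
    rw [h2, hL, h1, mul_zero, add_zero]
  set f : Finset (Fin (3 * (N - 1) + 1)) → ℝ := fun S => (fockC φ S).re with hf
  set g : Finset (Fin (3 * (N - 1) + 1)) → ℝ := fun S => (fockC φ S).im with hg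
  have hsupp : ∀ S : Finset (Fin (3 * (N - 1) + 1)), S.card ≠ N → fockC φ S = 0 := by
    intro S hS
    unfold fockC
    rw [dif_neg hS]
  have hreal : ∀ S, fockC L S = (((fockC L S).re : ℝ) : ℂ) := by
    intro S
    exact (Complex.conj_eq_iff_re.1 (laughlin_real N S)).symm
  have horth2 : ∑ S, (((fockC L S).re : ℝ) : ℂ) * fockC φ S = 0 := by
    rw [fock_inner L φ hLmem hφ] at horth
    rw [← horth]
    refine Finset.sum_congr rfl fun S _ => ?_
    rw [hL, laughlin_real N S, ← hL, ← hreal S]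
  have horthf : ∑ S, (fockC (Stmt.laughlin N) S).re * f S = 0 := by
    have := congrArg Complex.re horth2
    rw [Complex.re_sum, Complex.zero_re] at this
    rw [← this]
    refine Finset.sum_congr rfl fun S _ => ?_
    rw [Complex.re_ofReal_mul]
  have horthg : ∑ S, (fockC (Stmt.laughlin N) S).re * g S = 0 := by
    have := congrArg Complex.im horth2
    rw [Complex.im_sum, Complex.zero_im] at this
    rw [← this]
    refine Finset.sum_congr rfl fun S _ => ?_
    rw [Complex.im_ofReal_mul]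
  have hgf := real_gap N hN hgap f (fun S hS => by rw [hf]; simp [hsupp S hS]) horthf
  have hgg := real_gap N hN hgap g (fun S hS => by rw [hg]; simp [hsupp S hS]) horthg
  have hnφ : ‖φ‖ ^ 2 = f ⬝ᵥ f + g ⬝ᵥ g := by
    have h1 := fock_inner φ φ hφ hφ
    have h2 : (‖φ‖ ^ 2 : ℝ) = (inner ℂ φ φ).re := by
      rw [inner_self_eq_norm_sq_to_K]
      norm_cast
    rw [h2, h1, Complex.re_sum]
    unfold dotProduct
    rw [← Finset.sum_add_distrib]
    refine Finset.sum_congr rfl fun S _ => ?_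
    rw [hf, hg]
    simp [Complex.mul_re]
  have henergy : (inner ℂ ψ (Stmt.Ham ψ)).re =
      (∑ s ∈ range (2 * (3 * (N - 1)) - 2 + 1),
          (bb (3 * (N - 1)) s *ᵥ f) ⬝ᵥ (bb (3 * (N - 1)) s *ᵥ f)) +
      ∑ s ∈ range (2 * (3 * (N - 1)) - 2 + 1),
          (bb (3 * (N - 1)) s *ᵥ g) ⬝ᵥ (bb (3 * (N - 1)) s *ᵥ g) := by
    rw [ham_fock (by omega) hN ψ hψ, Complex.ofReal_re, ← Finset.sum_add_distrib]
    refine Finset.sum_congr rfl fun s _ => ?_
    unfold dotProduct
    rw [← Finset.sum_add_distrib]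
    refine Finset.sum_congr rfl fun R _ => ?_
    rw [hact s R, final_actC]
  rw [hnorm, hnφ, henergy, mul_add]
  exact add_le_add hgf hgg

end Vale.Agent.P359
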