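import Vale.Agent.Lib.P359.LevelsB
import Vale.Agent.Lib.P359.Final

/-!
# P359 / LevelsC: the lowest eigenvalues and the gap
-/

namespace Vale.Agent.P359.Levels

open Finset Matrix

theorem pairProj_symm {N Q : ℕ} (i j : Fin N) :
    (pairProj i j : Module.End ℂ (Many N Q)).IsSymmetric :=
  Submodule.starProjection_isSymmetric _

theorem inner_pairProj {N Q : ℕ} (i j : Fin N) (ψ : Many N Q) :
    inner ℂ ψ (pairProj i j ψ) = ((‖pairProj i j ψ‖ ^ 2 : ℝ) : ℂ) := by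
  have h1 : pairProj i j (pairProj i j ψ) = pairProj i j ψ :=
    Submodule.starProjection_eq_self_iff.2 (Submodule.starProjection_apply_mem _ _)
  have h2 := pairProj_symm i j ψ (pairProj i j ψ)
  rw [h1] at h2
  rw [← h2, inner_self_eq_norm_sq_to_K]
  norm_cast

theorem norm_pairProj_le {N Q : ℕ} (i j : Fin N) (ψ : Many N Q) :
    ‖pairProj i j ψ‖ ≤ ‖ψ‖ := Submodule.norm_starProjection_apply_le _ _

theorem ham_apply {N Q : ℕ} (ψ : Many N Q) :
    ham N Q ψ = ∑ i : Fin N, ∑ j ∈ Ioi i, pairProj i j ψ := by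
  unfold ham
  rw [LinearMap.sum_apply]
  exact Finset.sum_congr rfl fun i _ => LinearMap.sum_apply _ _ _

theorem ham_symm (N Q : ℕ) : (ham N Q).IsSymmetric := by
  intro φ ψ
  rw [ham_apply, ham_apply, sum_inner, inner_sum]
  refine Finset.sum_congr rfl fun i _ => ?_
  rw [sum_inner, inner_sum]
  exact Finset.sum_congr rfl fun j _ => pairProj_symm i j φ ψ

theorem inner_ham {N Q : ℕ} (ψ : Many N Q) :
    inner ℂ ψ (ham N Q ψ) =
      ((∑ i : Fin N, ∑ j ∈ Ioi i, ‖(pairProj i j : Module.End ℂ (Many N Q)) ψ‖ ^ 2 : ℝ) : ℂ) := by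
  rw [ham_apply, inner_sum]
  push_cast
  refine Finset.sum_congr rfl fun i _ => ?_
  rw [inner_sum]
  refine Finset.sum_congr rfl fun j _ => ?_
  rw [inner_pairProj]
  push_cast
  rfl

theorem inner_ham_nonneg {N Q : ℕ} (ψ : Many N Q) : 0 ≤ (inner ℂ ψ (ham N Q ψ)).re := by
  rw [inner_ham, Complex.ofReal_re]
  positivity

theorem inner_ham_le {N Q : ℕ} (ψ : Many N Q) :
    (inner ℂ ψ (ham N Q ψ)).re ≤ (N : ℝ) * N * ‖ψ‖ ^ 2 := by
  rw [inner_ham, Complex.ofReal_re]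
  calc ∑ i : Fin N, ∑ j ∈ Ioi i, ‖(pairProj i j : Module.End ℂ (Many N Q)) ψ‖ ^ 2
      ≤ ∑ i : Fin N, ∑ j : Fin N, ‖ψ‖ ^ 2 := by
        refine Finset.sum_le_sum fun i _ => ?_
        refine (Finset.sum_le_sum fun j _ => ?_).trans
          (Finset.sum_le_sum_of_subset_of_nonneg (Finset.subset_univ _) fun j _ _ => by positivity)
        exact pow_le_pow_left₀ (norm_nonneg _) (norm_pairProj_le i j ψ) 2
    _ = (N : ℝ) * N * ‖ψ‖ ^ 2 := by simp; ring

theorem ham_eq_zero {N Q : ℕ} (ψ : Many N Q) (h : inner ℂ ψ (ham N Q ψ) = 0) :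
    ham N Q ψ = 0 := by
  rw [inner_ham] at h
  have h1 : ∑ i : Fin N, ∑ j ∈ Ioi i, ‖(pairProj i j : Module.End ℂ (Many N Q)) ψ‖ ^ 2 = 0 := by
    exact_mod_cast h
  rw [ham_apply]
  refine Finset.sum_eq_zero fun i hi => Finset.sum_eq_zero fun j hj => ?_
  have h2 := (Finset.sum_eq_zero_iff_of_nonneg (fun i _ => by positivity)).1 h1 i hi
  have h3 := (Finset.sum_eq_zero_iff_of_nonneg (fun j _ => by positivity)).1 h2 j hj
  simpa using h3

/-- an eigenvalue of the Hamiltonian is real and between `0` and `N²` -/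
theorem eigen_real {N Q : ℕ} {μ : ℂ} {ψ : Many N Q} (h : ham N Q ψ = μ • ψ) (hψ : ψ ≠ 0) :
    0 ≤ μ.re ∧ μ.re ≤ (N : ℝ) * N ∧ ((μ.re : ℝ) : ℂ) = μ := by
  have hpos : 0 < ‖ψ‖ ^ 2 := by positivity
  have h1 : inner ℂ ψ (ham N Q ψ) = μ * ((‖ψ‖ ^ 2 : ℝ) : ℂ) := by
    rw [h, inner_smul_right, inner_self_eq_norm_sq_to_K]
    norm_cast
  have h2 : (inner ℂ ψ (ham N Q ψ)).re = μ.re * ‖ψ‖ ^ 2 := by
    rw [h1, Complex.re_mul_ofReal]
  have h3 : (inner ℂ ψ (ham N Q ψ)).im = μ.im * ‖ψ‖ ^ 2 := by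
    rw [h1, Complex.im_mul_ofReal]
  have h4 : (inner ℂ ψ (ham N Q ψ)).im = 0 := by rw [inner_ham, Complex.ofReal_im]
  have h5 := inner_ham_nonneg ψ
  have h6 := inner_ham_le ψ
  rw [h2] at h5 h6
  rw [h4] at h3
  refine ⟨nonneg_of_mul_nonneg_left h5 hpos, le_of_mul_le_mul_right h6 hpos, ?_⟩
  have h7 : μ.im = 0 := by
    rcases mul_eq_zero.1 h3.symm with h | h
    · exact h
    · exact absurd h hpos.ne'
  exact Complex.ext rfl (by simp [h7])

/-- the span of the eigenvectors in `⋀^N` with eigenvalue `≤ E` -/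
noncomputable def low_ (N Q : ℕ) (E : ℝ) : Submodule ℂ (Many N Q) :=
  ⨆ μ : {μ : ℝ // μ ≤ E}, (ham N Q).eigenspace ((μ : ℝ) : ℂ) ⊓ fermi N Q

theorem low_form {N Q : ℕ} {E : ℝ} {ψ : Many N Q} (h : ψ ∈ low_ N Q E) :
    ψ ∈ fermi N Q ∧ (inner ℂ ψ (ham N Q ψ)).re ≤ E * ‖ψ‖ ^ 2 := by
  classical
  obtain ⟨f, hf, rfl⟩ := (Submodule.mem_iSup_iff_exists_finsupp _ _).1 h
  have hH : ∀ μ, ham N Q (f μ) = (((μ : ℝ) : ℂ)) • f μ := fun μ =>
    Module.End.mem_eigenspace_iff.1 (hf μ).1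
  have horth : ∀ μ ν, μ ≠ ν → inner ℂ (f μ) (f ν) = 0 := by
    intro μ ν hμν
    have h1 : (((μ : ℝ) : ℂ)) ≠ (((ν : ℝ) : ℂ)) := by
      intro h2
      exact hμν (Subtype.ext (Complex.ofReal_injective h2))
    exact (ham_symm N Q).orthogonalFamily_eigenspaces h1 ⟨f μ, (hf μ).1⟩ ⟨f ν, (hf ν).1⟩
  refine ⟨Submodule.sum_mem _ fun μ _ => (hf μ).2, ?_⟩
  have h1 : inner ℂ (f.sum fun _ x => x) (ham N Q (f.sum fun _ x => x)) =
      ((∑ μ ∈ f.support, (μ : ℝ) * ‖f μ‖ ^ 2 : ℝ) : ℂ) := by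
    unfold Finsupp.sum
    rw [map_sum, sum_inner]
    push_cast
    refine Finset.sum_congr rfl fun μ hμ => ?_
    rw [inner_sum, Finset.sum_eq_single μ]
    · rw [hH, inner_smul_right, inner_self_eq_norm_sq_to_K]
      norm_cast
      exact (Complex.ofReal_mul _ _).symm
    · intro ν _ hν
      rw [hH, inner_smul_right, horth μ ν hν.symm, mul_zero]
    · intro h; exact absurd hμ h
  have h2 : ((‖f.sum fun _ x => x‖ ^ 2 : ℝ) : ℂ) = ((∑ μ ∈ f.support, ‖f μ‖ ^ 2 : ℝ) : ℂ) := by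
    have h3 : inner ℂ (f.sum fun _ x => x) (f.sum fun _ x => x) =
        ((‖f.sum fun _ x => x‖ ^ 2 : ℝ) : ℂ) := by
      rw [inner_self_eq_norm_sq_to_K]
      norm_cast
    rw [← h3]
    unfold Finsupp.sum
    rw [sum_inner]
    push_cast
    refine Finset.sum_congr rfl fun μ hμ => ?_
    rw [inner_sum, Finset.sum_eq_single μ]
    · rw [inner_self_eq_norm_sq_to_K]
      norm_cast
    · intro ν _ hν
      rw [horth μ ν hν.symm]
    · intro h; exact absurd hμ h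
  have h4 : ‖f.sum fun _ x => x‖ ^ 2 = ∑ μ ∈ f.support, ‖f μ‖ ^ 2 := Complex.ofReal_injective h2
  rw [h1, Complex.ofReal_re, h4, Finset.mul_sum]
  exact Finset.sum_le_sum fun μ _ => mul_le_mul_of_nonneg_right μ.2 (by positivity)

theorem ham_fermi {N Q : ℕ} (hQ : 1 ≤ Q) (ψ : Many N Q) (hψ : ψ ∈ fermi N Q) :
    ham N Q ψ ∈ fermi N Q := by
  rw [mem_fermi_iff] at hψ ⊢
  rw [ham_eq hQ]
  exact ham_mem_wedge hQ ψ hψ

theorem fermi_le_low {N Q : ℕ} (hQ : 1 ≤ Q) : fermi N Q ≤ low_ N Q ((N : ℝ) * N) := by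
  have h1 : (⨆ μ : ℂ, (ham N Q).eigenspace μ) = ⊤ :=
    Submodule.orthogonal_eq_bot_iff.1 (ham_symm N Q).orthogonalComplement_iSup_eigenspaces_eq_bot
  have h2 := Submodule.inf_iSup_genEigenspace (p := fermi N Q) (f := ham N Q)
    (fun x hx => ham_fermi hQ x hx) 1
  have h3 : (⨆ μ : ℂ, (ham N Q).genEigenspace μ 1) = ⊤ := h1
  rw [h3, inf_top_eq] at h2
  rw [h2]
  refine iSup_le fun μ => ?_
  intro ψ hψ
  by_cases h0 : ψ = 0
  · rw [h0]; exact Submodule.zero_mem _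
  have hψ2 : ψ ∈ (ham N Q).eigenspace μ := hψ.2
  have hψ3 : ham N Q ψ = μ • ψ := Module.End.mem_eigenspace_iff.1 hψ2
  obtain ⟨-, h5, h6⟩ := eigen_real hψ3 h0
  refine Submodule.mem_iSup_of_mem ⟨μ.re, h5⟩ ?_
  refine ⟨?_, hψ.1⟩
  change ψ ∈ (ham N Q).eigenspace ((μ.re : ℝ) : ℂ)
  rw [h6]
  exact hψ2

/-- Slater determinant -/
noncomputable def slater {N Q : ℕ} (s : Fin N → Fin (Q + 1)) : Many N Q :=
  WithLp.toLp 2 fun x => (Matrix.of fun i j : Fin N => if x i = s j then (1 : ℂ) else 0).det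

theorem slater_mem {N Q : ℕ} (s : Fin N → Fin (Q + 1)) : slater s ∈ fermi N Q := by
  intro a b hab x
  change (Matrix.of fun i j : Fin N => if (x ∘ Equiv.swap a b) i = s j then (1 : ℂ) else 0).det =
    - (Matrix.of fun i j : Fin N => if x i = s j then (1 : ℂ) else 0).det
  have h := Matrix.det_permute (Equiv.swap a b)
    (Matrix.of fun i j : Fin N => if x i = s j then (1 : ℂ) else 0)
  rw [Equiv.Perm.sign_swap hab] at h
  have h2 : (Matrix.of fun i j : Fin N => if (x ∘ Equiv.swap a b) i = s j then (1 : ℂ) else 0) =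
      (Matrix.of fun i j : Fin N => if x i = s j then (1 : ℂ) else 0).submatrix
        (Equiv.swap a b) id := rfl
  rw [h2, h]
  simp

theorem two_le_finrank {N Q : ℕ} (hN : 1 ≤ N) (hQ : N ≤ Q) :
    2 ≤ Module.finrank ℂ (fermi N Q) := by
  classical
  let s : Fin N → Fin (Q + 1) := fun i => ⟨i, by omega⟩
  let t : Fin N → Fin (Q + 1) := fun i => ⟨i + 1, by omega⟩
  have hss : slater s s = 1 := by
    change (Matrix.of fun i j : Fin N => if s i = s j then (1 : ℂ) else 0).det = 1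
    have h : (Matrix.of fun i j : Fin N => if s i = s j then (1 : ℂ) else 0) = 1 := by
      ext i j
      by_cases hij : i = j
      · subst hij; simp
      · have : s i ≠ s j := fun h => hij (Fin.ext (by simpa [s] using h))
        simp [hij, this]
    rw [h, Matrix.det_one]
  have htt : slater t t = 1 := by
    change (Matrix.of fun i j : Fin N => if t i = t j then (1 : ℂ) else 0).det = 1
    have h : (Matrix.of fun i j : Fin N => if t i = t j then (1 : ℂ) else 0) = 1 := by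
      ext i j
      by_cases hij : i = j
      · subst hij; simp
      · have : t i ≠ t j := fun h => hij (Fin.ext (by simpa [t] using h))
        simp [hij, this]
    rw [h, Matrix.det_one]
  have hst : slater s t = 0 := by
    change (Matrix.of fun i j : Fin N => if t i = s j then (1 : ℂ) else 0).det = 0
    refine Matrix.det_eq_zero_of_row_eq_zero (⟨N - 1, by omega⟩ : Fin N) fun j => ?_
    have : t ⟨N - 1, by omega⟩ ≠ s j := by
      intro h
      have h' : N - 1 + 1 = (j : ℕ) := congrArg Fin.val h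
      have := j.2
      omega
    simp [this]
  let v : Fin 2 → fermi N Q := ![⟨slater s, slater_mem s⟩, ⟨slater t, slater_mem t⟩]
  have hv : LinearIndependent ℂ v := by
    rw [LinearIndependent.pair_iff]
    intro a b hab
    have h1 : a • slater s + b • slater t = 0 := congrArg Subtype.val hab
    have h2 : a * slater s t + b * slater t t = 0 := by
      have := congrArg (fun ψ : Many N Q => ψ t) h1
      exact this
    rw [hst, htt] at h2
    have hb : b = 0 := by simpa using h2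
    have h3 : a * slater s s + b * slater t s = 0 := by
      have := congrArg (fun ψ : Many N Q => ψ s) h1
      exact this
    rw [hb, hss] at h3
    exact ⟨by simpa using h3, hb⟩
  simpa using hv.fintype_card_le_finrank

theorem ham_laughlin (N : ℕ) (hN : 2 ≤ N) : ham N (3 * (N - 1)) (Stmt.laughlin N) = 0 := by
  have hQ : 1 ≤ 3 * (N - 1) := by omega
  apply ham_eq_zero
  rw [ham_eq hQ, ham_fock hQ hN _ (laughlin_mem N)]
  simp [laughlin_ker N hN]

theorem low_one {N : ℕ} (hN : 2 ≤ N)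
    (hgap : ∀ (μ : ℝ) (f : Finset (Fin (3 * (N - 1) + 1)) → ℝ), f ≠ 0 →
      HH (3 * (N - 1)) *ᵥ f = μ • f → μ ≠ 0 → 1 / 25 ≤ μ) {E : ℝ}
    (hE : 2 ≤ Module.finrank ℂ (low_ N (3 * (N - 1)) E)) : 1 / 25 ≤ E := by
  have hQ : 1 ≤ 3 * (N - 1) := by omega
  set L := Stmt.laughlin N with hL
  let g : low_ N (3 * (N - 1)) E →ₗ[ℂ] ℂ :=
    (innerSL ℂ L : Many N (3 * (N - 1)) →ₗ[ℂ] ℂ) ∘ₗ (low_ N (3 * (N - 1)) E).subtype
  have hker : LinearMap.ker g ≠ ⊥ := by
    apply LinearMap.ker_ne_bot_of_finrank_lt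
    rw [Module.finrank_self]
    omega
  obtain ⟨ψ, hψ, hψ0⟩ := (Submodule.ne_bot_iff _).1 hker
  have hin : inner ℂ L (ψ : Many N (3 * (N - 1))) = 0 := hψ
  have hne : (ψ : Many N (3 * (N - 1))) ≠ 0 := fun h => hψ0 (Subtype.ext h)
  obtain ⟨h2, h3⟩ := low_form ψ.2
  have hPL : Stmt.PL N (ψ : Many N (3 * (N - 1))) = 0 := by
    unfold Stmt.PL
    rw [Submodule.starProjection_apply_eq_zero_iff,
      Submodule.mem_orthogonal_singleton_iff_inner_right]
    exact hin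
  have h4 := final N hN hgap (ψ : Many N (3 * (N - 1))) ((mem_fermi_iff _).1 h2)
  rw [hPL, norm_zero, ← ham_eq hQ] at h4
  have h5 : 0 < ‖(ψ : Many N (3 * (N - 1)))‖ ^ 2 := by positivity
  have h6 : 1 / 25 * ‖(ψ : Many N (3 * (N - 1)))‖ ^ 2 ≤
      E * ‖(ψ : Many N (3 * (N - 1)))‖ ^ 2 := by
    have := h4.trans h3
    simpa using this
  exact le_of_mul_le_mul_right h6 h5

end Vale.Agent.P359.Levels
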