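import Vale.Agent.Lib.P359.Energy
import Vale.Agent.Lib.P359.LevelsC

/-!
# P359 / EnergyBridge: the coordinate definitions and the linear maps of Levels
-/

namespace Vale.Agent.P359.Energy

open Finset Matrix

theorem lowering_eq (Q : ℕ) (φ : Fin (Q + 1) × Fin (Q + 1) → ℂ) :
    (WithLp.toLp 2 (lowering Q φ) : Levels.Two Q) = Levels.lowering Q (WithLp.toLp 2 φ) := by
  ext x
  change (∑ c, low Q x.1 c * φ (c, x.2)) + ∑ d, low Q x.2 d * φ (x.1, d) =
    ((Matrix.kroneckerMap (· * ·) (Levels.low Q) 1 + Matrix.kroneckerMap (· * ·) 1 (Levels.low Q))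
      *ᵥ φ) x
  have hlow : ∀ l k, Levels.low Q l k = low Q l k := fun _ _ => rfl
  simp only [Matrix.mulVec, dotProduct, Matrix.add_apply, Matrix.kroneckerMap_apply, add_mul,
    Finset.sum_add_distrib, Fintype.sum_prod_type, Matrix.one_apply, hlow]
  congr 1
  · refine Finset.sum_congr rfl fun c _ => ?_
    symm
    rw [Finset.sum_eq_single x.2]
    · simp
    · intro b _ hb
      have hb' := Ne.symm hb
      simp [hb']
    · simp
  · symm
    rw [Finset.sum_eq_single x.1]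
    · refine Finset.sum_congr rfl fun d _ => ?_
      simp
    · intro c _ hc
      have hc' := Ne.symm hc
      refine Finset.sum_eq_zero fun d _ => ?_
      simp [hc']
    · simp

theorem ladder_eq (Q k : ℕ) :
    (WithLp.toLp 2 (ladder Q k) : Levels.Two Q) =
      (Levels.lowering Q ^ k) (Levels.highest Q) := by
  induction k with
  | zero => rfl
  | succ k ih =>
    have h1 : ladder Q (k + 1) = lowering Q (ladder Q k) := Function.iterate_succ_apply' _ _ _
    rw [h1, lowering_eq, ih, pow_succ']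
    rfl

theorem projSpan_eq {Q : ℕ} (hQ : 1 ≤ Q) (φ : Fin (Q + 1) × Fin (Q + 1) → ℂ) :
    projSpan (ladder Q) φ = WithLp.ofLp (Stmt.P1 Q (WithLp.toLp 2 φ)) := by
  have h1 : (Submodule.span ℂ
      (Set.range fun k => (WithLp.toLp 2 (ladder Q k) : Levels.Two Q))) =
      Stmt.spinComponent Q ((Q : ℂ) - 1) := by
    rw [← Levels.component_eq Q hQ]
    unfold Levels.component
    congr 2
    funext k
    exact ladder_eq Q k
  unfold projSpan Stmt.P1
  simp only [h1]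

theorem pairProj_eq {N Q : ℕ} (hQ : 1 ≤ Q) (i j : Fin N) (ψ : (Fin N → Fin (Q + 1)) → ℂ)
    (x : Fin N → Fin (Q + 1)) :
    pairProj i j ψ x = Stmt.Ppair i j (WithLp.toLp 2 ψ) x := by
  unfold pairProj
  rw [projSpan_eq hQ]
  rfl

theorem ham_eq {N Q : ℕ} (hQ : 1 ≤ Q) (ψ : (Fin N → Fin (Q + 1)) → ℂ) :
    (WithLp.toLp 2 (ham ψ) : Levels.Many N Q) = Levels.ham N Q (WithLp.toLp 2 ψ) := by
  ext x
  rw [Levels.ham_apply]
  change ∑ i, ∑ j ∈ Ioi i, pairProj i j ψ x = _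
  rw [WithLp.ofLp_sum, Finset.sum_apply]
  refine Finset.sum_congr rfl fun i _ => ?_
  rw [WithLp.ofLp_sum, Finset.sum_apply]
  refine Finset.sum_congr rfl fun j hj => ?_
  rw [pairProj_eq hQ, ← Levels.pairProj_eq hQ (Finset.mem_Ioi.1 hj).ne]

/-- the linear equivalence between functions and the Euclidean space -/
noncomputable def toE (N Q : ℕ) : ((Fin N → Fin (Q + 1)) → ℂ) ≃ₗ[ℂ] Levels.Many N Q :=
  (WithLp.linearEquiv 2 ℂ ((Fin N → Fin (Q + 1)) → ℂ)).symm

theorem toE_apply {N Q : ℕ} (ψ : (Fin N → Fin (Q + 1)) → ℂ) : toE N Q ψ = WithLp.toLp 2 ψ := rfl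

theorem below_of {m N Q : ℕ} (hQ : 1 ≤ Q) {E : ℝ}
    (w : Fin m → Levels.Many N Q) (hw : LinearIndependent ℂ w)
    (h : ∀ i, w i ∈ Levels.fermi N Q ∧ ∃ μ : ℝ, μ ≤ E ∧
      Levels.ham N Q (w i) = (μ : ℂ) • w i) : HasEigenvaluesBelow m N Q E := by
  refine ⟨fun i => WithLp.ofLp (w i), ?_, fun i => ⟨(h i).1, ?_⟩⟩
  · have h1 := hw.map' (toE N Q).symm.toLinearMap (LinearEquiv.ker (toE N Q).symm)
    exact h1
  · obtain ⟨μ, hμ, he⟩ := (h i).2
    refine ⟨μ, hμ, ?_⟩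
    have h2 := ham_eq hQ (WithLp.ofLp (w i))
    have h3 : (WithLp.toLp 2 (WithLp.ofLp (w i)) : Levels.Many N Q) = w i := rfl
    rw [h3, he] at h2
    exact congrArg WithLp.ofLp h2

theorem of_below {m N Q : ℕ} (hQ : 1 ≤ Q) {E : ℝ} (h : HasEigenvaluesBelow m N Q E) :
    ∃ w : Fin m → Levels.Many N Q, LinearIndependent ℂ w ∧
      ∀ i, w i ∈ Levels.fermi N Q ∧ ∃ μ : ℝ, μ ≤ E ∧
        Levels.ham N Q (w i) = (μ : ℂ) • w i := by
  obtain ⟨v, hv, h⟩ := h
  refine ⟨fun i => WithLp.toLp 2 (v i), ?_, fun i => ⟨(h i).1, ?_⟩⟩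
  · have h1 := hv.map' (toE N Q).toLinearMap (LinearEquiv.ker (toE N Q))
    exact h1
  · obtain ⟨μ, hμ, he⟩ := (h i).2
    refine ⟨μ, hμ, ?_⟩
    rw [← ham_eq hQ, he]
    rfl

theorem low_of_below {m N Q : ℕ} (hQ : 1 ≤ Q) {E : ℝ} (h : HasEigenvaluesBelow m N Q E) :
    m ≤ Module.finrank ℂ (Levels.low_ N Q E) := by
  obtain ⟨w, hw, h⟩ := of_below hQ h
  have hmem : ∀ i, w i ∈ Levels.low_ N Q E := by
    intro i
    obtain ⟨h1, μ, hμ, he⟩ := h i
    exact Submodule.mem_iSup_of_mem ⟨μ, hμ⟩ ⟨Module.End.mem_eigenspace_iff.2 he, h1⟩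
  have h2 : LinearIndependent ℂ (fun i => (⟨w i, hmem i⟩ : Levels.low_ N Q E)) := by
    refine LinearIndependent.of_comp (Levels.low_ N Q E).subtype ?_
    exact hw
  simpa using h2.fintype_card_le_finrank

theorem below_of_low {m N Q : ℕ} (hQ : 1 ≤ Q) {E : ℝ}
    (h : m ≤ Module.finrank ℂ (Levels.low_ N Q E)) : HasEigenvaluesBelow m N Q E := by
  set S : Set (Levels.Many N Q) := ⋃ μ : {μ : ℝ // μ ≤ E},
    (((Levels.ham N Q).eigenspace ((μ : ℝ) : ℂ) ⊓ Levels.fermi N Q :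
      Submodule ℂ (Levels.Many N Q)) : Set (Levels.Many N Q)) with hS
  have hspan : Submodule.span ℂ S = Levels.low_ N Q E := by
    rw [hS, Submodule.span_iUnion]
    unfold Levels.low_
    refine iSup_congr fun μ => ?_
    exact Submodule.span_eq _
  obtain ⟨f, hf, -, hli⟩ := Submodule.exists_fun_fin_finrank_span_eq ℂ S
  have hm : m ≤ Module.finrank ℂ (Submodule.span ℂ S) := by rw [hspan]; exact h
  refine below_of hQ (fun i : Fin m => f (Fin.castLE hm i))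
    (hli.comp _ (Fin.castLE_injective hm)) fun i => ?_
  obtain ⟨μ, hμ⟩ := Set.mem_iUnion.1 (hf (Fin.castLE hm i))
  exact ⟨hμ.2, μ, μ.2, Module.End.mem_eigenspace_iff.1 hμ.1⟩

theorem gap_ge (N : ℕ) (hN : 2 ≤ N)
    (hgap : ∀ (μ : ℝ) (f : Finset (Fin (3 * (N - 1) + 1)) → ℝ), f ≠ 0 →
      HH (3 * (N - 1)) *ᵥ f = μ • f → μ ≠ 0 → 1 / 25 ≤ μ) : 1 / 25 ≤ gap N := by
  have hQ : 1 ≤ 3 * (N - 1) := by omega
  have h0 : level 0 N ≤ 0 := by
    refine csInf_le ⟨0, ?_⟩ ?_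
    · intro E hE
      obtain ⟨w, hw, h⟩ := of_below hQ hE
      obtain ⟨-, μ, hμ, he⟩ := h 0
      have hr := Levels.eigen_real he (hw.ne_zero 0)
      exact hr.1.trans hμ
    · change HasEigenvaluesBelow 1 N (3 * (N - 1)) 0
      refine below_of hQ (fun _ => Stmt.laughlin N) ?_ fun _ => ⟨?_, 0, le_rfl, ?_⟩
      · exact LinearIndependent.of_subsingleton (0 : Fin 1) (laughlin_ne N)
      · exact (Levels.mem_fermi_iff _).2 (laughlin_mem N)
      · rw [Levels.ham_laughlin N hN]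
        simp
  have h1 : 1 / 25 ≤ level 1 N := by
    refine le_csInf ⟨(N : ℝ) * N, ?_⟩ ?_
    · refine below_of_low hQ ?_
      exact (Levels.two_le_finrank (by omega) (by omega)).trans
        (Submodule.finrank_mono (Levels.fermi_le_low hQ))
    · intro E hE
      exact Levels.low_one hN hgap (low_of_below hQ hE)
  unfold gap
  linarith

end Vale.Agent.P359.Energy
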