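import Vale.Agent.Lib.P359.Stmt
import Vale.Agent.Lib.P359.Defs

/-!
# P359 / FockDef : from antisymmetric tensors to functions of subsets

`fockC ψ S = √(N!) ψ(s_1 < … < s_N)` for `S = {s_1 < … < s_N}`, `0` if `card S ≠ N`.
-/

namespace Vale.Agent.P359

open Finset Matrix

noncomputable section

/-- occupation number amplitudes of a tensor -/
def fockC {Q N : ℕ} (ψ : Stmt.Tens Q N) (S : Finset (Fin (Q + 1))) : ℂ :=
  if h : S.card = N then ((√((N.factorial : ℕ) : ℝ) : ℝ) : ℂ) * ψ (fun i => S.orderEmbOfFin h i)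
    else 0

/-- evaluation of the first tensor factor at `a` -/
def ev {Q n : ℕ} (a : Fin (Q + 1)) (ψ : Stmt.Tens Q (n + 1)) : Stmt.Tens Q n :=
  WithLp.toLp 2 fun y => ψ (Fin.cons a y)

/-- a real operator acting on a complex function -/
def actC {Q : ℕ} (M : Op Q) (f : Finset (Fin (Q + 1)) → ℂ) (R : Finset (Fin (Q + 1))) : ℂ :=
  ∑ T, ((M R T : ℝ) : ℂ) * f T

end

end Vale.Agent.P359
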