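import Mathlib

/-!
# P359: definitions for the final statement

`U_Q` (spin `Q/2`, homogeneous polynomials of degree `Q` in `(u,v)`) has the orthonormal weight
basis `e_m = √C(Q,m) u^{Q-m} v^m`, `m = 0, …, Q`.  Vectors of `U_Q ⊗ U_Q` and of `U_Q^{⊗N}` are given
by their coordinates in the orthonormal product bases.
-/

namespace Vale.Agent.P359.Sphere

open Finset Matrix

noncomputable section

/-- inner product of two coordinate vectors -/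
def ip {ι : Type} [Fintype ι] (φ ψ : ι → ℂ) : ℂ := ∑ x, (starRingEnd ℂ) (φ x) * ψ x

/-- squared norm of a coordinate vector -/
def normSq {ι : Type} [Fintype ι] (ψ : ι → ℂ) : ℝ := ∑ x, ‖ψ x‖ ^ 2

/-- orthogonal projection onto a subspace, in coordinates -/
def orthProj {ι : Type} [Fintype ι] (V : Submodule ℂ (EuclideanSpace ℂ ι)) (φ : ι → ℂ) : ι → ℂ :=
  WithLp.ofLp (V.starProjection (WithLp.toLp 2 φ))

/-- eigenspace of a matrix -/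
def eigSpace {ι : Type} [Fintype ι] [DecidableEq ι] (M : Matrix ι ι ℂ) (c : ℂ) :
    Submodule ℂ (EuclideanSpace ℂ ι) :=
  Module.End.eigenspace (Matrix.toEuclideanLin M) c

/-- the spin raising operator `J_+ = u ∂_v` on `U_Q`: `J_+ e_j = √(j (Q+1-j)) e_{j-1}` -/
def spinPlus (Q : ℕ) : Matrix (Fin (Q + 1)) (Fin (Q + 1)) ℂ :=
  fun i j => if (i : ℕ) + 1 = (j : ℕ) then ((√((j : ℝ) * ((Q : ℝ) + 1 - (j : ℝ))) : ℝ) : ℂ) else 0

/-- the operator `J_z` on `U_Q`: `J_z e_j = (Q/2 - j) e_j` -/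
def spinZ (Q : ℕ) : Matrix (Fin (Q + 1)) (Fin (Q + 1)) ℂ :=
  Matrix.diagonal fun j => (Q : ℂ) / 2 - (j : ℕ)

/-- `X ⊗ 1 + 1 ⊗ X` -/
def total {ι : Type} [DecidableEq ι] (X : Matrix ι ι ℂ) : Matrix (ι × ι) (ι × ι) ℂ :=
  Matrix.kroneckerMap (· * ·) X 1 + Matrix.kroneckerMap (· * ·) 1 X

/-- `J² = J_- J_+ + J_z² + J_z`, `J_- = J_+^*` -/
def casimirOf {ι : Type} [Fintype ι] (Jp Jz : Matrix ι ι ℂ) : Matrix ι ι ℂ :=
  Jpᴴ * Jp + Jz * Jz + Jz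

/-- the Casimir operator of `U_Q ⊗ U_Q` -/
def casimir (Q : ℕ) : Matrix (Fin (Q + 1) × Fin (Q + 1)) (Fin (Q + 1) × Fin (Q + 1)) ℂ :=
  casimirOf (total (spinPlus Q)) (total (spinZ Q))

/-- `P^{(1)}`: the orthogonal projection of `U_Q ⊗ U_Q` onto the component of total spin
`J = Q - 1`, i.e. onto the eigenspace of `J²` with eigenvalue `J (J + 1) = (Q - 1) Q` -/
def P1 (Q : ℕ) (φ : Fin (Q + 1) × Fin (Q + 1) → ℂ) : Fin (Q + 1) × Fin (Q + 1) → ℂ :=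
  orthProj (eigSpace (casimir Q) (((Q : ℂ) - 1) * Q)) φ

/-- `P^{(1)}_{ij}` acting on the tensor factors `i`, `j` of `U_Q^{⊗N}` -/
def Ppair {Q N : ℕ} (i j : Fin N) (ψ : (Fin N → Fin (Q + 1)) → ℂ) :
    (Fin N → Fin (Q + 1)) → ℂ :=
  fun x => P1 Q (fun ab => ψ (Function.update (Function.update x i ab.1) j ab.2)) (x i, x j)

/-- the Hamiltonian `H_{N,Q} = Σ_{i<j} P^{(1)}_{ij}` -/
def Ham {Q N : ℕ} (ψ : (Fin N → Fin (Q + 1)) → ℂ) : (Fin N → Fin (Q + 1)) → ℂ :=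
  fun x => ∑ i, ∑ j, if i < j then Ppair i j ψ x else 0

/-- membership in `⋀^N U_Q` (antisymmetric tensors) -/
def IsWedge {Q N : ℕ} (ψ : (Fin N → Fin (Q + 1)) → ℂ) : Prop :=
  ∀ (σ : Equiv.Perm (Fin N)) (x : Fin N → Fin (Q + 1)),
    ψ (x ∘ σ) = (((Equiv.Perm.sign σ : ℤˣ) : ℤ) : ℂ) * ψ x

/-- `(u_i v_j - u_j v_i)^3`, with `u_i = X (i, 0)`, `v_i = X (i, 1)` -/
def pairFactor {N : ℕ} (i j : Fin N) : MvPolynomial (Fin N × Fin 2) ℂ :=
  (MvPolynomial.X (i, 0) * MvPolynomial.X (j, 1)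
    - MvPolynomial.X (j, 0) * MvPolynomial.X (i, 1)) ^ 3

/-- the Laughlin polynomial `∏_{i<j} (u_i v_j - u_j v_i)^3` -/
def laughlinPoly (N : ℕ) : MvPolynomial (Fin N × Fin 2) ℂ :=
  ∏ i : Fin N, ∏ j : Fin N, if i < j then pairFactor i j else 1

/-- the exponent of `∏_i u_i^{Q-x_i} v_i^{x_i}` -/
def expo {Q N : ℕ} (x : Fin N → Fin (Q + 1)) : Fin N × Fin 2 →₀ ℕ :=
  Finsupp.equivFunOnFinite.symm fun p => if p.2 = 0 then Q - (x p.1 : ℕ) else (x p.1 : ℕ)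

/-- the Laughlin vector in coordinates, `Q = 3(N-1)`: since `u^{Q-m} v^m = e_m / √C(Q,m)`, its
coordinate at `x` is the coefficient of `∏_i u_i^{Q-x_i} v_i^{x_i}` divided by `∏_i √C(Q,x_i)` -/
def laughlin (N : ℕ) : (Fin N → Fin (3 * (N - 1) + 1)) → ℂ :=
  fun x => (laughlinPoly N).coeff (expo x)
    / ((∏ i, √(((3 * (N - 1)).choose (x i) : ℕ) : ℝ) : ℝ) : ℂ)

/-- `P_L`: the orthogonal projection onto the span of the Laughlin vector -/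
def PL (N : ℕ) (ψ : (Fin N → Fin (3 * (N - 1) + 1)) → ℂ) : (Fin N → Fin (3 * (N - 1) + 1)) → ℂ :=
  orthProj (Submodule.span ℂ {WithLp.toLp 2 (laughlin N)}) ψ

end

end Vale.Agent.P359.Sphere
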