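import Mathlib

/-!
# P359: the statement (first quantization)

`U_Q` has the orthonormal weight basis `e_m = √C(Q,m) u^{Q-m} v^m`, `m = 0, …, Q`
(`J_z e_m = (Q/2 - m) e_m`).  A vector of `U_Q^{⊗N}` is given by its coordinates
`ψ(x_1, …, x_N)`, `x_i ∈ {0, …, Q}`, in the orthonormal product basis.
-/

namespace Vale.Agent.P359.Stmt

open Finset Matrix

noncomputable section

/-- `U_Q^{⊗N}` in coordinates with respect to the orthonormal product basis. -/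
abbrev Tens (Q N : ℕ) : Type := EuclideanSpace ℂ (Fin N → Fin (Q + 1))

/-- `U_Q ⊗ U_Q` in coordinates. -/
abbrev Pair (Q : ℕ) : Type := EuclideanSpace ℂ (Fin (Q + 1) × Fin (Q + 1))

/-- the spin raising operator `J_+` on `U_Q`: `J_+ e_j = √(j (Q+1-j)) e_{j-1}` -/
def spinPlus (Q : ℕ) : Matrix (Fin (Q + 1)) (Fin (Q + 1)) ℂ :=
  fun i j => if (i : ℕ) + 1 = (j : ℕ) then ((√((j : ℝ) * ((Q : ℝ) + 1 - (j : ℝ))) : ℝ) : ℂ) else 0

/-- the operator `J_z` on `U_Q`: `J_z e_j = (Q/2 - j) e_j` -/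
def spinZ (Q : ℕ) : Matrix (Fin (Q + 1)) (Fin (Q + 1)) ℂ :=
  Matrix.diagonal fun j => (Q : ℂ) / 2 - (j : ℕ)

/-- `X ⊗ 1 + 1 ⊗ X` -/
def total {Q : ℕ} (X : Matrix (Fin (Q + 1)) (Fin (Q + 1)) ℂ) :
    Matrix (Fin (Q + 1) × Fin (Q + 1)) (Fin (Q + 1) × Fin (Q + 1)) ℂ :=
  Matrix.kroneckerMap (· * ·) X 1 + Matrix.kroneckerMap (· * ·) 1 X

/-- the Casimir operator `J² = J_- J_+ + J_z² + J_z` of `U_Q ⊗ U_Q` -/
def casimir (Q : ℕ) : Matrix (Fin (Q + 1) × Fin (Q + 1)) (Fin (Q + 1) × Fin (Q + 1)) ℂ :=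
  (total (spinPlus Q))ᴴ * total (spinPlus Q) + total (spinZ Q) * total (spinZ Q) + total (spinZ Q)

/-- the component of total spin `J` of `U_Q ⊗ U_Q`: the eigenspace `J² = J (J+1)` -/
def spinComponent (Q : ℕ) (J : ℂ) : Submodule ℂ (Pair Q) :=
  Module.End.eigenspace (Matrix.toEuclideanLin (casimir Q)) (J * (J + 1))

/-- `P^{(1)}`: the orthogonal projection of `U_Q ⊗ U_Q` onto the component of total spin `Q-1` -/
def P1 (Q : ℕ) : Pair Q →L[ℂ] Pair Q := (spinComponent Q ((Q : ℂ) - 1)).starProjection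

/-- the vector of `U_Q ⊗ U_Q` obtained from `ψ` by fixing all coordinates except `i`, `j` -/
def restrict {Q N : ℕ} (i j : Fin N) (ψ : Tens Q N) (x : Fin N → Fin (Q + 1)) : Pair Q :=
  WithLp.toLp 2 fun ab => ψ (Function.update (Function.update x i ab.1) j ab.2)

/-- `P^{(1)}_{ij}` acting on the tensor factors `i`, `j` of `U_Q^{⊗N}` -/
def Ppair {Q N : ℕ} (i j : Fin N) (ψ : Tens Q N) : Tens Q N :=
  WithLp.toLp 2 fun x => P1 Q (restrict i j ψ x) (x i, x j)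

/-- the Hamiltonian `H_{N,Q} = Σ_{i<j} P^{(1)}_{ij}` -/
def Ham {Q N : ℕ} (ψ : Tens Q N) : Tens Q N :=
  ∑ p ∈ (univ : Finset (Fin N × Fin N)).filter (fun p => p.1 < p.2), Ppair p.1 p.2 ψ

/-- `⋀^N U_Q` as the space of antisymmetric tensors -/
def Wedge (Q N : ℕ) : Submodule ℂ (Tens Q N) where
  carrier := {ψ | ∀ (σ : Equiv.Perm (Fin N)) (x : Fin N → Fin (Q + 1)),
    ψ (x ∘ σ) = (((Equiv.Perm.sign σ : ℤˣ) : ℤ) : ℂ) * ψ x}
  add_mem' := by
    intro a b ha hb σ x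
    simp only [Set.mem_ofPred_eq] at ha hb
    simp [ha, hb, mul_add]
  zero_mem' := by intro σ x; simp
  smul_mem' := by
    intro c a ha σ x
    simp only [Set.mem_ofPred_eq] at ha
    simp [ha]; ring

/-- the Laughlin polynomial `∏_{i<j} (u_i v_j - u_j v_i)^3` (`u_i = X (i, 0)`, `v_i = X (i, 1)`) -/
def laughlinPoly (N : ℕ) : MvPolynomial (Fin N × Fin 2) ℂ :=
  ∏ p ∈ (univ : Finset (Fin N × Fin N)).filter (fun p => p.1 < p.2),
    (MvPolynomial.X (p.1, 0) * MvPolynomial.X (p.2, 1)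
      - MvPolynomial.X (p.2, 0) * MvPolynomial.X (p.1, 1)) ^ 3

/-- the exponent of `∏_i u_i^{Q-x_i} v_i^{x_i}` -/
def expo {Q N : ℕ} (x : Fin N → Fin (Q + 1)) : Fin N × Fin 2 →₀ ℕ :=
  Finsupp.equivFunOnFinite.symm fun p => if p.2 = 0 then Q - (x p.1 : ℕ) else (x p.1 : ℕ)

/-- the Laughlin vector in coordinates: since `u^{Q-m} v^m = e_m / √C(Q,m)`, the coordinate at
`x` is the coefficient of `∏_i u_i^{Q-x_i} v_i^{x_i}` divided by `∏_i √C(Q,x_i)`; `Q = 3(N-1)` -/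
def laughlin (N : ℕ) : Tens (3 * (N - 1)) N :=
  WithLp.toLp 2 fun x => (laughlinPoly N).coeff (expo x)
    / ((∏ i, √(((3 * (N - 1)).choose (x i) : ℕ) : ℝ) : ℝ) : ℂ)

/-- `P_L`: the orthogonal projection onto the span of the Laughlin vector -/
def PL (N : ℕ) : Tens (3 * (N - 1)) N →L[ℂ] Tens (3 * (N - 1)) N :=
  (Submodule.span ℂ {laughlin N}).starProjection

end

end Vale.Agent.P359.Stmt
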