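import Vale.Agent.Lib.P359.Front
import Vale.Agent.Lib.P359.Stmt

/-!
# P359: the compact definitions of the final statement agree with those of `Stmt`
-/

namespace Vale.Agent.P359.Bridge

open Finset Matrix Vale.Agent.P359

noncomputable section

lemma normSq_eq {ι : Type} [Fintype ι] (ψ : ι → ℂ) :
    Sphere.normSq ψ = ‖(WithLp.toLp 2 ψ : EuclideanSpace ℂ ι)‖ ^ 2 := by
  rw [EuclideanSpace.norm_sq_eq]; rfl

lemma ip_eq {ι : Type} [Fintype ι] (φ ψ : ι → ℂ) :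
    Sphere.ip φ ψ = inner ℂ (WithLp.toLp 2 φ : EuclideanSpace ℂ ι) (WithLp.toLp 2 ψ) := by
  rw [PiLp.inner_apply]
  unfold Sphere.ip
  refine Finset.sum_congr rfl fun x _ => ?_
  simp [RCLike.inner_apply, mul_comm]

lemma casimir_eq (Q : ℕ) : Sphere.casimir Q = Stmt.casimir Q := rfl

lemma eigSpace_eq (Q : ℕ) :
    Sphere.eigSpace (Sphere.casimir Q) (((Q : ℂ) - 1) * Q) = Stmt.spinComponent Q ((Q : ℂ) - 1) := by
  unfold Sphere.eigSpace Stmt.spinComponent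
  rw [casimir_eq, sub_add_cancel]

lemma P1_eq (Q : ℕ) (φ : Fin (Q + 1) × Fin (Q + 1) → ℂ) :
    Sphere.P1 Q φ = WithLp.ofLp (Stmt.P1 Q (WithLp.toLp 2 φ)) := by
  unfold Sphere.P1 Sphere.orthProj Stmt.P1
  rw [eigSpace_eq]

lemma Ppair_eq {Q N : ℕ} (i j : Fin N) (ψ : (Fin N → Fin (Q + 1)) → ℂ)
    (x : Fin N → Fin (Q + 1)) :
    Sphere.Ppair i j ψ x = Stmt.Ppair i j (WithLp.toLp 2 ψ) x := by
  unfold Sphere.Ppair Stmt.Ppair
  rw [P1_eq]
  rfl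

lemma Ham_eq {Q N : ℕ} (ψ : (Fin N → Fin (Q + 1)) → ℂ) :
    WithLp.toLp 2 (Sphere.Ham ψ) = Stmt.Ham (WithLp.toLp 2 ψ) := by
  ext x
  unfold Sphere.Ham Stmt.Ham
  rw [Finset.sum_filter]
  simp only [← Finset.univ_product_univ, Finset.sum_product]
  simp only [WithLp.ofLp_sum, Finset.sum_apply]
  refine Finset.sum_congr rfl fun i _ => Finset.sum_congr rfl fun j _ => ?_
  split_ifs with h
  · exact Ppair_eq i j ψ x
  · rfl

lemma wedge_iff {Q N : ℕ} (ψ : (Fin N → Fin (Q + 1)) → ℂ) :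
    Sphere.IsWedge ψ ↔ (WithLp.toLp 2 ψ : Stmt.Tens Q N) ∈ Stmt.Wedge Q N := Iff.rfl

lemma laughlinPoly_eq (N : ℕ) : Sphere.laughlinPoly N = Stmt.laughlinPoly N := by
  unfold Sphere.laughlinPoly Stmt.laughlinPoly
  rw [Finset.prod_filter, ← Finset.univ_product_univ, Finset.prod_product]
  rfl

lemma laughlin_eq (N : ℕ) : WithLp.toLp 2 (Sphere.laughlin N) = Stmt.laughlin N := by
  unfold Sphere.laughlin Stmt.laughlin
  rw [laughlinPoly_eq]
  rfl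

lemma PL_eq (N : ℕ) (ψ : (Fin N → Fin (3 * (N - 1) + 1)) → ℂ) :
    WithLp.toLp 2 (Sphere.PL N ψ) = Stmt.PL N (WithLp.toLp 2 ψ) := by
  unfold Sphere.PL Sphere.orthProj Stmt.PL
  rw [laughlin_eq]

end

end Vale.Agent.P359.Bridge
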