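import Vale.Agent.Lib.P359.KapTop

/-!
# P359 / Ww : the pair amplitudes

`ww Q s a b = √2 cgv Q Q 1 s a b = (b-a) √(C(Q,a)C(Q,b) / (Q C(2Q-2,s)))` for `a+b=s+1`, else `0`
(`kap Q Q 1 a b = (b-a)/Q`, `Sq Q Q 1 = 2/Q`).

The four covariance identities are `cg_raise`, `cg_raise_zero`, `cg_lower`, `cg_lower_top` for
`A = B = Q`, `q = 1`, written out in coordinates; outside the range of indices both sides vanish
because `Q.choose a = 0` for `a > Q` and `(2Q-2).choose s = 0` for `s > 2Q-2` (the square root in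
the denominator is then `0` and Lean's `x / 0 = 0`).
-/

namespace Vale.Agent.P359

open Finset Matrix

private lemma ww_kap_one (Q a b : ℕ) : kap Q Q 1 a b = ((b : ℝ) - a) / Q := by
  unfold kap
  rw [Finset.sum_range_succ, Finset.sum_range_succ, Finset.sum_range_zero]
  simp
  ring

private lemma ww_Sq_one (Q : ℕ) : Sq Q Q 1 = 2 / Q := by
  unfold Sq
  rw [Finset.sum_range_succ, Finset.sum_range_succ, Finset.sum_range_zero]
  simp
  ring

theorem ww_eq (Q s a b : ℕ) (hQ : 1 ≤ Q) :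
    ww Q s a b = if a + b = s + 1 then
      ((b : ℝ) - a) * √((Q.choose a : ℝ) * (Q.choose b : ℝ)
        / ((Q : ℝ) * ((2 * Q - 2).choose s : ℝ))) else 0 := by
  unfold ww cgv
  have hQ0 : (0 : ℝ) < Q := by exact_mod_cast hQ
  by_cases h : a + b = s + 1
  · have h' : a + b = 1 + s := by omega
    rw [if_pos h, if_pos h', ww_kap_one, ww_Sq_one, show Q + Q - 2 * 1 = 2 * Q - 2 by omega]
    obtain ⟨X, hX⟩ : ∃ X : ℝ, X = (Q.choose a : ℝ) * (Q.choose b : ℝ) := ⟨_, rfl⟩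
    obtain ⟨C, hC⟩ : ∃ C : ℝ, C = (((2 * Q - 2).choose s : ℕ) : ℝ) := ⟨_, rfl⟩
    have hX0 : 0 ≤ X := by rw [hX]; positivity
    have hC0 : 0 ≤ C := by rw [hC]; positivity
    rw [← hX, ← hC, Real.sqrt_div hX0, Real.sqrt_mul hQ0.le,
      Real.sqrt_mul (by positivity : (0 : ℝ) ≤ 2 / Q), Real.sqrt_div (by norm_num : (0 : ℝ) ≤ 2)]
    have hs2 : 0 < √(2 : ℝ) := Real.sqrt_pos.mpr (by norm_num)
    have hsQ : 0 < √(Q : ℝ) := Real.sqrt_pos.mpr hQ0
    have hQe : (Q : ℝ) = √(Q : ℝ) * √(Q : ℝ) := (Real.mul_self_sqrt hQ0.le).symm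
    rcases hC0.lt_or_eq with hC1 | hC1
    · have hsC : 0 < √C := Real.sqrt_pos.mpr hC1
      obtain ⟨R, hR⟩ : ∃ R : ℝ, R = √(Q : ℝ) := ⟨_, rfl⟩
      rw [← hR] at hsQ hQe ⊢
      rw [hQe]
      field_simp
    · rw [← hC1, Real.sqrt_zero]
      simp
  · have h' : ¬ a + b = 1 + s := by omega
    rw [if_neg h, if_neg h', mul_zero]

theorem ww_antisymm (Q s a b : ℕ) (hQ : 1 ≤ Q) : ww Q s b a = - ww Q s a b := by
  rw [ww_eq Q s a b hQ, ww_eq Q s b a hQ]
  by_cases h : a + b = s + 1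
  · have h' : b + a = s + 1 := by omega
    rw [if_pos h, if_pos h', mul_comm (Q.choose b : ℝ) (Q.choose a : ℝ)]
    ring
  · have h' : ¬ b + a = s + 1 := by omega
    rw [if_neg h, if_neg h', neg_zero]

end Vale.Agent.P359
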