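import Vale.Agent.Lib.P359.CG
import Vale.Agent.Lib.P359.Ww

/-!
# P359 / Ww : the pair amplitudes

`ww Q s a b = √2 cgv Q Q 1 s a b = (b-a) √(C(Q,a)C(Q,b) / (Q C(2Q-2,s)))` for `a+b=s+1`, else `0`
(`kap Q Q 1 a b = (b-a)/Q`, `Sq Q Q 1 = 2/Q`).

The four covariance identities are `cg_raise`, `cg_raise_zero`, `cg_lower`, `cg_lower_top` for
`A = B = Q`, `q = 1`, written out in coordinates; outside the range of indices both sides vanish
because `Q.choose a = 0` for `a > Q` and `(2Q-2).choose s = 0` for `s > 2Q-2` (the square root in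
the denominator is then `0` and Lean's `x / 0 = 0`).
-/

namespace Vale.Agent.P359

open Finset Matrix

/-- `½ Σ_{a,b} w_r(a,b) w_s(a,b) = δ_{rs}` -/
theorem ww_orthonormal (Q : ℕ) (hQ : 1 ≤ Q) (r s : Fin (2 * Q - 2 + 1)) :
    (1 / 2 : ℝ) * ∑ a : Fin (Q + 1), ∑ b : Fin (Q + 1), ww Q r a b * ww Q s a b
      = if r = s then 1 else 0 := by
  have hr : (r : ℕ) ≤ Q + Q - 2 * 1 := by have := r.isLt; omega
  have hs : (s : ℕ) ≤ Q + Q - 2 * 1 := by have := s.isLt; omega
  have h := cg_orthonormal Q Q 1 r 1 s hQ hQ hQ hQ hr hs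
  have h2 : (1 / 2 : ℝ) * ∑ a : Fin (Q + 1), ∑ b : Fin (Q + 1), ww Q r a b * ww Q s a b
      = cgvec Q Q 1 r ⬝ᵥ cgvec Q Q 1 s := by
    unfold dotProduct cgvec
    rw [Fintype.sum_prod_type, Finset.mul_sum]
    refine Finset.sum_congr rfl fun a _ => ?_
    rw [Finset.mul_sum]
    refine Finset.sum_congr rfl fun b _ => ?_
    unfold ww
    have h2 : √(2 : ℝ) * √2 = 2 := Real.mul_self_sqrt (by norm_num)
    linear_combination (1 / 2 : ℝ) * (cgv Q Q 1 r a b * cgv Q Q 1 s a b) * h2
  rw [h2, h]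
  simp [Fin.ext_iff]

/-- the coordinates of the total raising operator -/
theorem ww_E2_coord (Q s : ℕ) (a b : Fin (Q + 1)) :
    (∑ a' : Fin (Q + 1), Emat Q a a' * ww Q s a' b) + (∑ b' : Fin (Q + 1), Emat Q b b' * ww Q s a b')
      = √2 * (E2 Q Q *ᵥ cgvec Q Q 1 s) (a, b) := by
  unfold Matrix.mulVec dotProduct cgvec E2 ww
  rw [Fintype.sum_prod_type]
  simp only [add_mul, Finset.sum_add_distrib]
  rw [mul_add, Finset.mul_sum, Finset.mul_sum]
  congr 1
  · refine Finset.sum_congr rfl fun a' _ => ?_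
    rw [Finset.sum_eq_single b]
    · simp only [if_true]
      ring
    · intro b' _ hb'
      rw [if_neg (fun h => hb' h.symm)]
      ring
    · intro h
      exact absurd (Finset.mem_univ b) h
  · symm
    rw [Finset.sum_eq_single a]
    · rw [Finset.mul_sum]
      refine Finset.sum_congr rfl fun b' _ => ?_
      simp only [if_true]
      ring
    · intro a' _ ha'
      rw [Finset.mul_sum]
      refine Finset.sum_eq_zero fun b' _ => ?_
      rw [if_neg (fun h => ha' h.symm)]
      ring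
    · intro h
      exact absurd (Finset.mem_univ a) h

/-- the coordinates of the total lowering operator -/
theorem ww_E2T_coord (Q s : ℕ) (a b : Fin (Q + 1)) :
    (∑ a' : Fin (Q + 1), Emat Q a' a * ww Q s a' b) + (∑ b' : Fin (Q + 1), Emat Q b' b * ww Q s a b')
      = √2 * ((E2 Q Q)ᵀ *ᵥ cgvec Q Q 1 s) (a, b) := by
  unfold Matrix.mulVec dotProduct cgvec ww
  simp only [Matrix.transpose_apply]
  unfold E2
  rw [Fintype.sum_prod_type]
  simp only [add_mul, Finset.sum_add_distrib]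
  rw [mul_add, Finset.mul_sum, Finset.mul_sum]
  congr 1
  · refine Finset.sum_congr rfl fun a' _ => ?_
    rw [Finset.sum_eq_single b]
    · simp only [if_true]
      ring
    · intro b' _ hb'
      rw [if_neg hb']
      ring
    · intro h
      exact absurd (Finset.mem_univ b) h
  · symm
    rw [Finset.sum_eq_single a]
    · rw [Finset.mul_sum]
      refine Finset.sum_congr rfl fun b' _ => ?_
      simp only [if_true]
      ring
    · intro a' _ ha'
      rw [Finset.mul_sum]
      refine Finset.sum_eq_zero fun b' _ => ?_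
      rw [if_neg ha']
      ring
    · intro h
      exact absurd (Finset.mem_univ a) h

/-- covariance under raising: `(E⊗1+1⊗E) w_s = Σ_t (E_{2Q-2})_{t s} w_t` -/
theorem ww_raise (Q : ℕ) (hQ : 1 ≤ Q) (s : Fin (2 * Q - 2 + 1)) (a b : Fin (Q + 1)) :
    (∑ a' : Fin (Q + 1), Emat Q a a' * ww Q s a' b) + (∑ b' : Fin (Q + 1), Emat Q b b' * ww Q s a b')
      = ∑ t : Fin (2 * Q - 2 + 1), Emat (2 * Q - 2) t s * ww Q t a b := by
  rw [ww_E2_coord]
  obtain ⟨s, hs⟩ := s
  rcases s with _ | k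
  · simp only
    rw [cg_raise_zero Q Q 1 hQ hQ]
    simp only [Pi.zero_apply, mul_zero]
    symm
    refine Finset.sum_eq_zero fun t _ => ?_
    unfold Emat
    rw [if_neg (by simp)]
    ring
  · simp only
    rw [cg_raise Q Q 1 k hQ hQ (by omega)]
    rw [Finset.sum_eq_single (⟨k, by omega⟩ : Fin (2 * Q - 2 + 1))]
    · unfold Emat ww
      rw [if_pos (by simp)]
      simp only [Pi.smul_apply, smul_eq_mul]
      unfold cgvec
      simp only
      have e1 : (((Q + Q - 2 * 1 - k : ℕ)) : ℝ) = ((2 * Q - 2 : ℕ) : ℝ) + 1 - ((k + 1 : ℕ) : ℝ) := by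
        have : ((Q + Q - 2 * 1 - k : ℕ)) + (k + 1) = (2 * Q - 2) + 1 := by omega
        have h : (((Q + Q - 2 * 1 - k : ℕ)) : ℝ) + ((k + 1 : ℕ) : ℝ) = ((2 * Q - 2 : ℕ) : ℝ) + 1 := by
          exact_mod_cast this
        linarith
      rw [e1]
      push_cast
      ring
    · intro t _ ht
      unfold Emat
      rw [if_neg (fun h => ht (by apply Fin.ext; simp only at h ⊢; omega))]
      ring
    · intro h
      exact absurd (Finset.mem_univ _) h

/-- covariance under lowering -/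
theorem ww_lower (Q : ℕ) (hQ : 1 ≤ Q) (s : Fin (2 * Q - 2 + 1)) (a b : Fin (Q + 1)) :
    (∑ a' : Fin (Q + 1), Emat Q a' a * ww Q s a' b) + (∑ b' : Fin (Q + 1), Emat Q b' b * ww Q s a b')
      = ∑ t : Fin (2 * Q - 2 + 1), Emat (2 * Q - 2) s t * ww Q t a b := by
  rw [ww_E2T_coord]
  obtain ⟨s, hs⟩ := s
  by_cases hk : s + 1 ≤ Q + Q - 2 * 1
  · simp only
    rw [cg_lower Q Q 1 s hQ hQ hk]
    rw [Finset.sum_eq_single (⟨s + 1, by omega⟩ : Fin (2 * Q - 2 + 1))]
    · unfold Emat ww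
      rw [if_pos (by simp)]
      simp only [Pi.smul_apply, smul_eq_mul]
      unfold cgvec
      simp only
      have e1 : (((Q + Q - 2 * 1 - s : ℕ)) : ℝ) = ((2 * Q - 2 : ℕ) : ℝ) + 1 - ((s + 1 : ℕ) : ℝ) := by
        have : ((Q + Q - 2 * 1 - s : ℕ)) + (s + 1) = (2 * Q - 2) + 1 := by omega
        have h : (((Q + Q - 2 * 1 - s : ℕ)) : ℝ) + ((s + 1 : ℕ) : ℝ) = ((2 * Q - 2 : ℕ) : ℝ) + 1 := by
          exact_mod_cast this
        linarith
      rw [e1]
      push_cast
      ring
    · intro t _ ht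
      unfold Emat
      rw [if_neg (fun h => ht (by apply Fin.ext; simp only at h ⊢; omega))]
      ring
    · intro h
      exact absurd (Finset.mem_univ _) h
  · have hs' : s = Q + Q - 2 * 1 := by omega
    have h0 : (E2 Q Q)ᵀ *ᵥ cgvec Q Q 1 s = 0 := by
      rw [hs']
      exact cg_lower_top Q Q 1 hQ hQ
    simp only
    rw [h0]
    simp only [Pi.zero_apply, mul_zero]
    symm
    refine Finset.sum_eq_zero fun t _ => ?_
    unfold Emat
    rw [if_neg (by have := t.isLt; simp only; omega)]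
    ring

end Vale.Agent.P359
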