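import Vale.Agent.Lib.P359.Car
import Vale.Agent.Lib.P359.WwCov

/-!
# P359 / HSq : the identity `H² = H + Σ V (c b)†(c b) + Σ (b b)†(b b)`

Write `w_s(a,b) = ww Q s a b` (antisymmetric), `c†_x = (cc Q x)ᵀ`.

1. `b_r c†_x = c†_x b_r + d_{r,x}` with `d_{r,x} = Σ_b w_r(x,b) c_b`
   (`c_b c_a c†_x = δ_{ax} c_b - δ_{bx} c_a + c†_x c_b c_a`).
2. `d_{r,x} c†_y = w_r(x,y) - c†_y d_{r,x}`.
3. `b_s† = ½ Σ_{x,y} w_s(x,y) c†_x c†_y`; moving `b_r` through:
   `b_r b_s† = b_s† b_r + ½ Σ_{xy} w_s(x,y) [c†_x d_{r,y} - c†_y d_{r,x} + w_r(x,y)]`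
   `= b_s† b_r + δ_{rs} + Σ_{x,b} V_{(r,x),(s,b)} c†_x c_b`, where
   `V_{(r,x),(s,b)} = -Σ_k w_r(k,b) w_s(k,x)` (antisymmetry of `w`), and `½ Σ w_s w_r = δ_{rs}`
   (`ww_orthonormal`).
4. `b_r b_s = b_s b_r` (CAR).
5. `H² = Σ_{r,s} b_r† (b_r b_s†) b_s`, and `b_r† c†_x c_b b_s = (c_x b_r)† (c_b b_s)`,
   `b_r† b_s† b_r b_s = (b_s b_r)† (b_s b_r)`.
-/

namespace Vale.Agent.P359

open Finset Matrix

theorem HSq1_cc4 (Q : ℕ) (a b d e : Fin (Q + 1)) :
    Commute (cc Q b * cc Q a) (cc Q d * cc Q e) := by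
  have h : ∀ x y : Fin (Q + 1), cc Q x * cc Q y = - (cc Q y * cc Q x) := car_anti Q
  unfold Commute SemiconjBy
  calc cc Q b * cc Q a * (cc Q d * cc Q e) = cc Q b * (cc Q a * cc Q d) * cc Q e := by
        noncomm_ring
    _ = cc Q b * (-(cc Q d * cc Q a)) * cc Q e := by rw [h a d]
    _ = -((cc Q b * cc Q d) * (cc Q a * cc Q e)) := by noncomm_ring
    _ = -((-(cc Q d * cc Q b)) * (-(cc Q e * cc Q a))) := by rw [h b d, h a e]
    _ = -(cc Q d * (cc Q b * cc Q e) * cc Q a) := by noncomm_ring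
    _ = -(cc Q d * (-(cc Q e * cc Q b)) * cc Q a) := by rw [h b e]
    _ = cc Q d * cc Q e * (cc Q b * cc Q a) := by noncomm_ring

theorem bb_comm (Q r s : ℕ) : bb Q r * bb Q s = bb Q s * bb Q r := by
  have h : Commute (bb Q r) (bb Q s) := by
    unfold bb
    refine Commute.smul_left ?_ _
    refine Commute.smul_right ?_ _
    refine Commute.sum_left _ _ _ (fun a _ => ?_)
    refine Commute.sum_left _ _ _ (fun b _ => ?_)
    refine Commute.sum_right _ _ _ (fun d _ => ?_)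
    refine Commute.sum_right _ _ _ (fun e _ => ?_)
    refine Commute.smul_left ?_ _
    refine Commute.smul_right ?_ _
    exact HSq1_cc4 Q a b e d
  exact h.eq

theorem HSq1_ccT (Q : ℕ) (a x : Fin (Q + 1)) :
    cc Q a * (cc Q x)ᵀ = (if a = x then 1 else 0) - (cc Q x)ᵀ * cc Q a :=
  eq_sub_of_add_eq (car_mixed Q a x)

/-- the one-particle operator produced by moving `b_r` through a creation operator -/
noncomputable def HSq1_d (Q r : ℕ) (x : Fin (Q + 1)) : Op Q :=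
  ∑ b : Fin (Q + 1), ww Q r x b • cc Q b

theorem HSq1_bb_ccT (Q : ℕ) (hQ : 1 ≤ Q) (r : ℕ) (x : Fin (Q + 1)) :
    bb Q r * (cc Q x)ᵀ = (cc Q x)ᵀ * bb Q r + HSq1_d Q r x := by
  have hterm : ∀ a b : Fin (Q + 1), (ww Q r a b • (cc Q b * cc Q a)) * (cc Q x)ᵀ =
      (cc Q x)ᵀ * (ww Q r a b • (cc Q b * cc Q a)) +
        ((if a = x then ww Q r a b • cc Q b else 0) -
          (if b = x then ww Q r a b • cc Q a else 0)) := by
    intro a b
    have h1 : cc Q b * cc Q a * (cc Q x)ᵀ = (cc Q x)ᵀ * (cc Q b * cc Q a) +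
        ((if a = x then (1 : Op Q) else 0) * cc Q b -
          (if b = x then (1 : Op Q) else 0) * cc Q a) := by
      calc cc Q b * cc Q a * (cc Q x)ᵀ = cc Q b * (cc Q a * (cc Q x)ᵀ) := by noncomm_ring
        _ = cc Q b * ((if a = x then 1 else 0) - (cc Q x)ᵀ * cc Q a) := by rw [HSq1_ccT]
        _ = cc Q b * (if a = x then 1 else 0) - (cc Q b * (cc Q x)ᵀ) * cc Q a := by
            noncomm_ring
        _ = cc Q b * (if a = x then 1 else 0) -
              ((if b = x then 1 else 0) - (cc Q x)ᵀ * cc Q b) * cc Q a := by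
            rw [HSq1_ccT Q b x]
        _ = _ := by
            have h2 : cc Q b * (if a = x then (1 : Op Q) else 0) =
                (if a = x then (1 : Op Q) else 0) * cc Q b := by
              split_ifs <;> simp
            rw [h2]
            noncomm_ring
    rw [smul_mul_assoc, h1, mul_smul_comm, smul_add, smul_sub]
    congr 1
    split_ifs <;> simp
  have hd1 : ∑ a : Fin (Q + 1), ∑ b : Fin (Q + 1),
      (if a = x then ww Q r a b • cc Q b else 0) = HSq1_d Q r x := by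
    rw [Finset.sum_comm]
    unfold HSq1_d
    refine Finset.sum_congr rfl fun b _ => ?_
    rw [Finset.sum_ite_eq' Finset.univ x]
    simp
  have hd2 : ∑ a : Fin (Q + 1), ∑ b : Fin (Q + 1),
      (if b = x then ww Q r a b • cc Q a else 0) = - HSq1_d Q r x := by
    unfold HSq1_d
    rw [← Finset.sum_neg_distrib]
    refine Finset.sum_congr rfl fun a _ => ?_
    rw [Finset.sum_ite_eq' Finset.univ x]
    simp only [Finset.mem_univ, if_true]
    rw [ww_antisymm Q r x a hQ, neg_smul]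
  unfold bb
  rw [smul_mul_assoc, Finset.sum_mul]
  simp_rw [Finset.sum_mul, hterm, Finset.sum_add_distrib, Finset.sum_sub_distrib]
  rw [hd1, hd2, mul_smul_comm, Finset.mul_sum]
  simp_rw [Finset.mul_sum]
  rw [smul_add]
  congr 1
  module

theorem HSq1_d_ccT (Q r : ℕ) (x y : Fin (Q + 1)) :
    HSq1_d Q r x * (cc Q y)ᵀ = ww Q r x y • (1 : Op Q) - (cc Q y)ᵀ * HSq1_d Q r x := by
  unfold HSq1_d
  rw [Finset.sum_mul, Finset.mul_sum]
  have h : ∀ b : Fin (Q + 1), (ww Q r x b • cc Q b) * (cc Q y)ᵀ =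
      (if b = y then ww Q r x b • (1 : Op Q) else 0) - (cc Q y)ᵀ * (ww Q r x b • cc Q b) := by
    intro b
    rw [smul_mul_assoc, HSq1_ccT, smul_sub, mul_smul_comm]
    congr 1
    split_ifs <;> simp
  simp_rw [h, Finset.sum_sub_distrib]
  rw [Finset.sum_ite_eq' Finset.univ y]
  simp

theorem bb_bbT (Q : ℕ) (hQ : 1 ≤ Q) (r s : Fin (2 * Q - 2 + 1)) :
    bb Q r * (bb Q s)ᵀ = (bb Q s)ᵀ * bb Q r + (if r = s then 1 else 0)
      + ∑ x : Fin (Q + 1), ∑ b : Fin (Q + 1), VV Q (r, x) (s, b) • ((cc Q x)ᵀ * cc Q b) := by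
  have hT : (bb Q s)ᵀ = (1 / 2 : ℝ) • ∑ x : Fin (Q + 1), ∑ y : Fin (Q + 1),
      ww Q s x y • ((cc Q x)ᵀ * (cc Q y)ᵀ) := by
    unfold bb
    rw [Matrix.transpose_smul, Matrix.transpose_sum]
    simp_rw [Matrix.transpose_sum, Matrix.transpose_smul, Matrix.transpose_mul]
  have hterm : ∀ x y : Fin (Q + 1),
      bb Q r * (ww Q s x y • ((cc Q x)ᵀ * (cc Q y)ᵀ)) =
        (ww Q s x y • ((cc Q x)ᵀ * (cc Q y)ᵀ)) * bb Q r +
          (ww Q s x y • ((cc Q x)ᵀ * HSq1_d Q r y) - ww Q s x y • ((cc Q y)ᵀ * HSq1_d Q r x) +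
            (ww Q r x y * ww Q s x y) • (1 : Op Q)) := by
    intro x y
    have h1 : bb Q r * ((cc Q x)ᵀ * (cc Q y)ᵀ) = (cc Q x)ᵀ * (cc Q y)ᵀ * bb Q r +
        ((cc Q x)ᵀ * HSq1_d Q r y - (cc Q y)ᵀ * HSq1_d Q r x + ww Q r x y • (1 : Op Q)) := by
      calc bb Q r * ((cc Q x)ᵀ * (cc Q y)ᵀ) = (bb Q r * (cc Q x)ᵀ) * (cc Q y)ᵀ := by
            rw [Matrix.mul_assoc]
        _ = (cc Q x)ᵀ * (bb Q r * (cc Q y)ᵀ) + HSq1_d Q r x * (cc Q y)ᵀ := by
            rw [HSq1_bb_ccT Q hQ r x]; noncomm_ring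
        _ = (cc Q x)ᵀ * ((cc Q y)ᵀ * bb Q r + HSq1_d Q r y) +
              (ww Q r x y • (1 : Op Q) - (cc Q y)ᵀ * HSq1_d Q r x) := by
            rw [HSq1_bb_ccT Q hQ r y, HSq1_d_ccT]
        _ = _ := by noncomm_ring
    rw [mul_smul_comm, h1, smul_mul_assoc, smul_add, smul_add, smul_sub, smul_smul,
      mul_comm (ww Q s x y) (ww Q r x y)]
  have hA : ∑ x : Fin (Q + 1), ∑ y : Fin (Q + 1), ww Q s x y • ((cc Q x)ᵀ * HSq1_d Q r y) =
      ∑ x : Fin (Q + 1), ∑ b : Fin (Q + 1), VV Q (r, x) (s, b) • ((cc Q x)ᵀ * cc Q b) := by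
    refine Finset.sum_congr rfl fun x _ => ?_
    unfold HSq1_d
    simp_rw [Finset.mul_sum, Finset.smul_sum, mul_smul_comm, smul_smul]
    rw [Finset.sum_comm]
    refine Finset.sum_congr rfl fun b _ => ?_
    rw [← Finset.sum_smul]
    congr 1
    unfold VV
    rw [← Finset.sum_neg_distrib]
    refine Finset.sum_congr rfl fun k _ => ?_
    simp only
    rw [ww_antisymm Q s k x hQ]
    ring
  have hB : ∑ x : Fin (Q + 1), ∑ y : Fin (Q + 1), ww Q s x y • ((cc Q y)ᵀ * HSq1_d Q r x) =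
      - ∑ x : Fin (Q + 1), ∑ b : Fin (Q + 1), VV Q (r, x) (s, b) • ((cc Q x)ᵀ * cc Q b) := by
    rw [Finset.sum_comm, ← Finset.sum_neg_distrib]
    refine Finset.sum_congr rfl fun y _ => ?_
    unfold HSq1_d
    simp_rw [Finset.mul_sum, Finset.smul_sum, mul_smul_comm, smul_smul]
    rw [Finset.sum_comm, ← Finset.sum_neg_distrib]
    refine Finset.sum_congr rfl fun b _ => ?_
    rw [← Finset.sum_smul, ← neg_smul]
    congr 1
    unfold VV
    rw [neg_neg]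
    refine Finset.sum_congr rfl fun k _ => ?_
    simp only
    ring
  have hC : ∑ x : Fin (Q + 1), ∑ y : Fin (Q + 1), (ww Q r x y * ww Q s x y) • (1 : Op Q) =
      (2 : ℝ) • (if r = s then (1 : Op Q) else 0) := by
    have h1 := ww_orthonormal Q hQ r s
    have h2 : ∑ a : Fin (Q + 1), ∑ b : Fin (Q + 1), ww Q r a b * ww Q s a b =
        2 * (if r = s then (1 : ℝ) else 0) := by linarith
    simp_rw [← Finset.sum_smul]
    rw [h2]
    split_ifs <;> simp
  rw [hT, mul_smul_comm, Finset.mul_sum]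
  simp_rw [Finset.mul_sum, hterm, Finset.sum_add_distrib, Finset.sum_sub_distrib]
  rw [hA, hB, hC, smul_mul_assoc, Finset.sum_mul]
  simp_rw [Finset.sum_mul]
  module

end Vale.Agent.P359
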