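import Vale.Agent.Lib.P359.JC2

/-!
# P359 / JComm : commutators with `J_+ = Jp Q` and `J_- = (Jp Q)ᵀ`

* `[c_i† c_j, c_m] = - δ_{im} c_j` (from CAR), so `[J_+, c_m] = -Σ_j E_{mj} c_j` and, since
  `J_- = Σ_{ij} E_{ij} c_j† c_i`, `[J_-, c_m] = -Σ_i E_{im} c_i`.
* `[J_-, c_b c_a] = -Σ_i E_{ib} c_i c_a - Σ_i E_{ia} c_b c_i`; inserting into the definition of
  `b_s`, exchanging the sums and using `ww_raise`/`ww_lower` gives
  `[J_-, b_s] = -Σ_t (E_{2Q-2})_{t s} b_t` and `[J_+, b_s] = -Σ_t (E_{2Q-2})_{s t} b_t`.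
* `H = Σ_s b_s† b_s` commutes with `J_+`: `[J_+, b_s†] = ([b_s, J_-])† = Σ_t E_{ts} b_t†`, so
  `[J_+, H] = Σ_{s,t} (E_{ts} b_t† b_s - E_{st} b_s† b_t) = 0`.
* Leibniz rule for `T3`, `T4`.
-/

namespace Vale.Agent.P359

open Finset Matrix

theorem jcomm_E2_left (A B : ℕ) {V : Type*} [AddCommGroup V] [Module ℝ V]
    (x : Fin (A + 1) × Fin (B + 1)) (f : Fin (A + 1) × Fin (B + 1) → V) :
    ∑ y : Fin (A + 1) × Fin (B + 1), E2 A B y x • f y =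
      ∑ t : Fin (A + 1), Emat A t x.1 • f (t, x.2) + ∑ i : Fin (B + 1), Emat B i x.2 • f (x.1, i) := by
  have h1 : ∀ y : Fin (A + 1) × Fin (B + 1), E2 A B y x • f y =
      (if y.2 = x.2 then Emat A y.1 x.1 • f y else 0) + (if y.1 = x.1 then Emat B y.2 x.2 • f y else 0) := by
    intro y
    unfold E2
    rw [add_smul]
    congr 1
    · split_ifs <;> simp
    · split_ifs <;> simp
  simp only [h1]
  rw [Finset.sum_add_distrib, Fintype.sum_prod_type, Fintype.sum_prod_type]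
  congr 1
  · apply Finset.sum_congr rfl
    intro t _
    simp
  · rw [Finset.sum_comm]
    apply Finset.sum_congr rfl
    intro i _
    simp

theorem jcomm_E2_right (A B : ℕ) {V : Type*} [AddCommGroup V] [Module ℝ V]
    (x : Fin (A + 1) × Fin (B + 1)) (f : Fin (A + 1) × Fin (B + 1) → V) :
    ∑ y : Fin (A + 1) × Fin (B + 1), E2 A B x y • f y =
      ∑ t : Fin (A + 1), Emat A x.1 t • f (t, x.2) + ∑ i : Fin (B + 1), Emat B x.2 i • f (x.1, i) := by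
  have h1 : ∀ y : Fin (A + 1) × Fin (B + 1), E2 A B x y • f y =
      (if x.2 = y.2 then Emat A x.1 y.1 • f y else 0) + (if x.1 = y.1 then Emat B x.2 y.2 • f y else 0) := by
    intro y
    unfold E2
    rw [add_smul]
    congr 1
    · split_ifs <;> simp
    · split_ifs <;> simp
  simp only [h1]
  rw [Finset.sum_add_distrib, Fintype.sum_prod_type, Fintype.sum_prod_type]
  congr 1
  · apply Finset.sum_congr rfl
    intro t _
    simp
  · rw [Finset.sum_comm]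
    apply Finset.sum_congr rfl
    intro i _
    simp

theorem jcomm_leib {n : Type*} [Fintype n] (J a b : Matrix n n ℝ) :
    J * (a * b) - (a * b) * J = (J * a - a * J) * b + a * (J * b - b * J) := by
  rw [Matrix.sub_mul, Matrix.mul_sub, ← Matrix.mul_assoc, ← Matrix.mul_assoc, Matrix.mul_assoc a J b,
    ← Matrix.mul_assoc a J b]
  rw [Matrix.mul_assoc a b J]
  abel

theorem jcomm_two {n α β : Type*} [Fintype n] [Fintype α] [Fintype β] (J a b : Matrix n n ℝ)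
    (E : α → ℝ) (F : β → ℝ) (A : α → Matrix n n ℝ) (B : β → Matrix n n ℝ)
    (h1 : J * a - a * J = - ∑ i, E i • A i) (h2 : J * b - b * J = - ∑ j, F j • B j) :
    J * (a * b) - (a * b) * J = - (∑ j, F j • (a * B j) + ∑ i, E i • (A i * b)) := by
  rw [jcomm_leib, h1, h2, Matrix.mul_neg, Matrix.neg_mul, Finset.sum_mul, Finset.mul_sum]
  simp only [Matrix.mul_smul, Matrix.smul_mul]
  abel

theorem HH_comm (Q : ℕ) (hQ : 1 ≤ Q) : HH Q * Jp Q = Jp Q * HH Q := by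
  have hH : HH Q = ∑ s : Fin (2 * Q - 2 + 1), (bb Q s)ᵀ * bb Q s := by
    unfold HH
    rw [Finset.sum_range]
  have h1 : ∀ s : Fin (2 * Q - 2 + 1), Jp Q * (bb Q s)ᵀ - (bb Q s)ᵀ * Jp Q =
      ∑ t : Fin (2 * Q - 2 + 1), Emat (2 * Q - 2) t s • (bb Q t)ᵀ := by
    intro s
    have h := congrArg Matrix.transpose (Jm_bb Q hQ s)
    rw [Matrix.transpose_sub, Matrix.transpose_mul, Matrix.transpose_mul, Matrix.transpose_transpose,
      Matrix.transpose_neg, Matrix.transpose_sum] at h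
    simp only [Matrix.transpose_smul] at h
    rw [← neg_sub, h, neg_neg]
  have h2 : ∀ s : Fin (2 * Q - 2 + 1), Jp Q * ((bb Q s)ᵀ * bb Q s) - ((bb Q s)ᵀ * bb Q s) * Jp Q =
      (∑ t : Fin (2 * Q - 2 + 1), Emat (2 * Q - 2) t s • ((bb Q t)ᵀ * bb Q s)) -
      ∑ t : Fin (2 * Q - 2 + 1), Emat (2 * Q - 2) s t • ((bb Q s)ᵀ * bb Q t) := by
    intro s
    rw [jcomm_leib, h1, Jp_bb Q hQ s, Matrix.mul_neg, ← sub_eq_add_neg, Finset.sum_mul, Finset.mul_sum]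
    congr 1
    · apply Finset.sum_congr rfl
      intro t _
      rw [Matrix.smul_mul]
    · apply Finset.sum_congr rfl
      intro t _
      rw [Matrix.mul_smul]
  have h3 : Jp Q * HH Q - HH Q * Jp Q = 0 := by
    rw [hH, Finset.mul_sum, Finset.sum_mul, ← Finset.sum_sub_distrib]
    simp only [h2]
    rw [Finset.sum_sub_distrib]
    rw [Finset.sum_comm]
    simp
  exact (sub_eq_zero.1 h3).symm

theorem Jm_T3 (Q : ℕ) (hQ : 1 ≤ Q) (x : I3 Q) :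
    (Jp Q)ᵀ * T3 Q x - T3 Q x * (Jp Q)ᵀ = - ∑ y : I3 Q, E2 (2 * Q - 2) Q y x • T3 Q y := by
  rw [jcomm_E2_left (2 * Q - 2) Q x (fun y => T3 Q y)]
  exact jcomm_two _ _ _ _ _ _ _ (Jm_cc Q x.2) (Jm_bb Q hQ x.1)

theorem Jm_T4 (Q : ℕ) (hQ : 1 ≤ Q) (x : I4 Q) :
    (Jp Q)ᵀ * T4 Q x - T4 Q x * (Jp Q)ᵀ
      = - ∑ y : I4 Q, E2 (2 * Q - 2) (2 * Q - 2) y x • T4 Q y := by
  rw [jcomm_E2_left (2 * Q - 2) (2 * Q - 2) x (fun y => T4 Q y)]
  exact jcomm_two _ _ _ _ _ _ _ (Jm_bb Q hQ x.2) (Jm_bb Q hQ x.1)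

theorem Jp_T3 (Q : ℕ) (hQ : 1 ≤ Q) (x : I3 Q) :
    Jp Q * T3 Q x - T3 Q x * Jp Q = - ∑ y : I3 Q, E2 (2 * Q - 2) Q x y • T3 Q y := by
  rw [jcomm_E2_right (2 * Q - 2) Q x (fun y => T3 Q y)]
  exact jcomm_two _ _ _ _ _ _ _ (Jp_cc Q x.2) (Jp_bb Q hQ x.1)

theorem Jp_T4 (Q : ℕ) (hQ : 1 ≤ Q) (x : I4 Q) :
    Jp Q * T4 Q x - T4 Q x * Jp Q
      = - ∑ y : I4 Q, E2 (2 * Q - 2) (2 * Q - 2) x y • T4 Q y := by
  rw [jcomm_E2_right (2 * Q - 2) (2 * Q - 2) x (fun y => T4 Q y)]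
  exact jcomm_two _ _ _ _ _ _ _ (Jp_bb Q hQ x.2) (Jp_bb Q hQ x.1)

end Vale.Agent.P359
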