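import Vale.Agent.Lib.P359.CG

/-!
# P359 / Schur : symmetric matrices commuting with the raising matrix

`spectral`: let `G` be symmetric and commute with `E = E2 A B` (hence with `Eᵀ`).  Put
`g(q,k,q',k') = ⟨u_{qk}, G u_{q'k'}⟩`, `u = cgvec`, `κ_{q,k} = √((k+1)(2J_q-k))`, `2J_q = A+B-2q`.
From `⟨Eᵀ u_{qk}, G u_{q'k'}⟩ = ⟨u_{qk}, G E u_{q'k'}⟩`:
`κ_{q,k} g(q,k+1,q',k') = κ_{q',k'-1} g(q,k,q',k'-1)` (right side `0` if `k'=0`), for
`k+1 ≤ 2J_q`.  Hence `g(q,k+1,q',0)=0`; by symmetry `g(q,0,q',k'+1)=0`; by induction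
`g(q,k,q',k')=0` whenever `k ≠ k'`, and `g(q,k,q,k) = g(q,0,q,0) =: y_q`.
For `q ≠ q'`, wlog `2J_q > 2J_q'` : from `⟨E u_{qk}, G u_{q'k'}⟩ = ⟨u_{qk}, G Eᵀ u_{q'k'}⟩`:
`κ_{q,k-1} g(q,k-1,q',k') = κ_{q',k'} g(q,k,q',k'+1)`, right side `0` for `k' = 2J_q'`; with
`k = k'+1 ≤ 2J_q` this gives `g(q,2J_q',q',2J_q')=0`, and then the first relation with `k=k'`
descends to `g(q,k,q',k)=0` for all `k`.
Expanding `G x x' = Σ u_{qk}(x) g(q,k,q',k') u_{q'k'}(x')` (completeness `cg_complete`) gives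
the claim.

`spectral_one`: the same for a single spin (`E = Emat A`): the basis vectors `e_j` are one string.
-/

namespace Vale.Agent.P359

open Finset Matrix

private theorem schur2_orth (A B : ℕ) (hBA : B ≤ A) (p p' : (_ : ℕ) × ℕ)
    (hp : p ∈ (range (B + 1)).sigma (fun q => range (A + B - 2 * q + 1)))
    (hp' : p' ∈ (range (B + 1)).sigma (fun q => range (A + B - 2 * q + 1))) :
    ∑ x, cgvec A B p.1 p.2 x * cgvec A B p'.1 p'.2 x = if p = p' then 1 else 0 := by
  obtain ⟨q, k⟩ := p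
  obtain ⟨q', k'⟩ := p'
  simp only [mem_sigma, mem_range] at hp hp'
  have h := cg_orthonormal A B q k q' k' (by omega) (by omega) (by omega) (by omega)
    (by omega) (by omega)
  simp only [dotProduct] at h
  rw [h]
  by_cases hq : q = q'
  · subst hq
    by_cases hk : k = k'
    · subst hk; simp
    · simp [hk]
  · simp [hq]

/-- trace of a product of two channel-diagonal matrices -/
theorem trace_spectral (A B : ℕ) (hBA : B ≤ A) (y v : ℕ → ℝ)
    (G V : Matrix (Fin (A + 1) × Fin (B + 1)) (Fin (A + 1) × Fin (B + 1)) ℝ)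
    (hG : ∀ x x', G x x' = ∑ q ∈ range (B + 1), y q *
        ∑ k ∈ range (A + B - 2 * q + 1), cgvec A B q k x * cgvec A B q k x')
    (hV : ∀ x x', V x x' = ∑ q ∈ range (B + 1), v q *
        ∑ k ∈ range (A + B - 2 * q + 1), cgvec A B q k x * cgvec A B q k x') :
    ∑ x, ∑ x', V x x' * G x x'
      = ∑ q ∈ range (B + 1), v q * y q * ((A + B - 2 * q + 1 : ℕ) : ℝ) := by
  classical
  have hG' : ∀ x x', G x x' = ∑ p ∈ (range (B + 1)).sigma (fun q => range (A + B - 2 * q + 1)),
      y p.1 * (cgvec A B p.1 p.2 x * cgvec A B p.1 p.2 x') := by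
    intro x x'
    rw [hG, Finset.sum_sigma]
    refine sum_congr rfl fun q _ => ?_
    rw [mul_sum]
  have hV' : ∀ x x', V x x' = ∑ p ∈ (range (B + 1)).sigma (fun q => range (A + B - 2 * q + 1)),
      v p.1 * (cgvec A B p.1 p.2 x * cgvec A B p.1 p.2 x') := by
    intro x x'
    rw [hV, Finset.sum_sigma]
    refine sum_congr rfl fun q _ => ?_
    rw [mul_sum]
  set P := (range (B + 1)).sigma (fun q => range (A + B - 2 * q + 1)) with hP
  have hstep : ∑ x, ∑ x', V x x' * G x x'
      = ∑ p ∈ P, ∑ p' ∈ P, v p.1 * y p'.1 *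
        ((∑ x, cgvec A B p.1 p.2 x * cgvec A B p'.1 p'.2 x) *
          (∑ x, cgvec A B p.1 p.2 x * cgvec A B p'.1 p'.2 x)) := by
    have h1 : ∀ x x', V x x' * G x x' = ∑ p ∈ P, ∑ p' ∈ P, v p.1 * y p'.1 *
        ((cgvec A B p.1 p.2 x * cgvec A B p'.1 p'.2 x) *
          (cgvec A B p.1 p.2 x' * cgvec A B p'.1 p'.2 x')) := by
      intro x x'
      rw [hV', hG', Finset.sum_mul_sum]
      refine sum_congr rfl fun p _ => sum_congr rfl fun p' _ => ?_
      ring
    simp_rw [h1]
    have h2 : ∀ x : Fin (A + 1) × Fin (B + 1),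
        ∑ x' : Fin (A + 1) × Fin (B + 1), ∑ p ∈ P, ∑ p' ∈ P, v p.1 * y p'.1 *
        ((cgvec A B p.1 p.2 x * cgvec A B p'.1 p'.2 x) *
          (cgvec A B p.1 p.2 x' * cgvec A B p'.1 p'.2 x'))
        = ∑ p ∈ P, ∑ p' ∈ P, ∑ x' : Fin (A + 1) × Fin (B + 1), v p.1 * y p'.1 *
        ((cgvec A B p.1 p.2 x * cgvec A B p'.1 p'.2 x) *
          (cgvec A B p.1 p.2 x' * cgvec A B p'.1 p'.2 x')) := by
      intro x
      rw [Finset.sum_comm]
      refine sum_congr rfl fun p _ => ?_
      rw [Finset.sum_comm]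
    simp_rw [h2]
    rw [Finset.sum_comm]
    refine sum_congr rfl fun p _ => ?_
    rw [Finset.sum_comm]
    refine sum_congr rfl fun p' _ => ?_
    rw [Finset.sum_mul_sum, mul_sum]
    refine sum_congr rfl fun x _ => ?_
    rw [mul_sum]
  rw [hstep]
  have h3 : ∑ p ∈ P, ∑ p' ∈ P, v p.1 * y p'.1 *
        ((∑ x, cgvec A B p.1 p.2 x * cgvec A B p'.1 p'.2 x) *
          (∑ x, cgvec A B p.1 p.2 x * cgvec A B p'.1 p'.2 x))
      = ∑ p ∈ P, v p.1 * y p.1 := by
    refine sum_congr rfl fun p hp => ?_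
    have h4 : ∀ p' ∈ P, v p.1 * y p'.1 *
        ((∑ x, cgvec A B p.1 p.2 x * cgvec A B p'.1 p'.2 x) *
          (∑ x, cgvec A B p.1 p.2 x * cgvec A B p'.1 p'.2 x))
        = if p = p' then v p.1 * y p'.1 else 0 := by
      intro p' hp'
      rw [schur2_orth A B hBA p p' hp hp']
      split_ifs <;> simp
    rw [sum_congr rfl h4]
    simp [hp]
  rw [h3, hP, Finset.sum_sigma]
  refine sum_congr rfl fun q _ => ?_
  simp only [sum_const, card_range, nsmul_eq_mul]
  ring

private theorem schur2_GE_zero (A : ℕ) (G : Matrix (Fin (A + 1)) (Fin (A + 1)) ℝ)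
    (i : Fin (A + 1)) : (G * Emat A) i 0 = 0 := by
  rw [Matrix.mul_apply]
  refine sum_eq_zero fun k _ => ?_
  simp [Emat]

private theorem schur2_GE_succ (A : ℕ) (G : Matrix (Fin (A + 1)) (Fin (A + 1)) ℝ)
    (i : Fin (A + 1)) (j : Fin A) : (G * Emat A) i j.succ =
      G i j.castSucc * √(((j : ℕ) + 1 : ℝ) * ((A : ℝ) - (j : ℕ))) := by
  rw [Matrix.mul_apply, Finset.sum_eq_single j.castSucc]
  · congr 1
    simp only [Emat, Fin.val_castSucc, Fin.val_succ, if_true]
    congr 1
    push_cast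
    ring
  · intro k _ hk
    have : ¬ ((k : ℕ) + 1 = ((j.succ : Fin (A + 1)) : ℕ)) := by
      intro h
      apply hk
      apply Fin.ext
      simp only [Fin.val_succ] at h
      simp only [Fin.val_castSucc]
      omega
    simp [Emat]
    intro h
    exact absurd h (by simpa using this)
  · simp

private theorem schur2_EG_castSucc (A : ℕ) (G : Matrix (Fin (A + 1)) (Fin (A + 1)) ℝ)
    (i : Fin A) (j : Fin (A + 1)) : (Emat A * G) i.castSucc j =
      √(((i : ℕ) + 1 : ℝ) * ((A : ℝ) - (i : ℕ))) * G i.succ j := by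
  rw [Matrix.mul_apply, Finset.sum_eq_single i.succ]
  · congr 1
    simp only [Emat, Fin.val_castSucc, Fin.val_succ, if_true]
    congr 1
    push_cast
    ring
  · intro k _ hk
    have : ¬ (((i.castSucc : Fin (A + 1)) : ℕ) + 1 = (k : ℕ)) := by
      intro h
      apply hk
      apply Fin.ext
      simp only [Fin.val_castSucc] at h
      simp only [Fin.val_succ]
      omega
    simp [Emat]
    intro h
    exact absurd h (by simpa using this)
  · simp

private theorem schur2_cpos (A : ℕ) (i : Fin A) :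
    0 < √(((i : ℕ) + 1 : ℝ) * ((A : ℝ) - (i : ℕ))) := by
  apply Real.sqrt_pos.mpr
  have h1 : ((i : ℕ) : ℝ) < (A : ℝ) := by exact_mod_cast i.isLt
  have h2 : (0 : ℝ) ≤ ((i : ℕ) : ℝ) := by positivity
  apply mul_pos <;> linarith

theorem spectral_one (A : ℕ) (G : Matrix (Fin (A + 1)) (Fin (A + 1)) ℝ)
    (hs : Gᵀ = G) (hE : G * Emat A = Emat A * G) :
    ∀ i j, G i j = if i = j then G 0 0 else 0 := by
  have hsym : ∀ i j, G i j = G j i := by
    intro i j
    have := congrFun (congrFun hs j) i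
    simpa [Matrix.transpose_apply] using this
  have hcol0 : ∀ i : Fin A, G i.succ 0 = 0 := by
    intro i
    have h := congrFun (congrFun hE i.castSucc) 0
    rw [schur2_GE_zero, schur2_EG_castSucc] at h
    rcases mul_eq_zero.mp h.symm with h1 | h1
    · exact absurd h1 (schur2_cpos A i).ne'
    · exact h1
  intro i
  induction i using Fin.induction with
  | zero =>
    intro j
    refine Fin.cases ?_ (fun j => ?_) j
    · simp
    · rw [hsym, hcol0]
      rw [if_neg (Fin.succ_ne_zero j).symm]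
  | succ i ih =>
    intro j
    refine Fin.cases ?_ (fun j => ?_) j
    · rw [hcol0, if_neg (Fin.succ_ne_zero i)]
    · have h := congrFun (congrFun hE i.castSucc) j.succ
      rw [schur2_GE_succ, schur2_EG_castSucc, ih] at h
      by_cases hij : i = j
      · subst hij
        rw [if_pos rfl] at h ⊢
        have hc := schur2_cpos A i
        have h' : √(((i : ℕ) + 1 : ℝ) * ((A : ℝ) - (i : ℕ))) * G i.succ i.succ
            = √(((i : ℕ) + 1 : ℝ) * ((A : ℝ) - (i : ℕ))) * G 0 0 := by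
          rw [← h]; ring
        exact mul_left_cancel₀ hc.ne' h'
      · have h1 : ¬ (i.castSucc = j.castSucc) := by
          intro h2
          exact hij (Fin.castSucc_injective A h2)
        have h2 : ¬ (i.succ = j.succ) := by
          intro h2
          exact hij (Fin.succ_injective A h2)
        rw [if_neg h1] at h
        rw [if_neg h2]
        rcases mul_eq_zero.mp (by linarith : √(((i : ℕ) + 1 : ℝ) * ((A : ℝ) - (i : ℕ))) * G i.succ j.succ = 0) with h3 | h3
        · exact absurd h3 (schur2_cpos A i).ne'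
        · exact h3

end Vale.Agent.P359
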