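import Vale.Agent.Lib.P359.Cov
import Vale.Agent.Lib.P359.JComm
import Vale.Agent.Lib.P359.Schur
import Vale.Agent.Lib.P359.Schur2

/-!
# P359 / Inv : the reduced forms of an invariant `P` are channel-diagonal

General lemma `cov_comm`: let `P` be symmetric and commute with `J` (hence with `Jᵀ`), let
`T : ι → Op` satisfy `Jᵀ T_x - T_x Jᵀ = -Σ_y E_{yx} T_y` and `J T_x - T_x J = -Σ_y E_{xy} T_y`.
Then `G_{xy} = tr(P T_xᵀ T_y)` is symmetric and commutes with `E`: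
`0 = tr(P [Jᵀ, T_xᵀ T_y])` (cyclicity, `P Jᵀ = Jᵀ P`), `[Jᵀ, T_xᵀ] = (T_x J - J T_x)ᵀ =
Σ_z E_{xz} T_zᵀ`, `[Jᵀ, T_y] = -Σ_z E_{zy} T_z`, so `0 = (E G)_{xy} - (G E)_{xy}`.
-/

namespace Vale.Agent.P359

open Finset Matrix

theorem G2_spec (Q : ℕ) (hQ : 2 ≤ Q) (P : Op Q) (hP : Pᵀ = P) (hJ : P * Jp Q = Jp Q * P)
    (r s : Fin (2 * Q - 2 + 1)) : G2 Q P r s = if r = s then G2 Q P 0 0 else 0 := by
  refine spectral_one (2 * Q - 2) (G2 Q P) ?_ ?_ r s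
  · ext x y
    exact cov_symm P (fun z : Fin (2 * Q - 2 + 1) => bb Q z) hP x y
  · ext x y
    exact (cov_comm P (Jp Q) (fun z : Fin (2 * Q - 2 + 1) => bb Q z) (Emat (2 * Q - 2)) hP hJ
      (fun z => Jm_bb Q (by omega) z) (fun z => Jp_bb Q (by omega) z) x y).symm

theorem G3_spec (Q : ℕ) (hQ : 2 ≤ Q) (P : Op Q) (hP : Pᵀ = P) (hJ : P * Jp Q = Jp Q * P)
    (x x' : I3 Q) : G3 Q P x x' = ∑ q ∈ range (Q + 1),
      (cgvec (2 * Q - 2) Q q 0 ⬝ᵥ G3 Q P *ᵥ cgvec (2 * Q - 2) Q q 0) *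
        ∑ k ∈ range (2 * Q - 2 + Q - 2 * q + 1),
          cgvec (2 * Q - 2) Q q k x * cgvec (2 * Q - 2) Q q k x' := by
  refine spectral (2 * Q - 2) Q (by omega) (G3 Q P) ?_ ?_ x x'
  · ext x y
    exact cov_symm P (T3 Q) hP x y
  · ext x y
    exact (cov_comm P (Jp Q) (T3 Q) (E2 (2 * Q - 2) Q) hP hJ
      (fun z => Jm_T3 Q (by omega) z) (fun z => Jp_T3 Q (by omega) z) x y).symm

theorem G4_spec (Q : ℕ) (hQ : 2 ≤ Q) (P : Op Q) (hP : Pᵀ = P) (hJ : P * Jp Q = Jp Q * P)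
    (x x' : I4 Q) : G4 Q P x x' = ∑ j ∈ range (2 * Q - 2 + 1),
      (cgvec (2 * Q - 2) (2 * Q - 2) j 0 ⬝ᵥ G4 Q P *ᵥ cgvec (2 * Q - 2) (2 * Q - 2) j 0) *
        ∑ k ∈ range (2 * Q - 2 + (2 * Q - 2) - 2 * j + 1),
          cgvec (2 * Q - 2) (2 * Q - 2) j k x * cgvec (2 * Q - 2) (2 * Q - 2) j k x' := by
  refine spectral (2 * Q - 2) (2 * Q - 2) le_rfl (G4 Q P) ?_ ?_ x x'
  · ext x y
    exact cov_symm P (T4 Q) hP x y
  · ext x y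
    exact (cov_comm P (Jp Q) (T4 Q) (E2 (2 * Q - 2) (2 * Q - 2)) hP hJ
      (fun z => Jm_T4 Q (by omega) z) (fun z => Jp_T4 Q (by omega) z) x y).symm

end Vale.Agent.P359
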