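import Vale.Agent.Lib.P359.Car

/-!
# P359 / JComm : commutators with `J_+ = Jp Q` and `J_- = (Jp Q)ᵀ`

* `[c_i† c_j, c_m] = - δ_{im} c_j` (from CAR), so `[J_+, c_m] = -Σ_j E_{mj} c_j` and, since
  `J_- = Σ_{ij} E_{ij} c_j† c_i`, `[J_-, c_m] = -Σ_i E_{im} c_i`.
* `[J_-, c_b c_a] = -Σ_i E_{ib} c_i c_a - Σ_i E_{ia} c_b c_i`; inserting into the definition of
  `b_s`, exchanging the sums and using `ww_raise`/`ww_lower` gives
  `[J_-, b_s] = -Σ_t (E_{2Q-2})_{t s} b_t` and `[J_+, b_s] = -Σ_t (E_{2Q-2})_{s t} b_t`.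
* `H = Σ_s b_s† b_s` commutes with `J_+`: `[J_+, b_s†] = ([b_s, J_-])† = Σ_t E_{ts} b_t†`, so
  `[J_+, H] = Σ_{s,t} (E_{ts} b_t† b_s - E_{st} b_s† b_t) = 0`.
* Leibniz rule for `T3`, `T4`.
-/

namespace Vale.Agent.P359

open Finset Matrix

/-- `[c_i† c_j, c_m] = - δ_{mi} c_j` -/
theorem jc1_pair (Q : ℕ) (i j m : Fin (Q + 1)) :
    (cc Q i)ᵀ * cc Q j * cc Q m - cc Q m * ((cc Q i)ᵀ * cc Q j) =
      - ((if m = i then (1 : ℝ) else 0) • cc Q j) := by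
  have h1 : cc Q m * (cc Q i)ᵀ = (if m = i then 1 else 0) - (cc Q i)ᵀ * cc Q m :=
    eq_sub_of_add_eq (car_mixed Q m i)
  have h2 : cc Q j * cc Q m = - (cc Q m * cc Q j) := car_anti Q j m
  rw [← mul_assoc (cc Q m), h1, mul_assoc ((cc Q i)ᵀ), h2, sub_mul, mul_neg, mul_assoc]
  split_ifs
  · rw [one_mul, one_smul]; abel
  · rw [zero_mul, zero_smul]; abel

theorem Jm_cc (Q : ℕ) (m : Fin (Q + 1)) :
    (Jp Q)ᵀ * cc Q m - cc Q m * (Jp Q)ᵀ = - ∑ i : Fin (Q + 1), Emat Q i m • cc Q i := by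
  have hT : (Jp Q)ᵀ = ∑ i : Fin (Q + 1), ∑ j : Fin (Q + 1), Emat Q i j • ((cc Q j)ᵀ * cc Q i) := by
    unfold Jp
    simp only [Matrix.transpose_sum, Matrix.transpose_smul, Matrix.transpose_mul,
      Matrix.transpose_transpose]
  rw [hT, Finset.sum_mul, Finset.mul_sum, ← Finset.sum_sub_distrib, ← Finset.sum_neg_distrib]
  refine Finset.sum_congr rfl fun i _ => ?_
  rw [Finset.sum_mul, Finset.mul_sum, ← Finset.sum_sub_distrib]
  have h : ∀ j : Fin (Q + 1), Emat Q i j • ((cc Q j)ᵀ * cc Q i) * cc Q m -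
      cc Q m * (Emat Q i j • ((cc Q j)ᵀ * cc Q i)) =
      if m = j then - (Emat Q i j • cc Q i) else 0 := by
    intro j
    rw [Matrix.smul_mul, Matrix.mul_smul, ← smul_sub, jc1_pair]
    split_ifs
    · rw [one_smul, smul_neg]
    · rw [zero_smul, neg_zero, smul_zero]
  simp only [h]
  rw [Finset.sum_ite_eq]
  simp

theorem Jp_cc (Q : ℕ) (m : Fin (Q + 1)) :
    Jp Q * cc Q m - cc Q m * Jp Q = - ∑ i : Fin (Q + 1), Emat Q m i • cc Q i := by
  unfold Jp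
  rw [Finset.sum_mul, Finset.mul_sum, ← Finset.sum_sub_distrib]
  have h : ∀ i : Fin (Q + 1), (∑ j : Fin (Q + 1), Emat Q i j • ((cc Q i)ᵀ * cc Q j)) * cc Q m -
      cc Q m * (∑ j : Fin (Q + 1), Emat Q i j • ((cc Q i)ᵀ * cc Q j)) =
      if m = i then - ∑ j : Fin (Q + 1), Emat Q i j • cc Q j else 0 := by
    intro i
    rw [Finset.sum_mul, Finset.mul_sum, ← Finset.sum_sub_distrib]
    have h' : ∀ j : Fin (Q + 1), Emat Q i j • ((cc Q i)ᵀ * cc Q j) * cc Q m -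
        cc Q m * (Emat Q i j • ((cc Q i)ᵀ * cc Q j)) =
        - (Emat Q i j • ((if m = i then (1 : ℝ) else 0) • cc Q j)) := by
      intro j
      rw [Matrix.smul_mul, Matrix.mul_smul, ← smul_sub, jc1_pair, smul_neg]
    simp only [h']
    rw [Finset.sum_neg_distrib]
    split_ifs
    · simp only [one_smul]
    · simp only [zero_smul, smul_zero, Finset.sum_const_zero, neg_zero]
  simp only [h]
  rw [Finset.sum_ite_eq]
  simp

end Vale.Agent.P359
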