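import Vale.Agent.Lib.P359.JC1
import Vale.Agent.Lib.P359.WwCov

/-!
# P359 / JComm : commutators with `J_+ = Jp Q` and `J_- = (Jp Q)ᵀ`

* `[c_i† c_j, c_m] = - δ_{im} c_j` (from CAR), so `[J_+, c_m] = -Σ_j E_{mj} c_j` and, since
  `J_- = Σ_{ij} E_{ij} c_j† c_i`, `[J_-, c_m] = -Σ_i E_{im} c_i`.
* `[J_-, c_b c_a] = -Σ_i E_{ib} c_i c_a - Σ_i E_{ia} c_b c_i`; inserting into the definition of
  `b_s`, exchanging the sums and using `ww_raise`/`ww_lower` gives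
  `[J_-, b_s] = -Σ_t (E_{2Q-2})_{t s} b_t` and `[J_+, b_s] = -Σ_t (E_{2Q-2})_{s t} b_t`.
* `H = Σ_s b_s† b_s` commutes with `J_+`: `[J_+, b_s†] = ([b_s, J_-])† = Σ_t E_{ts} b_t†`, so
  `[J_+, H] = Σ_{s,t} (E_{ts} b_t† b_s - E_{st} b_s† b_t) = 0`.
* Leibniz rule for `T3`, `T4`.
-/

namespace Vale.Agent.P359

open Finset Matrix

/-- the common computation for `J_+` and `J_-` -/
theorem JC2_gen (Q : ℕ) (J : Op Q) (M : Fin (Q + 1) → Fin (Q + 1) → ℝ)
    (hJ : ∀ m, J * cc Q m - cc Q m * J = - ∑ i, M i m • cc Q i) (s : ℕ)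
    (N : Fin (2 * Q - 2 + 1) → ℝ)
    (hw : ∀ a b : Fin (Q + 1), (∑ a' : Fin (Q + 1), M a a' * ww Q s a' b) +
      (∑ b' : Fin (Q + 1), M b b' * ww Q s a b') = ∑ t : Fin (2 * Q - 2 + 1), N t * ww Q t a b) :
    J * bb Q s - bb Q s * J = - ∑ t : Fin (2 * Q - 2 + 1), N t • bb Q t := by
  have h1 : ∀ a b : Fin (Q + 1), J * (cc Q b * cc Q a) - (cc Q b * cc Q a) * J =
      -(∑ i, M i b • (cc Q i * cc Q a)) - ∑ i, M i a • (cc Q b * cc Q i) := by
    intro a b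
    have h2 : J * (cc Q b * cc Q a) - (cc Q b * cc Q a) * J =
        (J * cc Q b - cc Q b * J) * cc Q a + cc Q b * (J * cc Q a - cc Q a * J) := by
      noncomm_ring
    rw [h2, hJ, hJ, neg_mul, mul_neg, Finset.sum_mul, Finset.mul_sum, sub_eq_add_neg]
    simp only [smul_mul_assoc, mul_smul_comm]
  have h3 : J * bb Q s - bb Q s * J = (1 / 2 : ℝ) • ∑ a : Fin (Q + 1), ∑ b : Fin (Q + 1),
      ww Q s a b • (J * (cc Q b * cc Q a) - (cc Q b * cc Q a) * J) := by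
    unfold bb
    simp only [mul_smul_comm, smul_mul_assoc, Finset.mul_sum, Finset.sum_mul, smul_sub,
      Finset.sum_sub_distrib]
  have h4 : ∑ a : Fin (Q + 1), ∑ b : Fin (Q + 1),
      ww Q s a b • (J * (cc Q b * cc Q a) - (cc Q b * cc Q a) * J) =
      - ∑ a : Fin (Q + 1), ∑ b : Fin (Q + 1),
        (∑ t : Fin (2 * Q - 2 + 1), N t * ww Q t a b) • (cc Q b * cc Q a) := by
    have h5 : ∑ a : Fin (Q + 1), ∑ b : Fin (Q + 1),
        ww Q s a b • (J * (cc Q b * cc Q a) - (cc Q b * cc Q a) * J) =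
        -(∑ a : Fin (Q + 1), ∑ b : Fin (Q + 1), ∑ i : Fin (Q + 1),
            (M i b * ww Q s a b) • (cc Q i * cc Q a)) -
          ∑ a : Fin (Q + 1), ∑ b : Fin (Q + 1), ∑ i : Fin (Q + 1),
            (M i a * ww Q s a b) • (cc Q b * cc Q i) := by
      rw [← Finset.sum_neg_distrib, ← Finset.sum_sub_distrib]
      refine Finset.sum_congr rfl fun a _ => ?_
      rw [← Finset.sum_neg_distrib, ← Finset.sum_sub_distrib]
      refine Finset.sum_congr rfl fun b _ => ?_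
      rw [h1, smul_sub, smul_neg, Finset.smul_sum, Finset.smul_sum]
      simp only [smul_smul, mul_comm (ww Q s a b)]
    have h6 : ∑ a : Fin (Q + 1), ∑ b : Fin (Q + 1), ∑ i : Fin (Q + 1),
        (M i b * ww Q s a b) • (cc Q i * cc Q a) =
        ∑ a : Fin (Q + 1), ∑ b : Fin (Q + 1),
          (∑ b' : Fin (Q + 1), M b b' * ww Q s a b') • (cc Q b * cc Q a) := by
      refine Finset.sum_congr rfl fun a _ => ?_
      rw [Finset.sum_comm]
      refine Finset.sum_congr rfl fun b _ => ?_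
      rw [Finset.sum_smul]
    have h7 : ∑ a : Fin (Q + 1), ∑ b : Fin (Q + 1), ∑ i : Fin (Q + 1),
        (M i a * ww Q s a b) • (cc Q b * cc Q i) =
        ∑ a : Fin (Q + 1), ∑ b : Fin (Q + 1),
          (∑ a' : Fin (Q + 1), M a a' * ww Q s a' b) • (cc Q b * cc Q a) := by
      rw [Finset.sum_comm]
      rw [Finset.sum_comm (f := fun (a b : Fin (Q + 1)) => (∑ a' : Fin (Q + 1), M a a' * ww Q s a' b) •
        (cc Q b * cc Q a))]
      refine Finset.sum_congr rfl fun b _ => ?_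
      rw [Finset.sum_comm]
      refine Finset.sum_congr rfl fun a _ => ?_
      rw [Finset.sum_smul]
    rw [h5, h6, h7, ← Finset.sum_neg_distrib, ← Finset.sum_sub_distrib, ← Finset.sum_neg_distrib]
    refine Finset.sum_congr rfl fun a _ => ?_
    rw [← Finset.sum_neg_distrib, ← Finset.sum_sub_distrib, ← Finset.sum_neg_distrib]
    refine Finset.sum_congr rfl fun b _ => ?_
    rw [← hw a b, add_smul]
    abel
  rw [h3, h4, smul_neg]
  congr 1
  unfold bb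
  simp only [Finset.sum_smul, Finset.smul_sum, smul_smul]
  rw [Finset.sum_comm]
  rw [Finset.sum_comm (f := fun (t : Fin (2 * Q - 2 + 1)) (a : Fin (Q + 1)) =>
    ∑ b : Fin (Q + 1), (N t * (1 / 2 * ww Q t a b)) • (cc Q b * cc Q a))]
  rw [Finset.sum_comm]
  refine Finset.sum_congr rfl fun a _ => ?_
  rw [Finset.sum_comm]
  refine Finset.sum_congr rfl fun t _ => Finset.sum_congr rfl fun b _ => ?_
  congr 1
  ring

theorem Jm_bb (Q : ℕ) (hQ : 1 ≤ Q) (s : Fin (2 * Q - 2 + 1)) :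
    (Jp Q)ᵀ * bb Q s - bb Q s * (Jp Q)ᵀ
      = - ∑ t : Fin (2 * Q - 2 + 1), Emat (2 * Q - 2) t s • bb Q t :=
  JC2_gen Q (Jp Q)ᵀ (fun i m => Emat Q i m) (Jm_cc Q) s (fun t => Emat (2 * Q - 2) t s)
    (ww_raise Q hQ s)

theorem Jp_bb (Q : ℕ) (hQ : 1 ≤ Q) (s : Fin (2 * Q - 2 + 1)) :
    Jp Q * bb Q s - bb Q s * Jp Q
      = - ∑ t : Fin (2 * Q - 2 + 1), Emat (2 * Q - 2) s t • bb Q t :=
  JC2_gen Q (Jp Q) (fun i m => Emat Q m i) (Jp_cc Q) s (fun t => Emat (2 * Q - 2) s t)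
    (ww_lower Q hQ s)

end Vale.Agent.P359
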