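import Vale.Agent.Lib.P359.Defs

/-!
# P359 / KapId : the two recursions of `kap` and the value of `kap` on the top row

All proofs are finite binomial manipulations.  Write
`T i = (-1)^i C(q,i) C(r,i) C(m,q-i) / (C(A,i) C(B,q-i))`, so `kap A B q r m = Σ_{i≤q} T i`.

* `kap_lower`: `r C(r-1,i) = (r-i) C(r,i)` and `m C(m-1,q-i) = (m-(q-i)) C(m,q-i)` (as real
  numbers; check `r = 0`, `m = 0`, `i > r` separately), so each summand gives
  `((r-i)+(m-q+i)) T i = (r+m-q) T i`.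

* `kap_raise` (`q ≤ A`, `q ≤ B`):
  Pascal: `C(r+1,i) = C(r,i) + C(r,i-1)`, `C(m+1,q-i) = C(m,q-i) + C(m,q-i-1)`.  So
  `(A-r) kap(r+1,m) + (B-m) kap(r,m+1) = ((A-r)+(B-m)) kap(r,m) + R`, and `R = - q kap(r,m)`:
  after the shift `i → i+1` in the first part,
  `R = Σ_i (-1)^i C(r,i) C(m,q-1-i) C(q,i)(q-i)/(C(A,i) C(B,q-i-1)) *
        [ (B-m)/(B-q+i+1) - (A-r)/(A-i) ]` (sum over `0 ≤ i ≤ q-1`),
  using `C(A,i+1) = C(A,i)(A-i)/(i+1)`, `C(q,i+1) = C(q,i)(q-i)/(i+1)`,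
  `C(B,q-i) = C(B,q-i-1)(B-q+i+1)/(q-i)`.
  The bracket is `(r-i)/(A-i) - (m-q+i+1)/(B-q+i+1)`.
  With `(r-i)C(r,i) = (i+1)C(r,i+1)` the first half is `- Σ_i (i+1) T (i+1)`,
  with `(m-(q-1-i))C(m,q-1-i) = (q-i)C(m,q-i)` the second half is `- Σ_i (q-i) T i`.
  Total `- Σ_i q T i`.

* `kap_top`: for `r + m = q` only `i = r` contributes.
-/

namespace Vale.Agent.P359

open Finset Matrix

/-- `r C(r-1,i) = (r-i) C(r,i)` -/
theorem kapId_pred (r i : ℕ) :
    (r : ℝ) * ((r - 1).choose i : ℝ) = ((r : ℝ) - i) * (r.choose i : ℝ) := by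
  rcases r with _ | r
  · rcases i with _ | i
    · simp
    · simp
  · rw [Nat.add_sub_cancel]
    rcases le_or_gt i (r + 1) with h | h
    · have e := Nat.choose_mul_succ_eq r i
      have e' : ((r.choose i : ℕ) : ℝ) * ((r : ℝ) + 1) =
          (((r + 1).choose i : ℕ) : ℝ) * (((r + 1 : ℕ) : ℝ) - i) := by
        rw [← Nat.cast_sub h]
        exact_mod_cast e
      rw [mul_comm (((r + 1 : ℕ) : ℝ) - i), ← e']
      push_cast
      ring
    · rw [Nat.choose_eq_zero_of_lt h, Nat.choose_eq_zero_of_lt (by omega : r < i)]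
      simp

/-- `(i+1) C(r,i+1) = (r-i) C(r,i)` -/
theorem kapId_succ (r i : ℕ) :
    ((i : ℝ) + 1) * (r.choose (i + 1) : ℝ) = ((r : ℝ) - i) * (r.choose i : ℝ) := by
  rcases le_or_gt i r with h | h
  · have e := Nat.choose_succ_right_eq r i
    have e' : ((r.choose (i + 1) : ℕ) : ℝ) * ((i : ℝ) + 1) =
        ((r.choose i : ℕ) : ℝ) * ((r : ℝ) - i) := by
      rw [← Nat.cast_sub h]
      exact_mod_cast e
    linarith
  · rw [Nat.choose_eq_zero_of_lt h, Nat.choose_eq_zero_of_lt (by omega : r < i + 1)]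
    simp

theorem kap_lower (A B q r m : ℕ) :
    (r : ℝ) * kap A B q (r - 1) m + (m : ℝ) * kap A B q r (m - 1)
      = ((r : ℝ) + m - q) * kap A B q r m := by
  unfold kap
  rw [Finset.mul_sum, Finset.mul_sum, Finset.mul_sum, ← Finset.sum_add_distrib]
  refine Finset.sum_congr rfl fun i hi => ?_
  have hi' : i ≤ q := Nat.lt_succ_iff.1 (Finset.mem_range.1 hi)
  have e1 := kapId_pred r i
  have e2 := kapId_pred m (q - i)
  rw [Nat.cast_sub hi'] at e2
  have e3 : (r : ℝ) * ((-1 : ℝ) ^ i * (q.choose i : ℝ) * ((r - 1).choose i : ℝ) *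
      (m.choose (q - i) : ℝ) / ((A.choose i : ℝ) * (B.choose (q - i) : ℝ))) =
      ((r : ℝ) * ((r - 1).choose i : ℝ)) * ((-1 : ℝ) ^ i * (q.choose i : ℝ) *
      (m.choose (q - i) : ℝ) / ((A.choose i : ℝ) * (B.choose (q - i) : ℝ))) := by ring
  have e4 : (m : ℝ) * ((-1 : ℝ) ^ i * (q.choose i : ℝ) * (r.choose i : ℝ) *
      ((m - 1).choose (q - i) : ℝ) / ((A.choose i : ℝ) * (B.choose (q - i) : ℝ))) =
      ((m : ℝ) * ((m - 1).choose (q - i) : ℝ)) * ((-1 : ℝ) ^ i * (q.choose i : ℝ) *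
      (r.choose i : ℝ) / ((A.choose i : ℝ) * (B.choose (q - i) : ℝ))) := by ring
  rw [e3, e4, e1, e2]
  ring

/-- the summand identity behind `kap_raise` -/
theorem kapId_term (A B r m i j : ℕ) (hA : i + 1 ≤ A) (hB : j + 1 ≤ B) :
    ((A : ℝ) - r) * ((-1 : ℝ) ^ (i + 1) * ((i + j + 1).choose (i + 1) : ℝ) * (r.choose i : ℝ) *
        (m.choose j : ℝ) / ((A.choose (i + 1) : ℝ) * (B.choose j : ℝ)))
      + ((B : ℝ) - m) * ((-1 : ℝ) ^ i * ((i + j + 1).choose i : ℝ) * (r.choose i : ℝ) *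
        (m.choose j : ℝ) / ((A.choose i : ℝ) * (B.choose (j + 1) : ℝ)))
      = - (((i : ℝ) + 1) * ((-1 : ℝ) ^ (i + 1) * ((i + j + 1).choose (i + 1) : ℝ) *
        (r.choose (i + 1) : ℝ) * (m.choose j : ℝ) / ((A.choose (i + 1) : ℝ) * (B.choose j : ℝ))))
      - ((j : ℝ) + 1) * ((-1 : ℝ) ^ i * ((i + j + 1).choose i : ℝ) * (r.choose i : ℝ) *
        (m.choose (j + 1) : ℝ) / ((A.choose i : ℝ) * (B.choose (j + 1) : ℝ))) := by
  have hi : (i : ℝ) + 1 ≠ 0 := by positivity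
  have hj : (j : ℝ) + 1 ≠ 0 := by positivity
  have ha : ((A.choose i : ℕ) : ℝ) ≠ 0 := by
    exact_mod_cast (Nat.choose_pos (by omega)).ne'
  have hb : ((B.choose j : ℕ) : ℝ) ≠ 0 := by
    exact_mod_cast (Nat.choose_pos (by omega)).ne'
  have hAi : (A : ℝ) - i ≠ 0 := by
    have : (i : ℝ) + 1 ≤ A := by exact_mod_cast hA
    linarith
  have hBj : (B : ℝ) - j ≠ 0 := by
    have : (j : ℝ) + 1 ≤ B := by exact_mod_cast hB
    linarith
  have x1 : (((i + j + 1).choose (i + 1) : ℕ) : ℝ) =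
      ((j : ℝ) + 1) * (((i + j + 1).choose i : ℕ) : ℝ) / ((i : ℝ) + 1) := by
    rw [eq_div_iff hi, mul_comm, kapId_succ]
    push_cast
    ring
  have a1 : ((A.choose (i + 1) : ℕ) : ℝ) = ((A : ℝ) - i) * ((A.choose i : ℕ) : ℝ) / ((i : ℝ) + 1) := by
    rw [eq_div_iff hi, mul_comm, kapId_succ]
  have b1 : ((B.choose (j + 1) : ℕ) : ℝ) = ((B : ℝ) - j) * ((B.choose j : ℕ) : ℝ) / ((j : ℝ) + 1) := by
    rw [eq_div_iff hj, mul_comm, kapId_succ]
  have y1 : ((r.choose (i + 1) : ℕ) : ℝ) = ((r : ℝ) - i) * ((r.choose i : ℕ) : ℝ) / ((i : ℝ) + 1) := by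
    rw [eq_div_iff hi, mul_comm, kapId_succ]
  have z1 : ((m.choose (j + 1) : ℕ) : ℝ) = ((m : ℝ) - j) * ((m.choose j : ℕ) : ℝ) / ((j : ℝ) + 1) := by
    rw [eq_div_iff hj, mul_comm, kapId_succ]
  rw [x1, a1, b1, y1, z1, pow_succ]
  generalize ((-1 : ℝ)) ^ i = s
  generalize (((i + j + 1).choose i : ℕ) : ℝ) = x
  generalize ((r.choose i : ℕ) : ℝ) = y
  generalize ((m.choose j : ℕ) : ℝ) = z
  field_simp
  ring

theorem kap_raise (A B q r m : ℕ) (hA : q ≤ A) (hB : q ≤ B) :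
    ((A : ℝ) - r) * kap A B q (r + 1) m + ((B : ℝ) - m) * kap A B q r (m + 1)
      = ((A : ℝ) + B - r - m - q) * kap A B q r m := by
  rcases q with _ | p
  · simp [kap]
    ring
  · have h1 : kap A B (p + 1) (r + 1) m = kap A B (p + 1) r m +
        ∑ i ∈ range (p + 1), (-1 : ℝ) ^ (i + 1) * ((p + 1).choose (i + 1) : ℝ) *
          (r.choose i : ℝ) * (m.choose (p - i) : ℝ) /
            ((A.choose (i + 1) : ℝ) * (B.choose (p - i) : ℝ)) := by
      unfold kap
      rw [Finset.sum_range_succ', Finset.sum_range_succ' _ (p + 1), add_right_comm,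
        ← Finset.sum_add_distrib]
      congr 1
      · refine Finset.sum_congr rfl fun i _ => ?_
        rw [Nat.choose_succ_succ r i, Nat.add_sub_add_right]
        push_cast
        ring
      · simp
    have h2 : kap A B (p + 1) r (m + 1) = kap A B (p + 1) r m +
        ∑ i ∈ range (p + 1), (-1 : ℝ) ^ i * ((p + 1).choose i : ℝ) *
          (r.choose i : ℝ) * (m.choose (p - i) : ℝ) /
            ((A.choose i : ℝ) * (B.choose (p - i + 1) : ℝ)) := by
      unfold kap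
      rw [Finset.sum_range_succ, Finset.sum_range_succ _ (p + 1), add_right_comm,
        ← Finset.sum_add_distrib]
      congr 1
      · refine Finset.sum_congr rfl fun i hi => ?_
        have hi' : i ≤ p := Nat.lt_succ_iff.1 (Finset.mem_range.1 hi)
        rw [show p + 1 - i = (p - i) + 1 by omega, Nat.choose_succ_succ m (p - i)]
        push_cast
        ring
      · simp
    have h3 : ∀ i ∈ range (p + 1), ((A : ℝ) - r) * ((-1 : ℝ) ^ (i + 1) *
          ((p + 1).choose (i + 1) : ℝ) * (r.choose i : ℝ) * (m.choose (p - i) : ℝ) /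
            ((A.choose (i + 1) : ℝ) * (B.choose (p - i) : ℝ))) +
        ((B : ℝ) - m) * ((-1 : ℝ) ^ i * ((p + 1).choose i : ℝ) *
          (r.choose i : ℝ) * (m.choose (p - i) : ℝ) /
            ((A.choose i : ℝ) * (B.choose (p - i + 1) : ℝ))) =
        - (((i : ℝ) + 1) * ((-1 : ℝ) ^ (i + 1) * ((p + 1).choose (i + 1) : ℝ) *
          (r.choose (i + 1) : ℝ) * (m.choose (p + 1 - (i + 1)) : ℝ) /
            ((A.choose (i + 1) : ℝ) * (B.choose (p + 1 - (i + 1)) : ℝ)))) -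
        ((p : ℝ) + 1 - i) * ((-1 : ℝ) ^ i * ((p + 1).choose i : ℝ) * (r.choose i : ℝ) *
          (m.choose (p + 1 - i) : ℝ) / ((A.choose i : ℝ) * (B.choose (p + 1 - i) : ℝ))) := by
      intro i hi
      have hi' : i ≤ p := Nat.lt_succ_iff.1 (Finset.mem_range.1 hi)
      obtain ⟨j, rfl⟩ := Nat.exists_eq_add_of_le hi'
      have e1 : i + j - i = j := by omega
      have e2 : i + j + 1 - (i + 1) = j := by omega
      have e3 : i + j + 1 - i = j + 1 := by omega
      rw [e1, e2, e3, kapId_term A B r m i j (by omega) (by omega)]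
      push_cast
      ring
    have h4 : ((A : ℝ) - r) * (∑ i ∈ range (p + 1), (-1 : ℝ) ^ (i + 1) *
          ((p + 1).choose (i + 1) : ℝ) * (r.choose i : ℝ) * (m.choose (p - i) : ℝ) /
            ((A.choose (i + 1) : ℝ) * (B.choose (p - i) : ℝ))) +
        ((B : ℝ) - m) * (∑ i ∈ range (p + 1), (-1 : ℝ) ^ i * ((p + 1).choose i : ℝ) *
          (r.choose i : ℝ) * (m.choose (p - i) : ℝ) /
            ((A.choose i : ℝ) * (B.choose (p - i + 1) : ℝ))) =
        - ((p : ℝ) + 1) * kap A B (p + 1) r m := by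
      rw [Finset.mul_sum, Finset.mul_sum, ← Finset.sum_add_distrib, Finset.sum_congr rfl h3,
        Finset.sum_sub_distrib, Finset.sum_neg_distrib]
      have k1 : ∑ i ∈ range (p + 1), ((i : ℝ) + 1) * ((-1 : ℝ) ^ (i + 1) *
          ((p + 1).choose (i + 1) : ℝ) * (r.choose (i + 1) : ℝ) *
          (m.choose (p + 1 - (i + 1)) : ℝ) /
            ((A.choose (i + 1) : ℝ) * (B.choose (p + 1 - (i + 1)) : ℝ))) =
          ∑ i ∈ range (p + 2), (i : ℝ) * ((-1 : ℝ) ^ i * ((p + 1).choose i : ℝ) *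
            (r.choose i : ℝ) * (m.choose (p + 1 - i) : ℝ) /
            ((A.choose i : ℝ) * (B.choose (p + 1 - i) : ℝ))) := by
        rw [Finset.sum_range_succ' _ (p + 1)]
        simp only [Nat.cast_zero, zero_mul, add_zero]
        refine Finset.sum_congr rfl fun i _ => ?_
        push_cast
        ring
      have k2 : ∑ i ∈ range (p + 1), ((p : ℝ) + 1 - i) * ((-1 : ℝ) ^ i * ((p + 1).choose i : ℝ) *
            (r.choose i : ℝ) * (m.choose (p + 1 - i) : ℝ) /
            ((A.choose i : ℝ) * (B.choose (p + 1 - i) : ℝ))) =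
          ∑ i ∈ range (p + 2), ((p : ℝ) + 1 - i) * ((-1 : ℝ) ^ i * ((p + 1).choose i : ℝ) *
            (r.choose i : ℝ) * (m.choose (p + 1 - i) : ℝ) /
            ((A.choose i : ℝ) * (B.choose (p + 1 - i) : ℝ))) := by
        rw [Finset.sum_range_succ _ (p + 1)]
        push_cast
        ring
      rw [k1, k2]
      unfold kap
      rw [Finset.mul_sum, ← Finset.sum_neg_distrib, ← Finset.sum_sub_distrib]
      refine Finset.sum_congr rfl fun i _ => ?_
      ring
    rw [h1, h2]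
    push_cast
    linear_combination h4

end Vale.Agent.P359
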