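import Vale.Agent.Lib.P359.Sector
import Vale.Agent.Lib.P359.Ww

/-!
# P359 / KerUniq : at `Q = 3(N-1)` a kernel vector vanishing at the root configuration is zero

Let `g` be supported on sets of cardinality `N`, `b_s g = 0` for all `s ≤ 2Q-2`, `g(root) = 0`,
`root = {0, 3, 6, …, 3(N-1)}`.  Suppose `g ≠ 0` and choose `S` in the support of `g` with
`Σ_{k∈S} k²` maximal.  If `S` has two elements `a < b` with `b - a ≤ 2`, put `R = S \ {a,b}`,
`s = a + b - 1`: `0 = (b_s g)(R) = Σ_{a'<b', a'+b'=a+b} w_s(a',b') (± g(R ∪ {a',b'}))`.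
A pair with `b'-a' > b-a` gives a set with larger `Σ k²`
(`a'²+b'² = ((a+b)² + (b'-a')²)/2`), so `g = 0` there; there is no pair with `0 < b'-a' < b-a ≤ 2` of the
same parity; hence `w_s(a,b) g(S) = 0` and `w_s(a,b) ≠ 0` (`ww_eq`, `a ≠ b`, `a,b ≤ Q`,
`s ≤ 2Q-2`), contradiction.  So all gaps of `S` are `≥ 3`, and `N` elements of `{0,…,3(N-1)}`
with gaps `≥ 3` are exactly the root configuration.
-/

namespace Vale.Agent.P359

open Finset Matrix

/-- the root configuration -/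
def root (N : ℕ) : Finset (Fin (3 * (N - 1) + 1)) := univ.filter fun k => 3 ∣ (k : ℕ)

theorem gaps_root (N : ℕ) (hN : 2 ≤ N) (S : Finset (Fin (3 * (N - 1) + 1))) (hS : S.card = N)
    (hgap : ∀ a ∈ S, ∀ b ∈ S, a < b → (a : ℕ) + 3 ≤ b) : S = root N := by
  set e := S.orderEmbOfFin hS with he
  have hmem : ∀ i, e i ∈ S := fun i => Finset.orderEmbOfFin_mem S hS i
  have hstep : ∀ (i j : Fin N), (i : ℕ) + 1 = j → ((e i : Fin _) : ℕ) + 3 ≤ (e j : Fin _) := by
    intro i j hij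
    refine hgap _ (hmem i) _ (hmem j) ?_
    exact e.lt_iff_lt.mpr (by rw [Fin.lt_def]; omega)
  have hlow : ∀ (k : ℕ) (hk : k < N), 3 * k ≤ ((e ⟨k, hk⟩ : Fin _) : ℕ) := by
    intro k
    induction k with
    | zero => intro hk; omega
    | succ k ih =>
      intro hk
      have h1 := ih (by omega)
      have h2 := hstep ⟨k, by omega⟩ ⟨k + 1, hk⟩ rfl
      omega
  have hup : ∀ (k : ℕ) (hk : k < N), ((e ⟨N - 1 - k, by omega⟩ : Fin _) : ℕ) ≤ 3 * (N - 1 - k) := by
    intro k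
    induction k with
    | zero =>
      intro hk
      have := (e ⟨N - 1 - 0, by omega⟩).isLt
      omega
    | succ k ih =>
      intro hk
      have h1 := ih (by omega)
      have h2 := hstep ⟨N - 1 - (k + 1), by omega⟩ ⟨N - 1 - k, by omega⟩ (by simp only; omega)
      omega
  have heq : ∀ (k : ℕ) (hk : k < N), ((e ⟨k, hk⟩ : Fin _) : ℕ) = 3 * k := by
    intro k hk
    have h1 := hlow k hk
    have h2 := hup (N - 1 - k) (by omega)
    have h3 : (⟨N - 1 - (N - 1 - k), by omega⟩ : Fin N) = ⟨k, hk⟩ := Fin.ext (by simp only; omega)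
    rw [h3] at h2
    omega
  ext x
  simp only [root, Finset.mem_filter, Finset.mem_univ, true_and]
  constructor
  · intro hx
    have hx' : x ∈ Set.range e := by
      rw [he, Finset.range_orderEmbOfFin]; exact hx
    obtain ⟨i, hi⟩ := hx'
    have := heq i i.isLt
    rw [← hi]
    exact ⟨(i : ℕ), by rw [← this]⟩
  · rintro ⟨k, hk⟩
    have hxlt := x.isLt
    have hkN : k < N := by omega
    have h1 := heq k hkN
    have h2 : e ⟨k, hkN⟩ = x := Fin.ext (by rw [h1, hk])
    rw [← h2]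
    exact hmem _

theorem ku_bb_apply (Q s : ℕ) (g : Finset (Fin (Q + 1)) → ℝ) (R : Finset (Fin (Q + 1))) :
    (bb Q s *ᵥ g) R = (1 / 2 : ℝ) * ∑ a : Fin (Q + 1), ∑ b : Fin (Q + 1),
      ww Q s a b * ((cc Q b * cc Q a) *ᵥ g) R := by
  unfold bb
  simp only [Matrix.smul_mulVec, Matrix.sum_mulVec, Finset.sum_apply, Pi.smul_apply, smul_eq_mul]

theorem ku_cc_apply (Q : ℕ) (a b : Fin (Q + 1)) (g : Finset (Fin (Q + 1)) → ℝ)
    (R : Finset (Fin (Q + 1))) (hb : b ∉ R) (ha : a ∉ insert b R) :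
    ((cc Q b * cc Q a) *ᵥ g) R
      = sgn b R * (sgn a (insert b R) * g (insert a (insert b R))) := by
  rw [← Matrix.mulVec_mulVec, cc_mulVec, if_neg hb, cc_mulVec, if_neg ha]

theorem ku_cc_zero (Q : ℕ) (a b : Fin (Q + 1)) (g : Finset (Fin (Q + 1)) → ℝ)
    (R : Finset (Fin (Q + 1))) (h : b ∈ R ∨ a ∈ insert b R) :
    ((cc Q b * cc Q a) *ᵥ g) R = 0 := by
  rw [← Matrix.mulVec_mulVec, cc_mulVec]
  by_cases hb : b ∈ R
  · rw [if_pos hb]
  · rw [if_neg hb, cc_mulVec, if_pos (h.resolve_left hb), mul_zero]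

theorem ku_sgn_ne {n : ℕ} (m : Fin n) (R : Finset (Fin n)) : sgn m R ≠ 0 := by
  unfold sgn
  exact pow_ne_zero _ (by norm_num)

theorem ku_gap (Q : ℕ) (hQ : 1 ≤ Q) (g : Finset (Fin (Q + 1)) → ℝ)
    (hker : ∀ s ∈ range (2 * Q - 2 + 1), bb Q s *ᵥ g = 0)
    (S : Finset (Fin (Q + 1))) (hgS : g S ≠ 0)
    (hSmax : ∀ T : Finset (Fin (Q + 1)), g T ≠ 0 →
      ∑ k ∈ T, (k : ℕ) ^ 2 ≤ ∑ k ∈ S, (k : ℕ) ^ 2) :
    ∀ a ∈ S, ∀ b ∈ S, a < b → (a : ℕ) + 3 ≤ b := by
  classical
  by_contra hgap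
  push Not at hgap
  obtain ⟨a, ha, b, hb, hab, hba⟩ := hgap
  have hab' : (a : ℕ) < b := hab
  have hbQ : (b : ℕ) ≤ Q := by have := b.isLt; omega
  set R := (S.erase b).erase a with hR
  set s := (a : ℕ) + b - 1 with hs
  have hne_ab : a ≠ b := ne_of_lt hab
  have haR : a ∉ R := by simp [hR]
  have hbR : b ∉ R := by simp [hR]
  have haR' : a ∉ insert b R := by simp [haR, hne_ab]
  have hSR : insert a (insert b R) = S := by
    rw [Finset.insert_comm]
    have h1 : insert a R = S.erase b := by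
      rw [hR]; exact Finset.insert_erase (Finset.mem_erase.mpr ⟨hne_ab, ha⟩)
    rw [h1]
    exact Finset.insert_erase hb
  have hbs := congrFun (hker s (by rw [Finset.mem_range]; omega)) R
  rw [ku_bb_apply] at hbs
  simp only [Pi.zero_apply] at hbs
  -- all other terms vanish
  have hzero : ∀ a' b' : Fin (Q + 1), ¬ (a' = a ∧ b' = b) → ¬ (a' = b ∧ b' = a) →
      ww Q s a' b' * ((cc Q b' * cc Q a') *ᵥ g) R = 0 := by
    intro a' b' h1 h2
    by_cases hsum : (a' : ℕ) + b' = s + 1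
    swap
    · rw [ww_eq Q s a' b' hQ, if_neg hsum, zero_mul]
    by_cases hdiag : a' = b'
    · rw [ww_eq Q s a' b' hQ, if_pos hsum, hdiag]; simp
    by_cases hcase : b' ∈ R ∨ a' ∈ insert b' R
    · rw [ku_cc_zero Q a' b' g R hcase, mul_zero]
    push Not at hcase
    obtain ⟨hb'R, ha'R⟩ := hcase
    rw [ku_cc_apply Q a' b' g R hb'R ha'R]
    have hgz : g (insert a' (insert b' R)) = 0 := by
      by_contra hgT
      have hle := hSmax (insert a' (insert b' R)) hgT
      rw [Finset.sum_insert ha'R, Finset.sum_insert hb'R] at hle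
      have hSsum : ∑ k ∈ S, (k : ℕ) ^ 2 = (a : ℕ) ^ 2 + ((b : ℕ) ^ 2 + ∑ k ∈ R, (k : ℕ) ^ 2) := by
        conv_lhs => rw [← hSR]
        rw [Finset.sum_insert haR', Finset.sum_insert hbR]
      rw [hSsum] at hle
      have hd : (a' : ℕ) ≠ b' := fun h => hdiag (Fin.ext h)
      have h1' : ¬ ((a' : ℕ) = a ∧ (b' : ℕ) = b) := fun h => h1 ⟨Fin.ext h.1, Fin.ext h.2⟩
      have h2' : ¬ ((a' : ℕ) = b ∧ (b' : ℕ) = a) := fun h => h2 ⟨Fin.ext h.1, Fin.ext h.2⟩
      have hsum' : (a' : ℕ) + b' = a + b := by omega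
      have hle' : (a' : ℕ) ^ 2 + (b' : ℕ) ^ 2 ≤ (a : ℕ) ^ 2 + (b : ℕ) ^ 2 := by omega
      clear hle hSsum
      generalize (a' : ℕ) = x at *
      generalize (b' : ℕ) = y at *
      generalize (a : ℕ) = p at *
      generalize (b : ℕ) = r at *
      rcases Nat.lt_or_ge x y with hxy | hxy
      · have hpx : x < p := by omega
        obtain ⟨d, hd'⟩ : ∃ d, p = x + d + 1 := ⟨p - x - 1, by omega⟩
        have hy : y = r + d + 1 := by omega
        subst hd'; subst hy
        nlinarith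
      · have hpx : y < p := by omega
        obtain ⟨d, hd'⟩ : ∃ d, p = y + d + 1 := ⟨p - y - 1, by omega⟩
        have hy : x = r + d + 1 := by omega
        subst hd'; subst hy
        nlinarith
    rw [hgz, mul_zero, mul_zero, mul_zero]
  have hsum2 : ∑ a' : Fin (Q + 1), ∑ b' : Fin (Q + 1),
      ww Q s a' b' * ((cc Q b' * cc Q a') *ᵥ g) R
      = ww Q s a b * ((cc Q b * cc Q a) *ᵥ g) R + ww Q s b a * ((cc Q a * cc Q b) *ᵥ g) R := by
    rw [Fintype.sum_eq_add a b hne_ab]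
    · congr 1
      · rw [Finset.sum_eq_single b]
        · intro b' _ hb'
          exact hzero a b' (fun h => hb' h.2) (fun h => hne_ab h.1)
        · intro h; exact absurd (Finset.mem_univ _) h
      · rw [Finset.sum_eq_single a]
        · intro b' _ hb'
          exact hzero b b' (fun h => hne_ab h.1.symm) (fun h => hb' h.2)
        · intro h; exact absurd (Finset.mem_univ _) h
    · intro a' ha'
      refine Finset.sum_eq_zero fun b' _ => ?_
      exact hzero a' b' (fun h => ha'.1 h.1) (fun h => ha'.2 h.1)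
  rw [hsum2, car_anti Q a b, ww_antisymm Q s a b hQ, Matrix.neg_mulVec, Pi.neg_apply,
    ku_cc_apply Q a b g R hbR haR', hSR] at hbs
  have hw : ww Q s a b ≠ 0 := by
    rw [ww_eq Q s a b hQ, if_pos (by omega)]
    refine mul_ne_zero ?_ ?_
    · have : (a : ℝ) < (b : ℝ) := by exact_mod_cast hab'
      exact sub_ne_zero.mpr this.ne'
    · refine (Real.sqrt_pos.mpr ?_).ne'
      have c1 : (0 : ℝ) < (Q.choose (a : ℕ) : ℝ) := by
        exact_mod_cast Nat.choose_pos (by omega)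
      have c2 : (0 : ℝ) < (Q.choose (b : ℕ) : ℝ) := by
        exact_mod_cast Nat.choose_pos (by omega)
      have c3 : (0 : ℝ) < ((2 * Q - 2).choose s : ℝ) := by
        exact_mod_cast Nat.choose_pos (by omega)
      have c4 : (0 : ℝ) < (Q : ℝ) := by exact_mod_cast (by omega : 0 < Q)
      positivity
  have hfin : ww Q s a b * (sgn b R * (sgn a (insert b R) * g S)) = 0 := by linarith
  have h1 := ku_sgn_ne b R
  have h2 := ku_sgn_ne a (insert b R)
  exact (mul_ne_zero hw (mul_ne_zero h1 (mul_ne_zero h2 hgS))) hfin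

theorem ker_uniq (N : ℕ) (hN : 2 ≤ N) (g : Finset (Fin (3 * (N - 1) + 1)) → ℝ)
    (hsupp : ∀ S, S.card ≠ N → g S = 0) (hker : HH (3 * (N - 1)) *ᵥ g = 0)
    (hroot : g (root N) = 0) : g = 0 := by
  classical
  by_contra hg
  rw [ker_iff] at hker
  have hne : (univ.filter fun S : Finset (Fin (3 * (N - 1) + 1)) => g S ≠ 0).Nonempty := by
    by_contra h
    rw [Finset.not_nonempty_iff_eq_empty, Finset.filter_eq_empty_iff] at h
    apply hg
    funext S
    have := h (Finset.mem_univ S)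
    simpa using this
  obtain ⟨S, hSmem, hSmax⟩ := Finset.exists_max_image _
    (fun S : Finset (Fin (3 * (N - 1) + 1)) => ∑ k ∈ S, (k : ℕ) ^ 2) hne
  rw [Finset.mem_filter] at hSmem
  have hgS : g S ≠ 0 := hSmem.2
  have hScard : S.card = N := by
    by_contra h; exact hgS (hsupp S h)
  have hSroot : S = root N := gaps_root N hN S hScard
    (ku_gap (3 * (N - 1)) (by omega) g hker S hgS
      (fun T hT => hSmax T (Finset.mem_filter.mpr ⟨Finset.mem_univ _, hT⟩)))
  rw [hSroot] at hgS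
  exact hgS hroot

end Vale.Agent.P359
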