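import Vale.Agent.Lib.P359.Stmt

/-!
# P359 / LPoly : the Laughlin polynomial

`p = ∏_{i<j} (u_i v_j - u_j v_i)^3`, `Q = 3(N-1)`.

* `lp_antisymm`: renaming the particles by `σ` multiplies `p` by `sign σ` (each transposition of
  indices gives `(-1)^3`, as for the Vandermonde product), hence the statement on coefficients.
-/

namespace Vale.Agent.P359

open Finset Matrix

namespace LPAnti

/-- the factor belonging to the pair `(i, j)` -/
noncomputable def fac (N : ℕ) (i j : Fin N) : MvPolynomial (Fin N × Fin 2) ℂ :=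
  (MvPolynomial.X (i, 0) * MvPolynomial.X (j, 1)
      - MvPolynomial.X (j, 0) * MvPolynomial.X (i, 1)) ^ 3

theorem fac_neg (N : ℕ) (i j : Fin N) : fac N i j = - fac N j i := by
  unfold fac
  ring

theorem lp_eq (N : ℕ) :
    Stmt.laughlinPoly N = ∏ j : Fin N, ∏ i ∈ Finset.Iio j, fac N i j := by
  unfold Stmt.laughlinPoly
  rw [Finset.prod_sigma']
  refine Finset.prod_bij' (fun p _ => (⟨p.2, p.1⟩ : Σ _ : Fin N, Fin N))
    (fun p _ => (p.2, p.1)) ?_ ?_ ?_ ?_ ?_
  · intro p hp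
    simpa using hp
  · intro p hp
    simpa using hp
  · intro p hp
    rfl
  · intro p hp
    rfl
  · intro p hp
    rfl

/-- renaming of the particles -/
def ren {N : ℕ} (σ : Equiv.Perm (Fin N)) : Fin N × Fin 2 → Fin N × Fin 2 := fun p => (σ p.1, p.2)

theorem ren_inj {N : ℕ} (σ : Equiv.Perm (Fin N)) : Function.Injective (ren σ) := by
  intro p q h
  unfold ren at h
  have h1 := congrArg Prod.fst h
  have h2 := congrArg Prod.snd h
  exact Prod.ext (σ.injective h1) h2

theorem rename_fac {N : ℕ} (σ : Equiv.Perm (Fin N)) (i j : Fin N) :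
    MvPolynomial.rename (ren σ) (fac N i j) = fac N (σ i) (σ j) := by
  unfold fac ren
  simp [map_pow, map_sub, map_mul, MvPolynomial.rename_X]

theorem rename_lp {N : ℕ} (σ : Equiv.Perm (Fin N)) :
    MvPolynomial.rename (ren σ) (Stmt.laughlinPoly N)
      = MvPolynomial.C (((Equiv.Perm.sign σ : ℤˣ) : ℤ) : ℂ) * Stmt.laughlinPoly N := by
  rw [lp_eq, map_prod]
  simp only [map_prod, rename_fac]
  rw [Equiv.Perm.prod_Iio_comp_eq_sign_mul_prod (R := MvPolynomial (Fin N × Fin 2) ℂ) σ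
    (f := fac N) (fac_neg N)]
  congr 1

theorem expo_ren {N : ℕ} (σ : Equiv.Perm (Fin N)) (x : Fin N → Fin (3 * (N - 1) + 1)) :
    (Stmt.expo (x ∘ σ)).mapDomain (ren σ) = Stmt.expo x := by
  ext p
  obtain ⟨q, rfl⟩ : ∃ q, ren σ q = p := ⟨(σ.symm p.1, p.2), by simp [ren]⟩
  rw [Finsupp.mapDomain_apply (ren_inj σ)]
  simp [Stmt.expo, ren]

end LPAnti

theorem lp_antisymm (N : ℕ) (σ : Equiv.Perm (Fin N)) (x : Fin N → Fin (3 * (N - 1) + 1)) :
    (Stmt.laughlinPoly N).coeff (Stmt.expo (x ∘ σ))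
      = (((Equiv.Perm.sign σ : ℤˣ) : ℤ) : ℂ) * (Stmt.laughlinPoly N).coeff (Stmt.expo x) := by
  rw [← MvPolynomial.coeff_rename_mapDomain (LPAnti.ren σ) (LPAnti.ren_inj σ),
    LPAnti.expo_ren, LPAnti.rename_lp, MvPolynomial.coeff_C_mul]

end Vale.Agent.P359
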