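import Vale.Agent.Lib.P359.LPHom

/-!
# P359 / LPoly : the Laughlin polynomial

`p = ∏_{i<j} (u_i v_j - u_j v_i)^3`, `Q = 3(N-1)`.

* `lp_deriv`: for `i ≠ j`, `y`, `M`: `Σ_{a+b=M} (b-a) coeff(x with x_i = a, x_j = b) = 0`.
  Let `D = v_j ∂_{v_j} - v_i ∂_{v_i}` (a derivation, multiplies a monomial by `b - a`).  Since
  `(u_i v_j - u_j v_i)^3 ∣ p`, `(u_i v_j - u_j v_i)^2 ∣ D p`, so `D p` is mapped to `0` by the algebra map
  that identifies `u_j ↦ u_i`, `v_j ↦ v_i`; compare the coefficients of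
  `u_i^{2Q-M} v_i^M ∏_{k≠i,j} …` (homogeneity `lp_hom` says which monomials contribute).
-/

namespace Vale.Agent.P359

open Finset Matrix

namespace LPD

open MvPolynomial

variable {N : ℕ}

/-- the derivation `v_j ∂_{v_j} - v_i ∂_{v_i}` -/
noncomputable def Dv (i j : Fin N) :
    Derivation ℂ (MvPolynomial (Fin N × Fin 2) ℂ) (MvPolynomial (Fin N × Fin 2) ℂ) :=
  (X (j, 1) : MvPolynomial (Fin N × Fin 2) ℂ) • pderiv (j, 1)
    - (X (i, 1) : MvPolynomial (Fin N × Fin 2) ℂ) • pderiv (i, 1)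

theorem Dv_apply (i j : Fin N) (q : MvPolynomial (Fin N × Fin 2) ℂ) :
    Dv i j q = X (j, 1) * pderiv (j, 1) q - X (i, 1) * pderiv (i, 1) q := by
  simp [Dv]

theorem coeff_X_mul_pderiv (s : Fin N × Fin 2) (q : MvPolynomial (Fin N × Fin 2) ℂ)
    (d : Fin N × Fin 2 →₀ ℕ) :
    (X s * pderiv s q).coeff d = (d s : ℂ) * q.coeff d := by
  induction q using MvPolynomial.induction_on' with
  | monomial m r =>
    rw [X_mul_pderiv_monomial, coeff_smul, coeff_monomial, nsmul_eq_mul]
    split_ifs with h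
    · rw [h]
    · simp
  | add p q hp hq => rw [map_add, mul_add, coeff_add, hp, hq, coeff_add, mul_add]

theorem coeff_Dv (i j : Fin N) (q : MvPolynomial (Fin N × Fin 2) ℂ) (d : Fin N × Fin 2 →₀ ℕ) :
    (Dv i j q).coeff d = ((d (j, 1) : ℂ) - (d (i, 1) : ℂ)) * q.coeff d := by
  rw [Dv_apply, coeff_sub, coeff_X_mul_pderiv, coeff_X_mul_pderiv, sub_mul]

/-- the identification `j ↦ i` -/
def idm (i j : Fin N) (s : Fin N × Fin 2) : Fin N × Fin 2 := if s.1 = j then (i, s.2) else s

theorem coeff_rename (f : Fin N × Fin 2 → Fin N × Fin 2) (q : MvPolynomial (Fin N × Fin 2) ℂ)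
    (e : Fin N × Fin 2 →₀ ℕ) :
    (rename f q).coeff e = ∑ d ∈ q.support, if d.mapDomain f = e then q.coeff d else 0 := by
  conv_lhs => rw [q.as_sum]
  rw [map_sum, coeff_sum]
  refine Finset.sum_congr rfl fun d _ => ?_
  rw [rename_monomial, coeff_monomial]

theorem rename_w (i j : Fin N) :
    rename (idm i j) ((X (i, 0) * X (j, 1) - X (j, 0) * X (i, 1) :
      MvPolynomial (Fin N × Fin 2) ℂ)) = 0 := by
  by_cases h : i = j
  · subst h
    simp
  · simp [idm]

theorem rename_Dv_of_dvd (i j : Fin N) {p : MvPolynomial (Fin N × Fin 2) ℂ}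
    (h : ((X (i, 0) * X (j, 1) - X (j, 0) * X (i, 1) :
      MvPolynomial (Fin N × Fin 2) ℂ)) ^ 3 ∣ p) : rename (idm i j) (Dv i j p) = 0 := by
  obtain ⟨r, rfl⟩ := h
  set w := (X (i, 0) * X (j, 1) - X (j, 0) * X (i, 1) : MvPolynomial (Fin N × Fin 2) ℂ) with hw
  have h0 : rename (idm i j) w = 0 := rename_w i j
  have h1 : w ^ 3 * r = w * (w * (w * r)) := by ring
  rw [h1, Derivation.leibniz, Derivation.leibniz]
  simp only [smul_eq_mul, map_add, map_mul, h0, zero_mul, mul_zero, add_zero]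

/-- the factors of the Laughlin polynomial -/
noncomputable def fw (p : Fin N × Fin N) : MvPolynomial (Fin N × Fin 2) ℂ :=
  (X (p.1, 0) * X (p.2, 1) - X (p.2, 0) * X (p.1, 1)) ^ 3

theorem fw_dvd (s : Fin N × Fin N) (h : s.1 < s.2) : fw s ∣ Stmt.laughlinPoly N := by
  have h1 : Stmt.laughlinPoly N =
      ∏ p ∈ (univ : Finset (Fin N × Fin N)).filter (fun p => p.1 < p.2), fw p := rfl
  rw [h1]
  exact Finset.dvd_prod_of_mem fw (by simp [h])

theorem w_dvd (i j : Fin N) (hij : i ≠ j) :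
    ((X (i, 0) * X (j, 1) - X (j, 0) * X (i, 1) :
      MvPolynomial (Fin N × Fin 2) ℂ)) ^ 3 ∣ Stmt.laughlinPoly N := by
  rcases lt_or_gt_of_ne hij with h | h
  · exact fw_dvd (i, j) h
  · have h1 := fw_dvd (j, i) h
    have h2 : ((X (i, 0) * X (j, 1) - X (j, 0) * X (i, 1) :
      MvPolynomial (Fin N × Fin 2) ℂ)) ^ 3 = -(fw (j, i)) := by
      rw [fw]; ring
    rw [h2]
    exact (neg_dvd).2 h1

theorem expo_apply {Q : ℕ} (x : Fin N → Fin (Q + 1)) (k : Fin N) (c : Fin 2) :
    Stmt.expo x (k, c) = if c = 0 then Q - (x k : ℕ) else (x k : ℕ) := rfl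

/-- the exponent with `x_i = a`, `x_j = b` -/
noncomputable def ex {Q : ℕ} (i j : Fin N) (x : Fin N → Fin (Q + 1)) (s : Fin (Q + 1) × Fin (Q + 1)) :
    Fin N × Fin 2 →₀ ℕ :=
  Stmt.expo (Function.update (Function.update x i s.1) j s.2)

theorem ex_injective {Q : ℕ} {i j : Fin N} (hij : i ≠ j) (x : Fin N → Fin (Q + 1)) :
    Function.Injective (ex i j x) := by
  intro s t h
  have h1 : ex i j x s (i, 1) = ex i j x t (i, 1) := by rw [h]
  have h2 : ex i j x s (j, 1) = ex i j x t (j, 1) := by rw [h]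
  simp only [ex, expo_apply] at h1 h2
  simp [hij] at h1 h2
  exact Prod.ext (Fin.ext h1) (Fin.ext h2)

theorem mapDomain_apply' (i j : Fin N) (hij : i ≠ j) (d : Fin N × Fin 2 →₀ ℕ) (k : Fin N)
    (c : Fin 2) :
    d.mapDomain (idm i j) (k, c) =
      if k = j then 0 else if k = i then d (i, c) + d (j, c) else d (k, c) := by
  classical
  rw [Finsupp.mapDomain, Finsupp.sum_apply, Finsupp.sum_fintype _ _ (by simp)]
  simp only [Finsupp.single_apply, idm]
  rw [Fintype.sum_prod_type]
  split_ifs with h1 h2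
  · refine Finset.sum_eq_zero fun a _ => Finset.sum_eq_zero fun b _ => ?_
    rw [if_neg]
    intro h
    split_ifs at h with h3
    · exact hij ((Prod.ext_iff.1 h).1.trans h1)
    · exact h3 ((Prod.ext_iff.1 h).1.trans h1)
  · subst h2
    rw [← Finset.add_sum_erase _ _ (Finset.mem_univ k),
      ← Finset.add_sum_erase _ _ (show j ∈ univ.erase k by simp [hij.symm])]
    rw [Finset.sum_eq_single c, Finset.sum_eq_single c, Finset.sum_eq_zero]
    · simp [h1]
    · intro a ha
      refine Finset.sum_eq_zero fun b _ => ?_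
      rw [if_neg]
      intro h
      simp only [mem_erase] at ha
      rw [if_neg (by simpa using ha.1)] at h
      exact ha.2.1 (Prod.ext_iff.1 h).1
    · intro b _ hb
      rw [if_neg]
      intro h
      simp at h
      exact hb h
    · simp
    · intro b _ hb
      rw [if_neg]
      intro h
      simp [h1] at h
      exact hb h
    · simp
  · rw [Finset.sum_eq_single k, Finset.sum_eq_single c]
    · simp [h1]
    · intro b _ hb
      rw [if_neg]
      intro h
      simp [h1] at h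
      exact hb h
    · simp
    · intro a _ ha
      refine Finset.sum_eq_zero fun b _ => ?_
      rw [if_neg]
      intro h
      split_ifs at h with h3
      · exact h2 (Prod.ext_iff.1 h).1.symm
      · exact ha (Prod.ext_iff.1 h).1
    · simp

theorem ex_j {Q : ℕ} (i j : Fin N) (x : Fin N → Fin (Q + 1)) (s : Fin (Q + 1) × Fin (Q + 1))
    (c : Fin 2) : ex i j x s (j, c) = if c = 0 then Q - (s.2 : ℕ) else (s.2 : ℕ) := by
  simp [ex, expo_apply]

theorem ex_i {Q : ℕ} {i j : Fin N} (hij : i ≠ j) (x : Fin N → Fin (Q + 1))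
    (s : Fin (Q + 1) × Fin (Q + 1))
    (c : Fin 2) : ex i j x s (i, c) = if c = 0 then Q - (s.1 : ℕ) else (s.1 : ℕ) := by
  simp [ex, expo_apply, hij]

theorem ex_k {Q : ℕ} {i j k : Fin N} (hi : k ≠ i) (hj : k ≠ j) (x : Fin N → Fin (Q + 1))
    (s : Fin (Q + 1) × Fin (Q + 1))
    (c : Fin 2) : ex i j x s (k, c) = if c = 0 then Q - (x k : ℕ) else (x k : ℕ) := by
  simp [ex, expo_apply, hi, hj]

theorem map_ex_eq {Q : ℕ} {i j : Fin N} (hij : i ≠ j) (x : Fin N → Fin (Q + 1))
    (s t : Fin (Q + 1) × Fin (Q + 1)) (h : (s.1 : ℕ) + s.2 = t.1 + t.2) :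
    (ex i j x s).mapDomain (idm i j) = (ex i j x t).mapDomain (idm i j) := by
  ext ⟨k, c⟩
  rw [mapDomain_apply' i j hij, mapDomain_apply' i j hij]
  have h1 := s.1.isLt
  have h2 := s.2.isLt
  have h3 := t.1.isLt
  have h4 := t.2.isLt
  split_ifs with ha hb
  · rfl
  · rw [ex_i hij, ex_i hij, ex_j, ex_j]
    split_ifs
    · omega
    · omega
  · rw [ex_k hb ha, ex_k hb ha]

end LPD

open LPD MvPolynomial in
theorem lp_deriv (N : ℕ) (i j : Fin N) (hij : i ≠ j) (x : Fin N → Fin (3 * (N - 1) + 1))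
    (M : ℕ) :
    ∑ a : Fin (3 * (N - 1) + 1), ∑ b : Fin (3 * (N - 1) + 1),
      (if (a : ℕ) + b = M then (((b : ℕ) : ℂ) - ((a : ℕ) : ℂ)) *
        (Stmt.laughlinPoly N).coeff
          (Stmt.expo (Function.update (Function.update x i a) j b)) else 0) = 0 := by
  classical
  by_cases hex : ∃ a₀ b₀ : Fin (3 * (N - 1) + 1), (a₀ : ℕ) + b₀ = M
  swap
  · refine Finset.sum_eq_zero fun a _ => Finset.sum_eq_zero fun b _ => ?_
    rw [if_neg fun h => hex ⟨a, b, h⟩]
  obtain ⟨a₀, b₀, hab⟩ := hex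
  set p := Stmt.laughlinPoly N with hp
  set q := Dv i j p with hq
  set e := (ex i j x (a₀, b₀)).mapDomain (idm i j) with he
  have h0 : (rename (idm i j) q).coeff e = 0 := by
    rw [hq, rename_Dv_of_dvd i j (w_dvd i j hij), coeff_zero]
  rw [LPD.coeff_rename, ← Finset.sum_filter] at h0
  rw [← Finset.sum_product' (f := fun a b : Fin (3 * (N - 1) + 1) =>
    (if (a : ℕ) + b = M then (((b : ℕ) : ℂ) - ((a : ℕ) : ℂ)) *
        p.coeff (Stmt.expo (Function.update (Function.update x i a) j b)) else 0)),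
    ← Finset.sum_filter]
  rw [← h0]
  refine Finset.sum_bij_ne_zero (fun s _ _ => ex i j x s) ?_ ?_ ?_ ?_
  · intro s hs hne
    rw [Finset.mem_filter] at hs
    rw [Finset.mem_filter, MvPolynomial.mem_support_iff, hq, coeff_Dv, ex_j, ex_i hij,
      if_neg (by simp), if_neg (by simp)]
    refine ⟨hne, map_ex_eq hij x s (a₀, b₀) ?_⟩
    rw [hs.2, ← hab]
  · intro s _ _ t _ _ h
    exact ex_injective hij x h
  · intro d hd hne
    rw [Finset.mem_filter, MvPolynomial.mem_support_iff, hq, coeff_Dv] at hd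
    obtain ⟨hd1, hd2⟩ := hd
    have hd3 : p.coeff d ≠ 0 := right_ne_zero_of_mul hd1
    have hh := lp_hom N d hd3
    have hmi : d (i, 1) < 3 * (N - 1) + 1 := by have := hh i; omega
    have hmj : d (j, 1) < 3 * (N - 1) + 1 := by have := hh j; omega
    have hev : ∀ k c, d.mapDomain (idm i j) (k, c) = e (k, c) := fun k c => by rw [hd2]
    have hexd : ex i j x (⟨d (i, 1), hmi⟩, ⟨d (j, 1), hmj⟩) = d := by
      ext ⟨k, c⟩
      by_cases hkj : k = j
      · subst hkj
        rw [ex_j]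
        have h1 := hh k
        rcases (show c = 0 ∨ c = 1 by omega) with hc | hc
        · subst hc
          simp only [if_true]
          omega
        · subst hc
          simp
      by_cases hki : k = i
      · subst hki
        rw [ex_i hij]
        have h1 := hh k
        rcases (show c = 0 ∨ c = 1 by omega) with hc | hc
        · subst hc
          simp only [if_true]
          omega
        · subst hc
          simp
      · have h1 := hev k c
        rw [he, mapDomain_apply' i j hij, mapDomain_apply' i j hij, if_neg hkj, if_neg hki,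
          if_neg hkj, if_neg hki, ex_k hki hkj] at h1
        rw [ex_k hki hkj, h1]
    have hsum : d (i, 1) + d (j, 1) = M := by
      have h1 := hev i 1
      rw [he, mapDomain_apply' i j hij, mapDomain_apply' i j hij, if_neg hij, if_pos rfl,
        if_neg hij, if_pos rfl, ex_i hij, ex_j, if_neg (by simp), if_neg (by simp)] at h1
      rw [h1]
      exact hab
    refine ⟨(⟨d (i, 1), hmi⟩, ⟨d (j, 1), hmj⟩), ?_, ?_, hexd⟩
    · rw [Finset.mem_filter]
      exact ⟨by simp, hsum⟩
    · have h1 : Stmt.expo (Function.update (Function.update x i ⟨d (i, 1), hmi⟩) j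
          ⟨d (j, 1), hmj⟩) = d := hexd
      simp only [h1]
      exact hd1
  · intro s hs hne
    rw [hq, coeff_Dv, ex_j, ex_i hij, if_neg (by simp), if_neg (by simp)]
    rfl

end Vale.Agent.P359
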