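import Vale.Agent.Lib.P359.Stmt

/-!
# P359 / LPHom : homogeneity, integrality, nonvanishing of the Laughlin polynomial

`p = ∏_{i<j} (u_i v_j - u_j v_i)^3`, `Q = 3(N-1)`.
-/

namespace Vale.Agent.P359

open Finset Matrix

/-- the weight counting the degree in the pair `(u_i, v_i)` -/
def lphomW (N : ℕ) (i : Fin N) : Fin N × Fin 2 → ℕ := fun p => if p.1 = i then 1 else 0

theorem lphom_factor (N : ℕ) (i a b : Fin N) :
    MvPolynomial.IsWeightedHomogeneous (lphomW N i)
      ((MvPolynomial.X (a, 0) * MvPolynomial.X (b, 1)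
      - MvPolynomial.X (b, 0) * MvPolynomial.X (a, 1)) ^ 3 : MvPolynomial (Fin N × Fin 2) ℂ)
      (3 • ((if a = i then 1 else 0) + (if b = i then 1 else 0))) := by
  apply MvPolynomial.IsWeightedHomogeneous.pow
  have hX : ∀ (c : Fin N) (e : Fin 2), MvPolynomial.IsWeightedHomogeneous (lphomW N i)
      (MvPolynomial.X (c, e) : MvPolynomial (Fin N × Fin 2) ℂ) (if c = i then 1 else 0) := by
    intro c e
    exact MvPolynomial.isWeightedHomogeneous_X ℂ (lphomW N i) (c, e)
  have h1 := (hX a 0).mul (hX b 1)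
  have h2 := (hX b 0).mul (hX a 1)
  rw [add_comm (if b = i then 1 else 0)] at h2
  exact (MvPolynomial.weightedHomogeneousSubmodule ℂ (lphomW N i) _).sub_mem h1 h2

theorem lphom_count (N : ℕ) (i : Fin N) :
    ∑ p ∈ (univ : Finset (Fin N × Fin N)).filter (fun p => p.1 < p.2),
      (3 • ((if p.1 = i then 1 else 0) + (if p.2 = i then 1 else 0)) : ℕ) = 3 * (N - 1) := by
  rw [← Finset.smul_sum, smul_eq_mul]
  congr 1
  rw [Finset.sum_filter, Fintype.sum_prod_type]
  have h : ∀ a : Fin N, ∑ b : Fin N, (if (a, b).1 < (a, b).2 then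
      ((if (a, b).1 = i then 1 else 0) + (if (a, b).2 = i then 1 else 0)) else 0 : ℕ)
      = (if a = i then (Finset.univ.filter (fun b => a < b)).card else 0) +
        (if a < i then 1 else 0) := by
    intro a
    have h1 : ∀ b : Fin N, (if (a, b).1 < (a, b).2 then
      ((if (a, b).1 = i then 1 else 0) + (if (a, b).2 = i then 1 else 0)) else 0 : ℕ)
        = (if a = i then (if a < b then 1 else 0) else 0) + (if b = i then (if a < b then 1 else 0) else 0) := by
      intro b
      by_cases hab : a < b <;> simp [hab]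
    rw [Finset.sum_congr rfl (fun b _ => h1 b), Finset.sum_add_distrib]
    congr 1
    · by_cases ha : a = i
      · simp only [ha, if_true]
        rw [Finset.card_filter]
      · simp [ha]
    · rw [Finset.sum_ite_eq' Finset.univ i]
      simp
  rw [Finset.sum_congr rfl (fun a _ => h a), Finset.sum_add_distrib, Finset.sum_ite_eq']
  simp only [Finset.mem_univ, if_true]
  rw [← Finset.card_filter]
  have h1 : (Finset.univ.filter (fun b : Fin N => i < b)).card = N - 1 - i := by
    rw [← Fin.card_Ioi]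
    congr 1
    ext b; simp
  have h2 : (Finset.univ.filter (fun b : Fin N => b < i)).card = i := by
    rw [← Fin.card_Iio i]
    congr 1
    ext b; simp
  rw [h1, h2]
  have := i.2
  omega

theorem lp_hom (N : ℕ) (d : Fin N × Fin 2 →₀ ℕ) (hd : (Stmt.laughlinPoly N).coeff d ≠ 0)
    (i : Fin N) : d (i, 0) + d (i, 1) = 3 * (N - 1) := by
  have hh : MvPolynomial.IsWeightedHomogeneous (lphomW N i) (Stmt.laughlinPoly N)
      (∑ p ∈ (univ : Finset (Fin N × Fin N)).filter (fun p => p.1 < p.2),
      (3 • ((if p.1 = i then 1 else 0) + (if p.2 = i then 1 else 0)) : ℕ)) := by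
    unfold Stmt.laughlinPoly
    apply MvPolynomial.IsWeightedHomogeneous.prod
    intro p _
    exact lphom_factor N i p.1 p.2
  rw [lphom_count] at hh
  have h1 := hh hd
  rw [Finsupp.weight_apply, Finsupp.sum_fintype _ _ (by simp)] at h1
  rw [← h1, Fintype.sum_prod_type]
  simp only [lphomW, Fin.sum_univ_two, smul_eq_mul]
  rw [Finset.sum_eq_single i]
  · simp
  · intro b _ hb
    simp [hb]
  · simp

theorem lp_real (N : ℕ) (d : Fin N × Fin 2 →₀ ℕ) :
    (starRingEnd ℂ) ((Stmt.laughlinPoly N).coeff d) = (Stmt.laughlinPoly N).coeff d := by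
  have h : MvPolynomial.map (starRingEnd ℂ) (Stmt.laughlinPoly N) = Stmt.laughlinPoly N := by
    unfold Stmt.laughlinPoly
    simp only [map_prod, map_pow, map_sub, map_mul, MvPolynomial.map_X]
  rw [← MvPolynomial.coeff_map, h]

theorem lphom_ne_zero (N : ℕ) : Stmt.laughlinPoly N ≠ 0 := by
  unfold Stmt.laughlinPoly
  rw [Finset.prod_ne_zero_iff]
  intro p hp
  rw [Finset.mem_filter] at hp
  apply pow_ne_zero
  intro h0
  have h1 := congrArg (MvPolynomial.eval (fun q : Fin N × Fin 2 =>
    if q = (p.1, 0) ∨ q = (p.2, 1) then (1 : ℂ) else 0)) h0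
  have h2 : p.1 ≠ p.2 := hp.2.ne
  simp [h2, h2.symm] at h1

theorem lp_ne (N : ℕ) : ∃ x : Fin N → Fin (3 * (N - 1) + 1),
    (Stmt.laughlinPoly N).coeff (Stmt.expo x) ≠ 0 := by
  obtain ⟨d, hd⟩ := MvPolynomial.ne_zero_iff.1 (lphom_ne_zero N)
  have hh := fun i => lp_hom N d hd i
  refine ⟨fun i => ⟨d (i, 1), by have := hh i; omega⟩, ?_⟩
  have he : Stmt.expo (fun i => (⟨d (i, 1), by have := hh i; omega⟩ : Fin (3 * (N - 1) + 1))) = d := by
    ext ⟨i, e⟩
    unfold Stmt.expo
    simp only [Finsupp.equivFunOnFinite_symm_apply_apply]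
    have := hh i
    fin_cases e
    · simp; omega
    · simp
  rw [he]
  exact hd

end Vale.Agent.P359
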