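import Vale.Agent.Lib.P359.LPoly
import Vale.Agent.Lib.P359.FockIn
import Vale.Agent.Lib.P359.FockEv
import Vale.Agent.Lib.P359.KerUniq
import Vale.Agent.Lib.P359.Ww
import Vale.Agent.Lib.P359.HamFock

/-!
# P359 / Laugh : the Laughlin vector is antisymmetric, real, nonzero and in the kernel

* `laughlin_mem`: from `lp_antisymm` (the denominators `∏_i √C(Q,x_i)` are symmetric).
* `laughlin_real`: from `lp_real`.
* `laughlin_ne`: from `lp_ne`.
* `laughlin_ker`: by `fock_pair` it suffices that for all `s`, `y`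
  `Σ_{a,b} cgv Q Q 1 s a b Ψ_L(a,b,y) = 0`; `cgv Q Q 1 s a b = (b-a) √(C(Q,a)C(Q,b)) · const` on
  `a+b=s+1` (`ww_eq`) cancels the denominators `√C(Q,a) √C(Q,b)`, and `lp_deriv` with `i = 0`, `j = 1`
  gives `0`.
-/

namespace Vale.Agent.P359

open Finset Matrix

theorem laughlin_apply (N : ℕ) (x : Fin N → Fin (3 * (N - 1) + 1)) :
    Stmt.laughlin N x = (Stmt.laughlinPoly N).coeff (Stmt.expo x)
      / ((∏ i, √(((3 * (N - 1)).choose (x i) : ℕ) : ℝ) : ℝ) : ℂ) := rfl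

theorem laughlin_sqrt_pos (Q : ℕ) (a : Fin (Q + 1)) : 0 < √((Q.choose (a : ℕ) : ℕ) : ℝ) := by
  apply Real.sqrt_pos.2
  have : 0 < Q.choose (a : ℕ) := Nat.choose_pos (Nat.lt_succ_iff.1 a.2)
  exact_mod_cast this

theorem laughlin_mem (N : ℕ) : Stmt.laughlin N ∈ Stmt.Wedge (3 * (N - 1)) N := by
  intro σ x
  rw [laughlin_apply, laughlin_apply, lp_antisymm]
  have h : (∏ i, √(((3 * (N - 1)).choose ((x ∘ σ) i) : ℕ) : ℝ) : ℝ)
      = ∏ i, √(((3 * (N - 1)).choose (x i) : ℕ) : ℝ) :=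
    Equiv.prod_comp σ (fun i => √(((3 * (N - 1)).choose (x i) : ℕ) : ℝ))
  rw [h, mul_div_assoc]

theorem laughlin_real (N : ℕ) (S : Finset (Fin (3 * (N - 1) + 1))) :
    (starRingEnd ℂ) (fockC (Stmt.laughlin N) S) = fockC (Stmt.laughlin N) S := by
  unfold fockC
  split_ifs with h
  · rw [map_mul, Complex.conj_ofReal, laughlin_apply, map_div₀, Complex.conj_ofReal, lp_real]
  · exact map_zero _

theorem laughlin_ne (N : ℕ) : Stmt.laughlin N ≠ 0 := by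
  intro h
  obtain ⟨x, hx⟩ := lp_ne N
  have h1 : Stmt.laughlin N x = 0 := by rw [h]; rfl
  rw [laughlin_apply, div_eq_zero_iff] at h1
  rcases h1 with h1 | h1
  · exact hx h1
  · have h2 : (∏ i, √(((3 * (N - 1)).choose (x i) : ℕ) : ℝ) : ℝ) = 0 :=
      Complex.ofReal_eq_zero.1 h1
    exact absurd h2 (Finset.prod_pos fun i _ => laughlin_sqrt_pos _ (x i)).ne'

/-- the pair sum of the Laughlin vector vanishes -/
theorem laughlin_pair (n s : ℕ) (y : Fin n → Fin (3 * (n + 2 - 1) + 1)) :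
    ∑ a : Fin (3 * (n + 2 - 1) + 1), ∑ b : Fin (3 * (n + 2 - 1) + 1),
      ((cgv (3 * (n + 2 - 1)) (3 * (n + 2 - 1)) 1 s a b : ℝ) : ℂ)
        * Stmt.laughlin (n + 2) (Fin.cons a (Fin.cons b y)) = 0 := by
  have hQ : 1 ≤ 3 * (n + 2 - 1) := by omega
  have hd := lp_deriv (n + 2) 0 1 (by simp)
    (Fin.cons 0 (Fin.cons 0 y) : Fin (n + 2) → Fin ((3 * (n + 2 - 1)) + 1)) (s + 1)
  set K : ℝ := ((3 * (n + 2 - 1) : ℕ) : ℝ) * ((2 * (3 * (n + 2 - 1)) - 2).choose s : ℝ) with hK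
  set κ : ℝ := (√2)⁻¹ * (√K)⁻¹ * (∏ i, √(((3 * (n + 2 - 1)).choose (y i : ℕ) : ℕ) : ℝ))⁻¹ with hκ
  have hterm : ∀ a b : Fin ((3 * (n + 2 - 1)) + 1),
      ((cgv (3 * (n + 2 - 1)) (3 * (n + 2 - 1)) 1 s a b : ℝ) : ℂ) * Stmt.laughlin (n + 2) (Fin.cons a (Fin.cons b y))
      = (κ : ℂ) * (if (a : ℕ) + b = s + 1 then (((b : ℕ) : ℂ) - ((a : ℕ) : ℂ)) *
        (Stmt.laughlinPoly (n + 2)).coeff
          (Stmt.expo (Function.update (Function.update
            (Fin.cons 0 (Fin.cons 0 y) : Fin (n + 2) → Fin ((3 * (n + 2 - 1)) + 1)) 0 a) 1 b)) else 0) := by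
    intro a b
    have hupd : Function.update (Function.update
        (Fin.cons 0 (Fin.cons 0 y) : Fin (n + 2) → Fin ((3 * (n + 2 - 1)) + 1)) 0 a) 1 b
        = Fin.cons a (Fin.cons b y) := by
      funext i
      refine Fin.cases ?_ (fun i => ?_) i
      · simp
      · refine Fin.cases ?_ (fun i => ?_) i
        · simp
        · have h1 : (i.succ.succ : Fin (n + 2)) ≠ 1 := by
            intro h
            have := congrArg Fin.val h
            simp at this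
          have h0 : (i.succ.succ : Fin (n + 2)) ≠ 0 := Fin.succ_ne_zero _
          rw [Function.update_of_ne h1, Function.update_of_ne h0]
          simp only [Fin.cons_succ]
    rw [hupd, laughlin_apply]
    have hprod : (∏ i, √(((3 * (n + 2 - 1)).choose
        ((Fin.cons a (Fin.cons b y) : Fin (n + 2) → Fin ((3 * (n + 2 - 1)) + 1)) i : ℕ) : ℕ) : ℝ) : ℝ)
        = √(((3 * (n + 2 - 1)).choose (a : ℕ) : ℕ) : ℝ) * (√(((3 * (n + 2 - 1)).choose (b : ℕ) : ℕ) : ℝ)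
          * ∏ i, √(((3 * (n + 2 - 1)).choose (y i : ℕ) : ℕ) : ℝ)) := by
      rw [Fin.prod_univ_succ, Fin.prod_univ_succ]
      simp only [Fin.cons_zero, Fin.cons_succ]
    rw [hprod]
    have hcg : cgv (3 * (n + 2 - 1)) (3 * (n + 2 - 1)) 1 s a b = (√2)⁻¹ * ww (3 * (n + 2 - 1)) s a b := by
      unfold ww
      rw [← mul_assoc, inv_mul_cancel₀ (Real.sqrt_pos.2 two_pos).ne', one_mul]
    rw [hcg, ww_eq (3 * (n + 2 - 1)) s a b hQ]
    by_cases hab : (a : ℕ) + b = s + 1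
    · rw [if_pos hab, if_pos hab]
      have ha := laughlin_sqrt_pos (3 * (n + 2 - 1)) a
      have hb := laughlin_sqrt_pos (3 * (n + 2 - 1)) b
      have hsq : √(((3 * (n + 2 - 1)).choose (a : ℕ) : ℝ) * ((3 * (n + 2 - 1)).choose (b : ℕ) : ℝ) / K)
          = √(((3 * (n + 2 - 1)).choose (a : ℕ) : ℕ) : ℝ) * √(((3 * (n + 2 - 1)).choose (b : ℕ) : ℕ) : ℝ) * (√K)⁻¹ := by
        rw [Real.sqrt_div (by positivity), Real.sqrt_mul (by positivity), div_eq_mul_inv]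
      rw [hsq, hκ]
      have hy : (∏ i, √(((3 * (n + 2 - 1)).choose (y i : ℕ) : ℕ) : ℝ)) ≠ 0 :=
        (Finset.prod_pos fun i _ => laughlin_sqrt_pos _ (y i)).ne'
      have haC : ((√(((3 * (n + 2 - 1)).choose (a : ℕ) : ℕ) : ℝ) : ℝ) : ℂ) ≠ 0 := by exact_mod_cast ha.ne'
      have hbC : ((√(((3 * (n + 2 - 1)).choose (b : ℕ) : ℕ) : ℝ) : ℝ) : ℂ) ≠ 0 := by exact_mod_cast hb.ne'
      have hyC : ((∏ i, √(((3 * (n + 2 - 1)).choose (y i : ℕ) : ℕ) : ℝ) : ℝ) : ℂ) ≠ 0 := by exact_mod_cast hy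
      push_cast at haC hbC hyC ⊢
      field_simp
    · rw [if_neg hab, if_neg hab]
      simp
  rw [Finset.sum_congr rfl fun a _ => Finset.sum_congr rfl fun b _ => hterm a b]
  simp only [← Finset.mul_sum]
  rw [hd, mul_zero]

theorem laughlin_ker (N : ℕ) (hN : 2 ≤ N) (s : ℕ) (R : Finset (Fin (3 * (N - 1) + 1))) :
    actC (bb (3 * (N - 1)) s) (fockC (Stmt.laughlin N)) R = 0 := by
  obtain ⟨n, rfl⟩ : ∃ n, N = n + 2 := ⟨N - 2, by omega⟩
  have h := fock_pair (Q := 3 * (n + 2 - 1)) (n := n) s (Stmt.laughlin (n + 2))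
    (laughlin_mem (n + 2))
  have h0 : (∑ y : Fin n → Fin (3 * (n + 2 - 1) + 1),
      ‖∑ a : Fin (3 * (n + 2 - 1) + 1), ∑ b : Fin (3 * (n + 2 - 1) + 1),
        ((cgv (3 * (n + 2 - 1)) (3 * (n + 2 - 1)) 1 s a b : ℝ) : ℂ)
        * Stmt.laughlin (n + 2) (Fin.cons a (Fin.cons b y))‖ ^ 2) = 0 := by
    refine Finset.sum_eq_zero fun y _ => ?_
    rw [laughlin_pair n s y]
    simp
  rw [h0, mul_zero] at h
  have h1 := (Finset.sum_eq_zero_iff_of_nonneg (fun R _ => by positivity)).1 h.symm R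
    (Finset.mem_univ R)
  exact norm_eq_zero.1 (pow_eq_zero_iff (two_ne_zero)|>.1 h1)

end Vale.Agent.P359
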