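import Mathlib

/-!
# P359: auxiliary definitions for the energy levels (linear maps on Euclidean spaces)

`U_Q` is the representation of spin `Q/2`, with the orthonormal basis
`e_k = √C(Q,k) u^{Q-k} v^k`, `k = 0, …, Q` (`e_k` has weight `Q/2 - k`).  A tensor is given by its
coordinates in the orthonormal product basis.
-/

namespace Vale.Agent.P359.Levels

open Finset

noncomputable section

/-- `U_Q ⊗ U_Q` -/
abbrev Two (Q : ℕ) : Type := EuclideanSpace ℂ (Fin (Q + 1) × Fin (Q + 1))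

/-- `U_Q^{⊗N}` -/
abbrev Many (N Q : ℕ) : Type := EuclideanSpace ℂ (Fin N → Fin (Q + 1))

/-- the lowering operator `J_- = v ∂_u` of `U_Q`, with matrix elements `⟨e_l, J_- e_k⟩`:
`J_- e_k = √((k+1)(Q-k)) e_{k+1}` -/
def low (Q : ℕ) : Matrix (Fin (Q + 1)) (Fin (Q + 1)) ℂ := fun l k =>
  if (l : ℕ) = (k : ℕ) + 1 then ((√(((k : ℝ) + 1) * ((Q : ℝ) - (k : ℝ))) : ℝ) : ℂ) else 0

/-- the lowering operator `J_- ⊗ 1 + 1 ⊗ J_-` of `U_Q ⊗ U_Q` -/
def lowering (Q : ℕ) : Module.End ℂ (Two Q) :=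
  Matrix.toEuclideanLin
    (Matrix.kroneckerMap (· * ·) (low Q) 1 + Matrix.kroneckerMap (· * ·) 1 (low Q))

/-- the highest weight vector `e_0 ⊗ e_1 - e_1 ⊗ e_0` of weight `Q - 1` in `U_Q ⊗ U_Q` -/
def highest (Q : ℕ) : Two Q := WithLp.toLp 2 fun p =>
  if (p.1 : ℕ) = 0 ∧ (p.2 : ℕ) = 1 then 1 else if (p.1 : ℕ) = 1 ∧ (p.2 : ℕ) = 0 then -1 else 0

/-- the irreducible component of total spin `Q - 1` of `U_Q ⊗ U_Q`: the span of the vectors
`J_-^k (e_0 ⊗ e_1 - e_1 ⊗ e_0)` -/
def component (Q : ℕ) : Submodule ℂ (Two Q) :=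
  Submodule.span ℂ (Set.range fun k : ℕ => (lowering Q ^ k) (highest Q))

/-- the vector of `U_Q ⊗ U_Q` (tensor factors `i` and `j`) obtained from `ψ` by fixing the other
coordinates as in `x` -/
def slice {N Q : ℕ} (i j : Fin N) (x : Fin N → Fin (Q + 1)) : Many N Q →ₗ[ℂ] Two Q where
  toFun ψ := WithLp.toLp 2 fun p => ψ (Function.update (Function.update x i p.1) j p.2)
  map_add' := fun _ _ => rfl
  map_smul' := fun _ _ => rfl

/-- the tensors that are in the component of total spin `Q - 1` in the tensor factors `i`, `j` -/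
def pairSpace {N Q : ℕ} (i j : Fin N) : Submodule ℂ (Many N Q) :=
  ⨅ x : Fin N → Fin (Q + 1), (component Q).comap (slice i j x)

/-- `P^{(1)}_{ij}`: the orthogonal projection onto `pairSpace i j` -/
def pairProj {N Q : ℕ} (i j : Fin N) : Module.End ℂ (Many N Q) :=
  ((pairSpace i j).starProjection : Many N Q →L[ℂ] Many N Q)

/-- the Hamiltonian `H_{N,Q} = ∑_{i<j} P^{(1)}_{ij}` -/
def ham (N Q : ℕ) : Module.End ℂ (Many N Q) := ∑ i : Fin N, ∑ j ∈ Ioi i, pairProj i j

/-- `ψ` changes sign under every transposition of two tensor factors -/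
def IsAntisymmetric {N Q : ℕ} (ψ : Many N Q) : Prop :=
  ∀ i j : Fin N, i ≠ j → ∀ x, ψ (x ∘ Equiv.swap i j) = - ψ x

theorem isAntisymmetric_add {N Q : ℕ} {a b : Many N Q} (ha : IsAntisymmetric a)
    (hb : IsAntisymmetric b) : IsAntisymmetric (a + b) := by
  intro i j hij x
  rw [PiLp.add_apply, PiLp.add_apply, ha i j hij x, hb i j hij x]
  ring

theorem isAntisymmetric_zero {N Q : ℕ} : IsAntisymmetric (0 : Many N Q) := by
  intro i j _ x
  simp

theorem isAntisymmetric_smul {N Q : ℕ} (c : ℂ) {a : Many N Q} (ha : IsAntisymmetric a) :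
    IsAntisymmetric (c • a) := by
  intro i j hij x
  rw [PiLp.smul_apply, PiLp.smul_apply, ha i j hij x, smul_eq_mul, smul_eq_mul]
  ring

/-- the fermionic space `⋀^N U_Q`: the antisymmetric tensors -/
def fermi (N Q : ℕ) : Submodule ℂ (Many N Q) where
  carrier := {ψ | IsAntisymmetric ψ}
  add_mem' := isAntisymmetric_add
  zero_mem' := isAntisymmetric_zero
  smul_mem' := isAntisymmetric_smul

end

end Vale.Agent.P359.Levels
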