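import Vale.Agent.Lib.P359.Stmt
import Vale.Agent.Lib.P359.CG

/-!
# P359 / P1F : the projection `P^{(1)}` in coordinates

With the real vectors `u_{q,k} = cgvec Q Q q k` (orthonormal basis of `U_Q ⊗ U_Q`, `CG.lean`;
`total (spinPlus Q)` is the complexification of `E2 Q Q`):
`E2ᵀ E2 u_{q,k} = k (2J-k+1) u_{q,k}`, `J = Q - q`, and `total (spinZ Q)` is diagonal with entries
`Q - r - m = J - k` on the support of `u_{q,k}`; so
`casimir u_{q,k} = (k(2J-k+1) + (J-k)² + (J-k)) u_{q,k} = J (J+1) u_{q,k}`.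
`J ↦ J(J+1)` is injective on naturals, so the eigenspace for `(Q-1) Q` is the span of
`u_{1,k}`, `k = 0..2Q-2` (here `Q ≥ 1`), and its orthogonal projection is
`φ ↦ Σ_k ⟨u_{1,k}, φ⟩ u_{1,k}`.
-/

namespace Vale.Agent.P359

open Finset Matrix

/-- complexified Clebsch–Gordan vector -/
noncomputable def p1u (Q q k : ℕ) : Fin (Q + 1) × Fin (Q + 1) → ℂ :=
  fun x => ((cgvec Q Q q k x : ℝ) : ℂ)

theorem p1_total_plus (Q : ℕ) :
    Stmt.total (Stmt.spinPlus Q) = (E2 Q Q).map (fun r : ℝ => (r : ℂ)) := by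
  ext x y
  simp only [Stmt.total, Matrix.add_apply, Matrix.kroneckerMap_apply, Matrix.map_apply,
    Stmt.spinPlus, E2, Emat, Matrix.one_apply]
  split_ifs <;> simp

theorem p1_total_z (Q : ℕ) :
    Stmt.total (Stmt.spinZ Q)
      = Matrix.diagonal (fun x : Fin (Q + 1) × Fin (Q + 1) =>
          (((Q : ℝ) - ((x.1 : ℕ) : ℝ) - ((x.2 : ℕ) : ℝ) : ℝ) : ℂ)) := by
  ext x y
  simp only [Stmt.total, Matrix.add_apply, Matrix.kroneckerMap_apply, Stmt.spinZ,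
    Matrix.one_apply, Matrix.diagonal_apply, Prod.ext_iff]
  by_cases h1 : x.1 = y.1 <;> by_cases h2 : x.2 = y.2
  · simp [h1, h2]; ring
  · simp [h1, h2]
  · simp [h1, h2]
  · simp [h1, h2]

theorem p1_map_mulVec (Q : ℕ) (M : Matrix (Fin (Q + 1) × Fin (Q + 1)) (Fin (Q + 1) × Fin (Q + 1)) ℝ)
    (v : Fin (Q + 1) × Fin (Q + 1) → ℝ) :
    (M.map (fun r : ℝ => (r : ℂ))) *ᵥ (fun x => ((v x : ℝ) : ℂ))
      = fun x => (((M *ᵥ v) x : ℝ) : ℂ) := by
  ext x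
  simp [Matrix.mulVec, dotProduct]

theorem p1_plus_sq (Q q k : ℕ) (hq : q ≤ Q) (hk : k ≤ 2 * Q - 2 * q) :
    (E2 Q Q)ᵀ *ᵥ (E2 Q Q *ᵥ cgvec Q Q q k)
      = ((k : ℝ) * (2 * ((Q : ℝ) - q) - k + 1)) • cgvec Q Q q k := by
  rcases k with _ | k
  · rw [cg_raise_zero Q Q q hq hq]
    simp
  · have hk' : k + 1 ≤ Q + Q - 2 * q := by omega
    rw [cg_raise Q Q q k hq hq hk', Matrix.mulVec_smul, cg_lower Q Q q k hq hq hk', smul_smul]
    congr 1
    rw [Real.mul_self_sqrt (by positivity)]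
    have : ((Q + Q - 2 * q - k : ℕ) : ℝ) = 2 * ((Q : ℝ) - q) - k := by
      have h1 : k ≤ Q + Q - 2 * q := by omega
      have h2 : 2 * q ≤ Q + Q := by omega
      rw [Nat.cast_sub h1, Nat.cast_sub h2]
      push_cast
      ring
    rw [this]
    push_cast
    ring

theorem p1_z_mul (Q q k : ℕ) :
    Stmt.total (Stmt.spinZ Q) *ᵥ p1u Q q k
      = (((Q : ℝ) - q - k : ℝ) : ℂ) • p1u Q q k := by
  rw [p1_total_z]
  ext x
  rw [Matrix.mulVec_diagonal]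
  simp only [Pi.smul_apply, smul_eq_mul, p1u, cgvec, cgv]
  by_cases h : (x.1 : ℕ) + (x.2 : ℕ) = q + k
  · have h' : ((x.1 : ℕ) : ℝ) + ((x.2 : ℕ) : ℝ) = q + k := by exact_mod_cast h
    congr 2
    linarith
  · simp [h]

theorem p1_casimir (Q q k : ℕ) (hq : q ≤ Q) (hk : k ≤ 2 * Q - 2 * q) :
    Stmt.casimir Q *ᵥ p1u Q q k
      = (((Q : ℂ) - q) * ((Q : ℂ) - q + 1)) • p1u Q q k := by
  have hplus : ((Stmt.total (Stmt.spinPlus Q))ᴴ * Stmt.total (Stmt.spinPlus Q)) *ᵥ p1u Q q k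
      = (((k : ℝ) * (2 * ((Q : ℝ) - q) - k + 1) : ℝ) : ℂ) • p1u Q q k := by
    rw [← Matrix.mulVec_mulVec, p1_total_plus]
    have h1 : ((E2 Q Q).map (fun r : ℝ => (r : ℂ))) *ᵥ p1u Q q k
        = fun x => (((E2 Q Q *ᵥ cgvec Q Q q k) x : ℝ) : ℂ) := p1_map_mulVec Q _ _
    have h2 : ((E2 Q Q).map (fun r : ℝ => (r : ℂ)))ᴴ
        = ((E2 Q Q)ᵀ).map (fun r : ℝ => (r : ℂ)) := by
      ext x y
      simp [Matrix.conjTranspose_apply]
    rw [h1, h2, p1_map_mulVec, p1_plus_sq Q q k hq hk]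
    ext x
    simp [p1u]
  rw [Stmt.casimir, Matrix.add_mulVec, Matrix.add_mulVec, hplus, ← Matrix.mulVec_mulVec,
    p1_z_mul, Matrix.mulVec_smul, p1_z_mul, smul_smul, ← add_smul, ← add_smul]
  congr 1
  push_cast
  ring

theorem p1_casimir_herm (Q : ℕ) : (Stmt.casimir Q).IsHermitian := by
  have hz : (Stmt.total (Stmt.spinZ Q)).IsHermitian := by
    rw [p1_total_z, Matrix.IsHermitian, Matrix.diagonal_conjTranspose]
    congr 1
    ext x
    simp [Pi.star_apply]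
  unfold Stmt.casimir
  refine Matrix.IsHermitian.add (Matrix.IsHermitian.add ?_ ?_) hz
  · exact Matrix.isHermitian_conjTranspose_mul_self _
  · rw [Matrix.IsHermitian, Matrix.conjTranspose_mul, hz.eq]

/-- the vector as an element of the Euclidean space -/
noncomputable def p1e (Q q k : ℕ) : Stmt.Pair Q := WithLp.toLp 2 (p1u Q q k)

theorem p1e_apply (Q q k : ℕ) (x : Fin (Q + 1) × Fin (Q + 1)) :
    p1e Q q k x = ((cgvec Q Q q k x : ℝ) : ℂ) := rfl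

theorem p1_eig (Q q k : ℕ) (hq : q ≤ Q) (hk : k ≤ 2 * Q - 2 * q) :
    Matrix.toEuclideanLin (Stmt.casimir Q) (p1e Q q k)
      = (((Q : ℂ) - q) * ((Q : ℂ) - q + 1)) • p1e Q q k := by
  have h := p1_casimir Q q k hq hk
  ext x
  exact congrFun h x

theorem p1_mem (Q k : ℕ) (hQ : 1 ≤ Q) (hk : k ≤ 2 * Q - 2) :
    p1e Q 1 k ∈ Stmt.spinComponent Q ((Q : ℂ) - 1) := by
  rw [Stmt.spinComponent, Module.End.mem_eigenspace_iff, p1_eig Q 1 k hQ (by omega)]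
  push_cast
  rfl

theorem p1_inner (Q q k : ℕ) (φ : Stmt.Pair Q) :
    inner ℂ (p1e Q q k) φ = ∑ y, ((cgvec Q Q q k y : ℝ) : ℂ) * φ y := by
  rw [PiLp.inner_apply]
  refine Finset.sum_congr rfl fun y _ => ?_
  simp [p1e_apply, mul_comm]

theorem p1_orth (Q q k : ℕ) (hQ : 1 ≤ Q) (hq : q ≤ Q) (hk : k ≤ 2 * Q - 2 * q) (hq1 : q ≠ 1)
    (w : Stmt.Pair Q) (hw : w ∈ Stmt.spinComponent Q ((Q : ℂ) - 1)) :
    inner ℂ w (p1e Q q k) = 0 := by
  rw [Stmt.spinComponent, Module.End.mem_eigenspace_iff] at hw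
  have hsym := (Matrix.isSymmetric_toEuclideanLin_iff.mpr (p1_casimir_herm Q)) w (p1e Q q k)
  rw [hw, p1_eig Q q k hq hk, inner_smul_left, inner_smul_right] at hsym
  have hconj : (starRingEnd ℂ) (((Q : ℂ) - 1) * ((Q : ℂ) - 1 + 1)) = ((Q : ℂ) - 1) * ((Q : ℂ) - 1 + 1) := by
    simp [map_mul, map_sub]
  rw [hconj] at hsym
  have hne : ((Q : ℂ) - 1) * ((Q : ℂ) - 1 + 1) - ((Q : ℂ) - q) * ((Q : ℂ) - q + 1) ≠ 0 := by
    have hfac : ((Q : ℂ) - 1) * ((Q : ℂ) - 1 + 1) - ((Q : ℂ) - q) * ((Q : ℂ) - q + 1)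
        = (((((q : ℝ) - 1) * (2 * (Q : ℝ) - q) : ℝ)) : ℂ) := by
      push_cast
      ring
    rw [hfac]
    have h1 : (q : ℝ) - 1 ≠ 0 := by
      intro h
      apply hq1
      have : (q : ℝ) = 1 := by linarith
      exact_mod_cast this
    have h2 : 2 * (Q : ℝ) - q ≠ 0 := by
      have : (q : ℝ) ≤ Q := by exact_mod_cast hq
      have h3 : (1 : ℝ) ≤ Q := by exact_mod_cast hQ
      intro h
      linarith
    exact_mod_cast mul_ne_zero h1 h2
  have : (((Q : ℂ) - 1) * ((Q : ℂ) - 1 + 1) - ((Q : ℂ) - q) * ((Q : ℂ) - q + 1))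
      * inner ℂ w (p1e Q q k) = 0 := by
    rw [sub_mul, hsym, sub_self]
  exact (mul_eq_zero.mp this).resolve_left hne

theorem p1_expand (Q : ℕ) (φ : Stmt.Pair Q) :
    φ = ∑ q ∈ range (Q + 1), ∑ k ∈ range (Q + Q - 2 * q + 1),
      (inner ℂ (p1e Q q k) φ) • p1e Q q k := by
  ext x
  have happ : (∑ q ∈ range (Q + 1), ∑ k ∈ range (Q + Q - 2 * q + 1),
      (inner ℂ (p1e Q q k) φ) • p1e Q q k) x
      = ∑ q ∈ range (Q + 1), ∑ k ∈ range (Q + Q - 2 * q + 1),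
        (∑ y, ((cgvec Q Q q k y : ℝ) : ℂ) * φ y) * ((cgvec Q Q q k x : ℝ) : ℂ) := by
    rw [WithLp.ofLp_sum, Finset.sum_apply]
    refine Finset.sum_congr rfl fun q _ => ?_
    rw [WithLp.ofLp_sum, Finset.sum_apply]
    refine Finset.sum_congr rfl fun k _ => ?_
    rw [p1_inner]
    rfl
  rw [happ]
  have hc := fun y => cg_complete Q Q le_rfl x y
  have h1 : ∑ q ∈ range (Q + 1), ∑ k ∈ range (Q + Q - 2 * q + 1),
        (∑ y, ((cgvec Q Q q k y : ℝ) : ℂ) * φ y) * ((cgvec Q Q q k x : ℝ) : ℂ)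
      = ∑ y, (((∑ q ∈ range (Q + 1), ∑ k ∈ range (Q + Q - 2 * q + 1),
          cgvec Q Q q k x * cgvec Q Q q k y : ℝ)) : ℂ) * φ y := by
    have h2 : ∀ y, (((∑ q ∈ range (Q + 1), ∑ k ∈ range (Q + Q - 2 * q + 1),
          cgvec Q Q q k x * cgvec Q Q q k y : ℝ)) : ℂ) * φ y
        = ∑ q ∈ range (Q + 1), ∑ k ∈ range (Q + Q - 2 * q + 1),
          ((cgvec Q Q q k y : ℝ) : ℂ) * φ y * ((cgvec Q Q q k x : ℝ) : ℂ) := by
      intro y
      push_cast
      rw [Finset.sum_mul]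
      refine Finset.sum_congr rfl fun q _ => ?_
      rw [Finset.sum_mul]
      refine Finset.sum_congr rfl fun k _ => ?_
      ring
    rw [Finset.sum_congr rfl (fun y _ => h2 y)]
    rw [Finset.sum_comm]
    refine Finset.sum_congr rfl fun q _ => ?_
    rw [Finset.sum_comm]
    refine Finset.sum_congr rfl fun k _ => ?_
    rw [Finset.sum_mul]
  rw [h1]
  have h3 : ∀ y, (((∑ q ∈ range (Q + 1), ∑ k ∈ range (Q + Q - 2 * q + 1),
          cgvec Q Q q k x * cgvec Q Q q k y : ℝ)) : ℂ) * φ y = if x = y then φ y else 0 := by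
    intro y
    rw [hc y]
    split_ifs <;> simp
  rw [Finset.sum_congr rfl (fun y _ => h3 y)]
  simp

theorem P1_apply (Q : ℕ) (hQ : 1 ≤ Q) (φ : Stmt.Pair Q) (x : Fin (Q + 1) × Fin (Q + 1)) :
    Stmt.P1 Q φ x = ∑ s ∈ range (2 * Q - 2 + 1),
      ((cgvec Q Q 1 s x : ℝ) : ℂ) * ∑ y, ((cgvec Q Q 1 s y : ℝ) : ℂ) * φ y := by
  set v : Stmt.Pair Q := ∑ s ∈ range (2 * Q - 2 + 1), (inner ℂ (p1e Q 1 s) φ) • p1e Q 1 s with hv
  have hvmem : v ∈ Stmt.spinComponent Q ((Q : ℂ) - 1) := by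
    refine Submodule.sum_mem _ fun s hs => Submodule.smul_mem _ _ ?_
    exact p1_mem Q s hQ (by have := Finset.mem_range.mp hs; omega)
  have hdiff : φ - v ∈ (Stmt.spinComponent Q ((Q : ℂ) - 1))ᗮ := by
    rw [Submodule.mem_orthogonal]
    intro w hw
    have hsplit : φ - v = ∑ q ∈ (range (Q + 1)).erase 1, ∑ k ∈ range (Q + Q - 2 * q + 1),
        (inner ℂ (p1e Q q k) φ) • p1e Q q k := by
      have h1 : (1 : ℕ) ∈ range (Q + 1) := Finset.mem_range.mpr (by omega)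
      have h2 := Finset.add_sum_erase (range (Q + 1))
        (fun q => ∑ k ∈ range (Q + Q - 2 * q + 1), (inner ℂ (p1e Q q k) φ) • p1e Q q k) h1
      have h3 := p1_expand Q φ
      rw [← h2] at h3
      have h4 : (∑ k ∈ range (Q + Q - 2 * 1 + 1), (inner ℂ (p1e Q 1 k) φ) • p1e Q 1 k) = v := by
        rw [hv]
        congr 2
        omega
      simp only [h4] at h3
      nth_rewrite 1 [h3]
      rw [add_sub_cancel_left]
    rw [hsplit, inner_sum]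
    refine Finset.sum_eq_zero fun q hq => ?_
    rw [Finset.mem_erase, Finset.mem_range] at hq
    rw [inner_sum]
    refine Finset.sum_eq_zero fun k hk => ?_
    rw [Finset.mem_range] at hk
    rw [inner_smul_right, p1_orth Q q k hQ (by omega) (by omega) hq.1 w hw, mul_zero]
  have hproj : Stmt.P1 Q φ = v := by
    rw [Stmt.P1]
    exact Submodule.eq_starProjection_of_mem_orthogonal hvmem hdiff
  rw [hproj, hv, WithLp.ofLp_sum, Finset.sum_apply]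
  refine Finset.sum_congr rfl fun s _ => ?_
  rw [p1_inner, mul_comm (((cgvec Q Q 1 s x : ℝ) : ℂ))]
  rfl

end Vale.Agent.P359
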