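import Vale.Agent.Lib.P359.Levels
import Vale.Agent.Lib.P359.P1F

/-!
# P359 / LevelsA: the component generated by the highest weight vector is the eigenspace of the
Casimir operator
-/

namespace Vale.Agent.P359.Levels

open Finset Matrix

theorem low_eq (Q : ℕ) (l c : Fin (Q + 1)) : low Q l c = ((Emat Q c l : ℝ) : ℂ) := by
  unfold low Emat
  by_cases h : (c : ℕ) + 1 = (l : ℕ)
  · rw [if_pos h.symm, if_pos h, ← h]
    congr 2
    push_cast
    ring
  · rw [if_neg (fun h' => h h'.symm), if_neg h]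
    simp

theorem lowering_mat (Q : ℕ) :
    Matrix.kroneckerMap (· * ·) (low Q) 1 + Matrix.kroneckerMap (· * ·) 1 (low Q) =
      ((E2 Q Q)ᵀ).map (fun r : ℝ => (r : ℂ)) := by
  ext x y
  simp only [Matrix.add_apply, Matrix.kroneckerMap_apply, Matrix.map_apply,
    Matrix.transpose_apply, E2, Matrix.one_apply, low_eq]
  by_cases h1 : x.1 = y.1
  · by_cases h2 : x.2 = y.2
    · simp [h1, h2]
    · have h2' := Ne.symm h2
      simp [h1, h2, h2']
  · have h1' := Ne.symm h1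
    by_cases h2 : x.2 = y.2
    · simp [h1, h2, h1']
    · have h2' := Ne.symm h2
      simp [h1, h2, h1', h2']

theorem lowering_real (Q : ℕ) (v : Fin (Q + 1) × Fin (Q + 1) → ℝ) :
    lowering Q (WithLp.toLp 2 fun x => ((v x : ℝ) : ℂ)) =
      WithLp.toLp 2 fun x => ((((E2 Q Q)ᵀ *ᵥ v) x : ℝ) : ℂ) := by
  have h := p1_map_mulVec Q ((E2 Q Q)ᵀ) v
  ext x
  unfold lowering
  rw [lowering_mat]
  exact congrFun h x

theorem p1e_eq (Q q k : ℕ) :
    p1e Q q k = WithLp.toLp 2 fun x => ((cgvec Q Q q k x : ℝ) : ℂ) := rfl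

theorem lowering_p1e (Q k : ℕ) (hQ : 1 ≤ Q) (hk : k + 1 ≤ 2 * Q - 2) :
    lowering Q (p1e Q 1 k) =
      ((√(((k : ℝ) + 1) * ((Q + Q - 2 * 1 - k : ℕ) : ℝ)) : ℝ) : ℂ) • p1e Q 1 (k + 1) := by
  rw [p1e_eq, lowering_real, cg_lower Q Q 1 k hQ hQ (by omega)]
  ext x
  simp [p1e_eq]

theorem lowering_p1e_top (Q : ℕ) (hQ : 1 ≤ Q) : lowering Q (p1e Q 1 (2 * Q - 2)) = 0 := by
  have h : Q + Q - 2 * 1 = 2 * Q - 2 := by omega
  have h2 := cg_lower_top Q Q 1 hQ hQ
  rw [h] at h2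
  rw [p1e_eq, lowering_real, h2]
  ext x
  simp

theorem highest_p1e (Q : ℕ) (hQ : 1 ≤ Q) : ∃ d : ℂ, d ≠ 0 ∧ p1e Q 1 0 = d • highest Q := by
  have hQ' : (0 : ℝ) < Q := by exact_mod_cast hQ
  refine ⟨((√(Q : ℝ) * (1 / (Q : ℝ)) / √(Sq Q Q 1) : ℝ) : ℂ), ?_, ?_⟩
  · have h1 : 0 < √(Sq Q Q 1) := Real.sqrt_pos.2 (Sq_pos Q Q 1 hQ hQ)
    have h2 : 0 < √(Q : ℝ) := Real.sqrt_pos.2 hQ'
    exact_mod_cast (by positivity : (0 : ℝ) < √(Q : ℝ) * (1 / (Q : ℝ)) / √(Sq Q Q 1)).ne'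
  · ext x
    obtain ⟨r, m⟩ := x
    change ((cgv Q Q 1 0 (r : ℕ) (m : ℕ) : ℝ) : ℂ) = _ * (if (r : ℕ) = 0 ∧ (m : ℕ) = 1 then (1 : ℂ)
      else if (r : ℕ) = 1 ∧ (m : ℕ) = 0 then -1 else 0)
    generalize (r : ℕ) = a
    generalize (m : ℕ) = b
    unfold cgv
    by_cases h : a + b = 1 + 0
    · rw [if_pos h]
      rcases (by omega : (a = 0 ∧ b = 1) ∨ (a = 1 ∧ b = 0)) with ⟨rfl, rfl⟩ | ⟨rfl, rfl⟩
      · rw [if_pos ⟨rfl, rfl⟩]
        simp [kap, Finset.sum_range_succ]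
      · rw [if_neg (by omega), if_pos ⟨rfl, rfl⟩]
        simp [kap, Finset.sum_range_succ]
        ring
    · rw [if_neg h, if_neg (by omega), if_neg (by omega)]
      simp

theorem lowering_mem (Q : ℕ) {φ : Two Q} (hφ : φ ∈ component Q) : lowering Q φ ∈ component Q := by
  have h : (component Q).map (lowering Q) ≤ component Q := by
    unfold component
    rw [Submodule.map_span_le]
    rintro _ ⟨k, rfl⟩
    refine Submodule.subset_span ⟨k + 1, ?_⟩
    change (lowering Q ^ (k + 1)) (highest Q) = lowering Q ((lowering Q ^ k) (highest Q))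
    rw [pow_succ']
    rfl
  exact h ⟨φ, hφ, rfl⟩

theorem highest_mem (Q : ℕ) : highest Q ∈ component Q := Submodule.subset_span ⟨0, by simp⟩

theorem p1e_mem_component (Q k : ℕ) (hQ : 1 ≤ Q) (hk : k ≤ 2 * Q - 2) :
    p1e Q 1 k ∈ component Q := by
  induction k with
  | zero =>
    obtain ⟨d, -, h⟩ := highest_p1e Q hQ
    rw [h]
    exact Submodule.smul_mem _ _ (highest_mem Q)
  | succ k ih =>
    have h1 := lowering_p1e Q k hQ hk
    have h2 := lowering_mem Q (ih (by omega))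
    rw [h1] at h2
    have hpos : (0 : ℝ) < √(((k : ℝ) + 1) * ((Q + Q - 2 * 1 - k : ℕ) : ℝ)) := by
      have : 0 < Q + Q - 2 * 1 - k := by omega
      have : (0 : ℝ) < ((Q + Q - 2 * 1 - k : ℕ) : ℝ) := by exact_mod_cast this
      positivity
    have hne : ((√(((k : ℝ) + 1) * ((Q + Q - 2 * 1 - k : ℕ) : ℝ)) : ℝ) : ℂ) ≠ 0 := by
      exact_mod_cast hpos.ne'
    exact (Submodule.smul_mem_iff _ hne).1 h2

theorem component_le (Q : ℕ) (hQ : 1 ≤ Q) :
    component Q ≤ Submodule.span ℂ (Set.range fun k : Fin (2 * Q - 2 + 1) => p1e Q 1 (k : ℕ)) := by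
  set S := Submodule.span ℂ (Set.range fun k : Fin (2 * Q - 2 + 1) => p1e Q 1 (k : ℕ)) with hS
  have hmem : ∀ k, k ≤ 2 * Q - 2 → p1e Q 1 k ∈ S := fun k hk =>
    Submodule.subset_span ⟨⟨k, by omega⟩, rfl⟩
  have hstab : S.map (lowering Q) ≤ S := by
    rw [hS, Submodule.map_span_le]
    rintro _ ⟨⟨k, hk⟩, rfl⟩
    change lowering Q (p1e Q 1 k) ∈ S
    rcases Nat.lt_or_ge k (2 * Q - 2) with h | h
    · rw [lowering_p1e Q k hQ (by omega)]
      exact Submodule.smul_mem _ _ (hmem _ (by omega))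
    · have hk' : k = 2 * Q - 2 := by omega
      rw [hk', lowering_p1e_top Q hQ]
      exact Submodule.zero_mem _
  have htop : highest Q ∈ S := by
    obtain ⟨d, hd, h⟩ := highest_p1e Q hQ
    have h2 := hmem 0 (Nat.zero_le _)
    rw [h] at h2
    exact (Submodule.smul_mem_iff _ hd).1 h2
  unfold component
  rw [Submodule.span_le]
  rintro _ ⟨k, rfl⟩
  change (lowering Q ^ k) (highest Q) ∈ S
  induction k with
  | zero => simpa using htop
  | succ k ih =>
    rw [pow_succ']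
    exact hstab ⟨_, ih, rfl⟩

theorem component_eq (Q : ℕ) (hQ : 1 ≤ Q) :
    component Q = Stmt.spinComponent Q ((Q : ℂ) - 1) := by
  apply le_antisymm
  · refine (component_le Q hQ).trans ?_
    rw [Submodule.span_le]
    rintro _ ⟨⟨k, hk⟩, rfl⟩
    exact p1_mem Q k hQ (by omega)
  · intro w hw
    have h1 : Stmt.P1 Q w = w := by
      unfold Stmt.P1
      exact Submodule.starProjection_eq_self_iff.2 hw
    have h2 : w = ∑ s ∈ range (2 * Q - 2 + 1),
        (∑ y, ((cgvec Q Q 1 s y : ℝ) : ℂ) * w y) • p1e Q 1 s := by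
      ext x
      rw [WithLp.ofLp_sum, Finset.sum_apply]
      conv_lhs => rw [← h1]
      rw [P1_apply Q hQ]
      refine Finset.sum_congr rfl fun s _ => ?_
      rw [PiLp.smul_apply, smul_eq_mul, p1e_apply, mul_comm]
    rw [h2]
    refine Submodule.sum_mem _ fun s hs => Submodule.smul_mem _ _ ?_
    exact p1e_mem_component Q s hQ (by have := Finset.mem_range.mp hs; omega)

end Vale.Agent.P359.Levels
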