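import Vale.Agent.Lib.P359.LevelsA
import Vale.Agent.Lib.P359.Ww

/-!
# P359 / LevelsB: the orthogonal projections `P_{ij}` and the Hamiltonian
-/

namespace Vale.Agent.P359.Levels

open Finset Matrix

theorem slice_eq {N Q : ℕ} (i j : Fin N) (x : Fin N → Fin (Q + 1)) (ψ : Many N Q) :
    slice i j x ψ = Stmt.restrict i j ψ x := rfl

theorem update_two {N : ℕ} {α : Type*} (i j : Fin N) (x : Fin N → α) (a b a' b' : α) :
    Function.update (Function.update (Function.update (Function.update x i a) j b) i a') j b' =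
      Function.update (Function.update x i a') j b' := by
  funext k
  by_cases hj : k = j
  · subst hj; simp
  · by_cases hi : k = i
    · subst hi; simp [hj]
    · simp [hi, hj]

theorem slice_update {N Q : ℕ} (i j : Fin N) (x : Fin N → Fin (Q + 1))
    (a b : Fin (Q + 1)) (ψ : Many N Q) :
    slice i j (Function.update (Function.update x i a) j b) ψ = slice i j x ψ := by
  ext p
  change ψ _ = ψ _
  rw [update_two]

theorem slice_Ppair {N Q : ℕ} {i j : Fin N} (hij : i ≠ j) (x : Fin N → Fin (Q + 1))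
    (ψ : Many N Q) :
    slice i j x (Stmt.Ppair i j ψ) = Stmt.P1 Q (slice i j x ψ) := by
  ext p
  change Stmt.P1 Q (slice i j (Function.update (Function.update x i p.1) j p.2) ψ)
    ((Function.update (Function.update x i p.1) j p.2) i,
      (Function.update (Function.update x i p.1) j p.2) j) = _
  rw [slice_update]
  simp [hij]

theorem sum_update {N : ℕ} {α : Type*} [Fintype α] [DecidableEq α] (i : Fin N)
    (F : (Fin N → α) → ℂ) :
    ∑ x : Fin N → α, ∑ a : α, F (Function.update x i a) = (Fintype.card α : ℂ) * ∑ x, F x := by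
  classical
  have h1 : ∑ x : Fin N → α, ∑ a : α, F (Function.update x i a) =
      ∑ p : (Fin N → α) × α, F (Function.update p.1 i p.2) := by
    rw [Fintype.sum_prod_type]
  let e : (Fin N → α) × α ≃ (Fin N → α) × α :=
    { toFun := fun p => (Function.update p.1 i p.2, p.1 i)
      invFun := fun p => (Function.update p.1 i p.2, p.1 i)
      left_inv := by rintro ⟨x, a⟩; simp
      right_inv := by rintro ⟨x, a⟩; simp }
  have h2 : ∑ p : (Fin N → α) × α, F (Function.update p.1 i p.2) =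
      ∑ p : (Fin N → α) × α, F p.1 := by
    rw [← e.sum_comp (fun p => F p.1)]
    rfl
  rw [h1, h2, Fintype.sum_prod_type]
  simp [Finset.mul_sum]

theorem sum_update_two {N Q : ℕ} (i j : Fin N) (F : (Fin N → Fin (Q + 1)) → ℂ)
    (h : ∀ x, ∑ p : Fin (Q + 1) × Fin (Q + 1),
      F (Function.update (Function.update x i p.1) j p.2) = 0) :
    ∑ x, F x = 0 := by
  have h1 := sum_update i (fun x => ∑ b : Fin (Q + 1), F (Function.update x j b))
  rw [sum_update j F] at h1
  have h2 : ∑ x : Fin N → Fin (Q + 1), ∑ a : Fin (Q + 1), ∑ b : Fin (Q + 1),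
      F (Function.update (Function.update x i a) j b) = 0 := by
    refine Finset.sum_eq_zero fun x _ => ?_
    have := h x
    rwa [Fintype.sum_prod_type] at this
  rw [h2] at h1
  simp only [Fintype.card_fin] at h1
  have hne : ((Q + 1 : ℕ) : ℂ) ≠ 0 := by exact_mod_cast Nat.succ_ne_zero Q
  have h3 := (mul_eq_zero.1 h1.symm).resolve_left hne
  exact (mul_eq_zero.1 h3).resolve_left hne

theorem pairProj_eq {N Q : ℕ} (hQ : 1 ≤ Q) {i j : Fin N} (hij : i ≠ j) (ψ : Many N Q) :
    pairProj i j ψ = Stmt.Ppair i j ψ := by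
  change (pairSpace i j).starProjection ψ = _
  refine Submodule.eq_starProjection_of_mem_orthogonal ?_ ?_
  · unfold pairSpace
    rw [Submodule.mem_iInf]
    intro x
    rw [Submodule.mem_comap, slice_Ppair hij, component_eq Q hQ]
    exact Submodule.starProjection_apply_mem _ _
  · rw [Submodule.mem_orthogonal]
    intro χ hχ
    unfold pairSpace at hχ
    rw [Submodule.mem_iInf] at hχ
    rw [PiLp.inner_apply]
    refine sum_update_two i j _ fun x => ?_
    have h1 : slice i j x χ ∈ Stmt.spinComponent Q ((Q : ℂ) - 1) := by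
      rw [← component_eq Q hQ]
      exact hχ x
    have h2 : inner ℂ (slice i j x χ) (slice i j x (ψ - Stmt.Ppair i j ψ)) = 0 := by
      rw [map_sub, slice_Ppair hij]
      exact (Submodule.mem_orthogonal _ _).1
        (Submodule.sub_starProjection_mem_orthogonal (K := Stmt.spinComponent Q ((Q : ℂ) - 1))
          (slice i j x ψ)) _ h1
    rw [PiLp.inner_apply] at h2
    exact h2

theorem ham_eq {N Q : ℕ} (hQ : 1 ≤ Q) (ψ : Many N Q) : ham N Q ψ = Stmt.Ham ψ := by
  unfold ham Stmt.Ham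
  rw [Finset.sum_filter, ← Finset.univ_product_univ, Finset.sum_product, LinearMap.sum_apply]
  refine Finset.sum_congr rfl fun i _ => ?_
  rw [LinearMap.sum_apply, ← Finset.sum_filter]
  refine Finset.sum_congr ?_ fun j hj => ?_
  · ext j; simp
  · have hij : i < j := by simpa using hj
    exact pairProj_eq hQ hij.ne ψ

theorem mem_fermi_iff {N Q : ℕ} (ψ : Many N Q) : ψ ∈ fermi N Q ↔ ψ ∈ Stmt.Wedge Q N := by
  constructor
  · intro h σ
    induction σ using Equiv.Perm.swap_induction_on with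
    | one => intro x; simp
    | swap_mul f a b hab ih =>
      intro x
      have h1 := ih (x ∘ Equiv.swap a b)
      have h2 : x ∘ ⇑(Equiv.swap a b * f) = (x ∘ Equiv.swap a b) ∘ f := by
        ext k; simp
      have h3 := h a b hab x
      rw [h2, h1, h3, Equiv.Perm.sign_mul, Equiv.Perm.sign_swap hab]
      push_cast
      ring
  · intro h i j hij x
    have h1 := h (Equiv.swap i j) x
    rw [h1, Equiv.Perm.sign_swap hij]
    simp

theorem cgvec_swap (Q s : ℕ) (hQ : 1 ≤ Q) (a b : Fin (Q + 1)) :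
    cgvec Q Q 1 s (b, a) = - cgvec Q Q 1 s (a, b) := by
  have h := ww_antisymm Q s a b hQ
  unfold ww at h
  have h2 : √(2 : ℝ) ≠ 0 := by positivity
  have h3 : √2 * cgv Q Q 1 s (b : ℕ) (a : ℕ) = √2 * (- cgv Q Q 1 s (a : ℕ) (b : ℕ)) := by
    rw [h]; ring
  exact mul_left_cancel₀ h2 h3

theorem Ppair_symm {N Q : ℕ} (hQ : 1 ≤ Q) {i j : Fin N} (hij : i ≠ j) (ψ : Many N Q)
    (x : Fin N → Fin (Q + 1)) : Stmt.Ppair j i ψ x = Stmt.Ppair i j ψ x := by
  change Stmt.P1 Q (slice j i x ψ) (x j, x i) = Stmt.P1 Q (slice i j x ψ) (x i, x j)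
  rw [P1_apply Q hQ, P1_apply Q hQ]
  refine Finset.sum_congr rfl fun s _ => ?_
  have h1 : ∀ y : Fin (Q + 1) × Fin (Q + 1), slice j i x ψ y = slice i j x ψ (y.2, y.1) := by
    intro y
    change ψ _ = ψ _
    rw [Function.update_comm hij.symm]
  have h2 : ∑ y, ((cgvec Q Q 1 s y : ℝ) : ℂ) * slice j i x ψ y =
      - ∑ y, ((cgvec Q Q 1 s y : ℝ) : ℂ) * slice i j x ψ y := by
    rw [← (Equiv.prodComm (Fin (Q + 1)) (Fin (Q + 1))).sum_comp, ← Finset.sum_neg_distrib]
    refine Finset.sum_congr rfl fun y _ => ?_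
    obtain ⟨a, b⟩ := y
    rw [h1]
    change ((cgvec Q Q 1 s (b, a) : ℝ) : ℂ) * slice i j x ψ (a, b) = _
    rw [cgvec_swap Q s hQ a b]
    push_cast
    ring
  rw [h2, cgvec_swap Q s hQ (x i) (x j)]
  push_cast
  ring

theorem Ppair_perm {N Q : ℕ} (i j : Fin N) (ψ : Many N Q) (hψ : ψ ∈ Stmt.Wedge Q N)
    (σ : Equiv.Perm (Fin N)) (x : Fin N → Fin (Q + 1)) :
    Stmt.Ppair i j ψ (x ∘ σ) =
      (((Equiv.Perm.sign σ : ℤˣ) : ℤ) : ℂ) * Stmt.Ppair (σ i) (σ j) ψ x := by
  change Stmt.P1 Q (slice i j (x ∘ σ) ψ) (x (σ i), x (σ j)) =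
    _ * Stmt.P1 Q (slice (σ i) (σ j) x ψ) (x (σ i), x (σ j))
  have h1 : slice i j (x ∘ σ) ψ =
      (((Equiv.Perm.sign σ : ℤˣ) : ℤ) : ℂ) • slice (σ i) (σ j) x ψ := by
    ext p
    change ψ (Function.update (Function.update (x ∘ σ) i p.1) j p.2) =
      _ * ψ (Function.update (Function.update x (σ i) p.1) (σ j) p.2)
    rw [← hψ σ, Function.update_comp_equiv, Function.update_comp_equiv]
    simp
  rw [h1, map_smul]
  rfl

theorem sum_pairs {N : ℕ} (F : Fin N → Fin N → ℂ) (hF : ∀ i j, i ≠ j → F j i = F i j) :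
    ∑ i, ∑ j, (if i = j then 0 else F i j) = 2 * ∑ i, ∑ j, if i < j then F i j else 0 := by
  have h1 : ∀ i j, (if i = j then 0 else F i j) =
      (if i < j then F i j else 0) + (if j < i then F j i else 0) := by
    intro i j
    rcases lt_trichotomy i j with h | h | h
    · simp [h, h.ne, h.not_gt]
    · simp [h]
    · simp [h, h.ne', h.not_gt, hF j i h.ne]
  simp only [h1, Finset.sum_add_distrib]
  have h2 : ∑ i : Fin N, ∑ j : Fin N, (if j < i then F j i else 0) =
      ∑ i : Fin N, ∑ j : Fin N, (if i < j then F i j else 0) := Finset.sum_comm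
  rw [h2]
  ring

theorem ham_mem_wedge {N Q : ℕ} (hQ : 1 ≤ Q) (ψ : Many N Q) (hψ : ψ ∈ Stmt.Wedge Q N) :
    Stmt.Ham ψ ∈ Stmt.Wedge Q N := by
  intro σ x
  have h0 : ∀ y, Stmt.Ham ψ y = ∑ i, ∑ j, if i < j then Stmt.Ppair i j ψ y else 0 := by
    intro y
    unfold Stmt.Ham
    rw [Finset.sum_filter, ← Finset.univ_product_univ, Finset.sum_product, WithLp.ofLp_sum,
      Finset.sum_apply]
    refine Finset.sum_congr rfl fun i _ => ?_
    rw [WithLp.ofLp_sum, Finset.sum_apply]
    refine Finset.sum_congr rfl fun j _ => ?_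
    split_ifs <;> rfl
  have hs : ∀ y i j, i ≠ j → Stmt.Ppair j i ψ y = Stmt.Ppair i j ψ y :=
    fun y i j hij => Ppair_symm hQ hij ψ y
  have h1 := sum_pairs (fun i j => Stmt.Ppair i j ψ (x ∘ σ)) (hs (x ∘ σ))
  have h2 := sum_pairs (fun i j => Stmt.Ppair i j ψ x) (hs x)
  have h3 : ∑ i, ∑ j, (if i = j then 0 else Stmt.Ppair i j ψ (x ∘ σ)) =
      (((Equiv.Perm.sign σ : ℤˣ) : ℤ) : ℂ) *
        ∑ i, ∑ j, (if i = j then 0 else Stmt.Ppair i j ψ x) := by
    rw [← Equiv.sum_comp σ (fun i => ∑ j, (if i = j then 0 else Stmt.Ppair i j ψ x)),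
      Finset.mul_sum]
    refine Finset.sum_congr rfl fun i _ => ?_
    rw [← Equiv.sum_comp σ (fun j => (if σ i = j then 0 else Stmt.Ppair (σ i) j ψ x)),
      Finset.mul_sum]
    refine Finset.sum_congr rfl fun j _ => ?_
    by_cases hij : i = j
    · simp [hij]
    · rw [if_neg hij, if_neg (fun h => hij (σ.injective h)), Ppair_perm i j ψ hψ σ x]
  rw [h0, h0]
  rw [h1, h2] at h3
  have h4 : (2 : ℂ) ≠ 0 := two_ne_zero
  apply mul_left_cancel₀ h4
  rw [h3]
  ring

end Vale.Agent.P359.Levels
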