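import Vale.Agent.Lib.P359.LocInfBB4

namespace Vale.Agent.P359.LI

theorem chk_BC4 : (BC4.all fun c => chkBlk Gam (decB c)) = true := by decide +kernel

end Vale.Agent.P359.LI
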