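import Vale.Agent.Lib.P359.LocInfTab

/-!
# P359 / LocInf: kernel checks of the tables
-/

namespace Vale.Agent.P359.LI

theorem chk_K3 : ∀ l < 16, (Ktab3.getD l []).Nodup := by decide +kernel

theorem chk_K4 : ∀ l < 15, (Ktab4.getD l []).Nodup := by decide +kernel

theorem chk_Z3 : ∀ r < 8, ∀ m < 9,
    eqOn (Ktab3.getD (r + m) []) (Z3 r m) (W3 r m) = true := by decide +kernel

theorem chk_Z4 : ∀ r < 8, ∀ s < 8,
    eqOn (Ktab4.getD (r + s) []) (Z4 r s) (W4 r s) = true := by decide +kernel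

theorem chk_BL : BL Z3 Z4 = BLl := by decide +kernel

end Vale.Agent.P359.LI
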