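import Vale.Agent.Lib.P359.LocInfTab

/-!
# P359 / LocInf: kernel checks of the rows
-/

namespace Vale.Agent.P359.LI

theorem chk_keys : (BLl.all fun p => keysIn (Gam.map fun r => r.1) p.1) = true := by
  decide +kernel

theorem chk_nodup : orf (Gam.map fun r => r.1) < 2 ^ 512 ∧ (Gam.map fun r => r.1).Nodup := by
  decide +kernel

theorem chk_small : (Gam.all fun r => Nat.blt r.1 512 && r.2.all fun p => Nat.blt p.1 512) =
    true := by
  decide +kernel

theorem chk_GG : (GG.all fun G => chkG BLl G) = true := by decide +kernel

end Vale.Agent.P359.LI
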