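import Vale.Agent.Lib.P359.LocInfTab

/-!
# P359 / LocInf: block certificates, 1 particles
-/

namespace Vale.Agent.P359.LI

def BC1 : List (List ℕ × ℕ × ℕ × List (ℕ × ℕ)) := [
    ([1], 1, 1, []),
    ([2], 1, 1, []),
    ([4], 1, 1, []),
    ([8], 1, 1, []),
    ([16], 1, 1, []),
    ([32], 1, 1, []),
    ([64], 1, 1, []),
    ([128], 1, 1, []),
    ([256], 1, 1, [])]

end Vale.Agent.P359.LI
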