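import Vale.Agent.Lib.P359.LocInfTab

/-!
# P359 / LocInf: block certificates, 2 particles
-/

namespace Vale.Agent.P359.LI

def BC2 : List (List ℕ × ℕ × ℕ × List (ℕ × ℕ)) := [
    ([3], 1, 16, [(30528, 1027)]),
    ([5], 1, 16, [(128, 1029)]),
    ([6, 9], 1, 16, [(1339, 201917446)]),
    ([10, 17], 1, 16, [(22496, 135332874)]),
    ([12, 18, 33], 1, 16, [(19462, 22132168983564)]),
    ([20, 34, 65], 1, 16, [(46684, 13473448854548)]),
    ([24, 36, 66, 129], 1, 16, [(22170, 2053945178961740824)]),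
    ([40, 68, 130, 257], 1, 16, [(507044, 1225274326245442600)]),
    ([48, 72, 132, 258], 1, 1, []),
    ([80, 136, 260], 1, 1, []),
    ([96, 144, 264], 1, 1, []),
    ([160, 272], 1, 1, []),
    ([192, 288], 1, 1, []),
    ([320], 1, 1, []),
    ([384], 1, 1, [])]

end Vale.Agent.P359.LI
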