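import Vale.Agent.Lib.P359.LocInfTab

/-!
# P359 / LocInf: block certificates, 8 particles
-/

namespace Vale.Agent.P359.LI

def BC8 : List (List ℕ × ℕ × ℕ × List (ℕ × ℕ)) := [
    ([255], 1, 16, [(203026246841710080, 1279)]),
    ([383], 1, 16, [(1165568861654069760, 1407)]),
    ([447], 1, 16, [(7174791306047808000, 1471)]),
    ([479], 1, 16, [(42289186283619517440, 1503)]),
    ([495], 1, 16, [(305955218877884697600, 1519)]),
    ([503], 1, 16, [(944413108234126848000, 1527)]),
    ([507], 1, 16, [(1923947781179139993600, 1531)]),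
    ([509], 1, 16, [(3740049967662130176000, 1533)]),
    ([510], 1, 16, [(5886127961812432281600, 1534)])]

end Vale.Agent.P359.LI
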