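import Vale.Agent.Lib.P359.LocInfBB0
import Vale.Agent.Lib.P359.LocInfBB1
import Vale.Agent.Lib.P359.LocInfBB2
import Vale.Agent.Lib.P359.LocInfBB8
import Vale.Agent.Lib.P359.LocInfBB9

namespace Vale.Agent.P359.LI

theorem chk_BCs : ((BC0 ++ (BC1 ++ (BC2 ++ (BC8 ++ BC9)))).all fun c => chkBlk Gam (decB c)) =
    true := by decide +kernel

end Vale.Agent.P359.LI
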