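import Vale.Agent.Lib.P359.Data
import Vale.Agent.Lib.P359.LocInfChk
import Vale.Agent.Lib.P359.LocInfChk2
import Vale.Agent.Lib.P359.LocInfC3
import Vale.Agent.Lib.P359.LocInfC4
import Vale.Agent.Lib.P359.LocInfC5
import Vale.Agent.Lib.P359.LocInfC6
import Vale.Agent.Lib.P359.LocInfC7
import Vale.Agent.Lib.P359.LocInfCs

/-!
# P359 / LocInf : positivity of the local form in the planar limit

`locForm (fun k => k!) g ≥ 0` for every real function `g` on the 512 subsets of `{0,…,8}`.

The form splits into blocks (number of elements, sum of elements) of size at most `12`; all entries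
times `65536` are integers.  `LocInfA`: the local form as a list of rows of linear forms in the
annihilated values `ann U g R`.  `LocInfB`: the rows of the whole form and the block certificates.
`LocInfTab`, `LocInfBB0, …, LocInfBB9`: the data.  `LocInfChk*`, `LocInfC*`: kernel checks.
-/

namespace Vale.Agent.P359

namespace LI

/-- all the blocks -/
def BCall : List (List ℕ × ℕ × ℕ × List (ℕ × ℕ)) :=
  (BC0 ++ (BC1 ++ (BC2 ++ (BC8 ++ BC9)))) ++ (BC3 ++ (BC4 ++ (BC5 ++ (BC6 ++ BC7))))

theorem chk_all : ∀ c ∈ BCall, chkBlk Gam (decB c) = true := by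
  intro c hc
  rcases List.mem_append.1 hc with h | h
  · exact List.all_eq_true.1 chk_BCs c h
  rcases List.mem_append.1 h with h | h
  · exact List.all_eq_true.1 chk_BC3 c h
  rcases List.mem_append.1 h with h | h
  · exact List.all_eq_true.1 chk_BC4 c h
  rcases List.mem_append.1 h with h | h
  · exact List.all_eq_true.1 chk_BC5 c h
  rcases List.mem_append.1 h with h | h
  · exact List.all_eq_true.1 chk_BC6 c h
  · exact List.all_eq_true.1 chk_BC7 c h

theorem chk_orf : orf ((BCall.map decB).flatMap fun B => B.1) = 2 ^ 512 - 1 := by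
  decide +kernel

theorem chk_length : ((BCall.map decB).flatMap fun B => B.1).length = 512 := by
  decide +kernel

theorem evB_Gam (y : ℕ → ℝ) : evB y BLl = evG y Gam := by
  refine evB_eq_evG y BLl GG chk_nodup.2 ?_ ?_
  · exact List.all_eq_true.1 chk_keys
  · exact List.all_eq_true.1 chk_GG

theorem small_Gam : ∀ r ∈ Gam, r.1 < 512 ∧ ∀ p ∈ r.2, p.1 < 512 := by
  intro r hr
  have h := List.all_eq_true.1 chk_small r hr
  rw [Bool.and_eq_true, List.all_eq_true] at h
  refine ⟨?_, fun p hp => ?_⟩
  · exact of_eq_true (Nat.blt_eq ▸ eq_true h.1 : (r.1 < 512) = True)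
  · exact of_eq_true ((Nat.blt_eq ▸ eq_true (h.2 p hp) : (p.1 < 512) = True))

theorem locR_Gam (g : Finset (Fin 9) → ℝ) (R : Finset (Fin 9)) :
    65536 * locR g R = evG (fun T => ann (F T) g R) Gam := by
  rw [locR_eq Z3 Z4 ?_ ?_ g R, chk_BL, evB_Gam]
  · intro y r m
    exact ev_eq_of_eqOn y _ (chk_K3 (r + m) (by omega)) (chk_Z3 r r.2 m m.2)
  · intro y r s
    exact ev_eq_of_eqOn y _ (chk_K4 (r + s) (by omega)) (chk_Z4 r r.2 s s.2)

end LI

open Finset Matrix LI

theorem local_inf (g : Finset (Fin 9) → ℝ) :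
    0 ≤ locForm (fun k => (((k : ℕ).factorial : ℕ) : ℝ)) g := by
  have h1 : 65536 * locForm (fun k => (((k : ℕ).factorial : ℕ) : ℝ)) g =
      ∑ i ∈ Finset.range 512, g (LI.F i) * ev (fun i => g (LI.F i)) (rowA i Gam) := by
    rw [← form_rows g Gam small_Gam]
    unfold locForm
    rw [Finset.mul_sum]
    refine Finset.sum_congr rfl fun R _ => ?_
    rw [← locR_Gam]
    ring
  have h2 := blocks_nonneg (fun i => g (LI.F i)) Gam (BCall.map decB) chk_orf chk_length (by
    intro B hB
    obtain ⟨c, hc, rfl⟩ := List.mem_map.1 hB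
    exact chk_all c hc)
  rw [← h1] at h2
  linarith

end Vale.Agent.P359
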