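import Vale.Agent.Lib.P359.Data

/-!
# P359 / LocInf, part A : linear forms as lists, annihilation of sets
-/

namespace Vale.Agent.P359.LI

open Finset

/-! ### linear forms -/

/-- value of a linear form -/
noncomputable def ev (y : ℕ → ℝ) : List (ℕ × ℤ) → ℝ
  | [] => 0
  | p :: L => (p.2 : ℝ) * y p.1 + ev y L

/-- coefficient of a linear form -/
def co (T : ℕ) : List (ℕ × ℤ) → ℤ
  | [] => 0
  | p :: L => cond (Nat.beq p.1 T) (p.2 + co T L) (co T L)

/-- multiple of a linear form -/
def sc (c : ℤ) : List (ℕ × ℤ) → List (ℕ × ℤ)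
  | [] => []
  | p :: L => (p.1, c * p.2) :: sc c L

/-- all keys lie in `K` -/
def keysIn (K : List ℕ) (L : List (ℕ × ℤ)) : Bool := L.all fun p => K.any fun k => Nat.beq k p.1

theorem ev_append (y : ℕ → ℝ) (L L' : List (ℕ × ℤ)) : ev y (L ++ L') = ev y L + ev y L' := by
  induction L with
  | nil => simp [ev]
  | cons p L ih =>
    rw [List.cons_append, ev, ev, ih]
    ring

theorem ev_sc (y : ℕ → ℝ) (c : ℤ) (L : List (ℕ × ℤ)) : ev y (sc c L) = c * ev y L := by
  induction L with
  | nil => simp [ev, sc]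
  | cons p L ih =>
    rw [sc, ev, ev, ih]
    push_cast
    ring

theorem ev_flatMap {α : Type*} (y : ℕ → ℝ) (l : List α) (f : α → List (ℕ × ℤ)) :
    ev y (l.flatMap f) = (l.map fun a => ev y (f a)).sum := by
  induction l with
  | nil => simp [ev]
  | cons a l ih => rw [List.flatMap_cons, ev_append, ih, List.map_cons, List.sum_cons]

theorem nat_beq_iff (a b : ℕ) : Nat.beq a b = true ↔ a = b :=
  ⟨Nat.eq_of_beq_eq_true, fun h => by rw [h]; exact Nat.beq_refl b⟩

theorem keysIn_iff (K : List ℕ) (L : List (ℕ × ℤ)) :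
    keysIn K L = true ↔ ∀ p ∈ L, p.1 ∈ K := by
  unfold keysIn
  simp only [List.all_eq_true, List.any_eq_true, nat_beq_iff]
  constructor
  · intro h p hp
    obtain ⟨k, hk, rfl⟩ := h p hp
    exact hk
  · intro h p hp
    exact ⟨p.1, h p hp, rfl⟩

theorem co_cons (T : ℕ) (p : ℕ × ℤ) (L : List (ℕ × ℤ)) :
    co T (p :: L) = (if p.1 = T then p.2 else 0) + co T L := by
  rw [co]
  by_cases h : p.1 = T
  · have h1 : Nat.beq p.1 T = true := (nat_beq_iff _ _).2 h
    rw [h1, if_pos h]
    rfl
  · have h1 : Nat.beq p.1 T = false := by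
      rw [← Bool.not_eq_true, nat_beq_iff]
      exact h
    rw [h1, if_neg h, zero_add]
    rfl

/-- a linear form through its coefficients -/
theorem ev_eq_sum (y : ℕ → ℝ) (K : List ℕ) (hK : K.Nodup) (L : List (ℕ × ℤ))
    (h : ∀ p ∈ L, p.1 ∈ K) : ev y L = (K.map fun T => (co T L : ℝ) * y T).sum := by
  induction L with
  | nil => simp [ev, co]
  | cons p L ih =>
    rw [ev, ih fun q hq => h q (List.mem_cons_of_mem p hq)]
    have h1 : (K.map fun T => (co T (p :: L) : ℝ) * y T).sum =
        (K.map fun T => (if p.1 = T then (p.2 : ℝ) * y p.1 else 0)).sum +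
          (K.map fun T => (co T L : ℝ) * y T).sum := by
      rw [← List.sum_map_add]
      congr 1
      refine List.map_congr_left fun T _ => ?_
      rw [co_cons]
      by_cases h2 : p.1 = T
      · subst h2
        simp [add_mul]
      · simp [h2]
    rw [h1]
    congr 1
    have h3 : ∀ K : List ℕ, K.Nodup → p.1 ∈ K →
        (K.map fun T => (if p.1 = T then (p.2 : ℝ) * y p.1 else 0)).sum =
          (p.2 : ℝ) * y p.1 := by
      intro K hK hp
      induction K with
      | nil => exact absurd hp List.not_mem_nil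
      | cons a K ihK =>
        rw [List.map_cons, List.sum_cons]
        rw [List.nodup_cons] at hK
        by_cases h4 : p.1 = a
        · rw [if_pos h4]
          have h5 : ∀ K' : List ℕ, p.1 ∉ K' →
              (K'.map fun T => (if p.1 = T then (p.2 : ℝ) * y p.1 else 0)).sum = 0 := by
            intro K' hK'
            induction K' with
            | nil => simp
            | cons b K' ihK' =>
              rw [List.mem_cons, not_or] at hK'
              rw [List.map_cons, List.sum_cons, if_neg hK'.1, ihK' hK'.2, add_zero]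
          rw [h5 K (by rw [h4]; exact hK.1), add_zero]
        · rw [if_neg h4, zero_add]
          exact ihK hK.2 ((List.mem_cons.1 hp).resolve_left h4)
    exact (h3 K hK (h p List.mem_cons_self)).symm

/-- equality of linear forms, keys of both contained in `K` -/
def eqOn (K : List ℕ) (L L' : List (ℕ × ℤ)) : Bool :=
  keysIn K L && (keysIn K L' && K.all fun T => decide (co T L = co T L'))

theorem ev_eq_of_eqOn (y : ℕ → ℝ) (K : List ℕ) (hK : K.Nodup) {L L' : List (ℕ × ℤ)}
    (h : eqOn K L L' = true) : ev y L = ev y L' := by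
  unfold eqOn at h
  rw [Bool.and_eq_true, Bool.and_eq_true, keysIn_iff, keysIn_iff, List.all_eq_true] at h
  obtain ⟨h1, h2, h3⟩ := h
  rw [ev_eq_sum y K hK L h1, ev_eq_sum y K hK L' h2]
  congr 1
  refine List.map_congr_left fun T hT => ?_
  rw [of_decide_eq_true (h3 T hT)]

/-! ### masks -/

/-- the set with mask `i` -/
def F (i : ℕ) : Finset (Fin 9) := univ.filter fun k => i.testBit (k : ℕ) = true

theorem mem_F (i : ℕ) (k : Fin 9) : k ∈ F i ↔ i.testBit (k : ℕ) = true := by
  unfold F
  simp

theorem F_zero : F 0 = ∅ := by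
  ext k
  simp [mem_F]

theorem F_or (i j : ℕ) : F (i ||| j) = F i ∪ F j := by
  ext k
  simp [mem_F]

theorem F_insert (i : ℕ) (m : Fin 9) : F (i ||| 2 ^ (m : ℕ)) = insert m (F i) := by
  ext k
  rw [mem_F, Finset.mem_insert, mem_F, Nat.testBit_or, Nat.testBit_two_pow, Bool.or_eq_true,
    decide_eq_true_eq, ← Fin.ext_iff, eq_comm (a := m), or_comm]

theorem list_sum_range (n : ℕ) (f : ℕ → ℝ) :
    ((List.range n).map f).sum = ∑ k : Fin n, f k := by
  induction n with
  | zero => simp
  | succ n ih =>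
    rw [List.range_succ, List.map_append, List.sum_append, ih, Fin.sum_univ_castSucc]
    simp

theorem list_prod_range (n : ℕ) (f : ℕ → ℤ) :
    ((List.range n).map f).prod = ∏ k : Fin n, f k := by
  induction n with
  | zero => simp
  | succ n ih =>
    rw [List.range_succ, List.map_append, List.prod_append, ih, Fin.prod_univ_castSucc]
    simp

/-! ### annihilation of sets -/

/-- sign of a set of annihilators -/
noncomputable def sgS (U R : Finset (Fin 9)) : ℝ := ∏ t ∈ U, sgn t R

/-- annihilation of the set `U` -/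
noncomputable def ann (U : Finset (Fin 9)) (g : Finset (Fin 9) → ℝ) (R : Finset (Fin 9)) : ℝ :=
  if Disjoint U R then sgS U R * g (U ∪ R) else 0

/-- exchange sign -/
def ep (m : Fin 9) (U : Finset (Fin 9)) : ℤ := ∏ t ∈ U, if m < t then -1 else 1

theorem sgn_insert (m t : Fin 9) (R : Finset (Fin 9)) (hm : m ∉ R) :
    sgn t (insert m R) = sgn t R * (if m < t then -1 else 1) := by
  unfold sgn
  rw [Finset.filter_insert]
  by_cases h : m < t
  · rw [if_pos h, if_pos h, Finset.card_insert_of_notMem, pow_succ]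
    intro h1
    exact hm (Finset.mem_filter.1 h1).1
  · rw [if_neg h, if_neg h, mul_one]

theorem lann_ann (m : Fin 9) (U : Finset (Fin 9)) (g : Finset (Fin 9) → ℝ)
    (R : Finset (Fin 9)) :
    lann m (ann U g) R = if m ∈ U then 0 else (ep m U : ℝ) * ann (insert m U) g R := by
  unfold lann
  by_cases hR : m ∈ R
  · rw [if_pos hR]
    by_cases hU : m ∈ U
    · rw [if_pos hU]
    · rw [if_neg hU]
      unfold ann
      rw [if_neg, mul_zero]
      rw [Finset.disjoint_insert_left]
      exact fun h => h.1 hR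
  · rw [if_neg hR]
    by_cases hU : m ∈ U
    · rw [if_pos hU]
      unfold ann
      rw [if_neg, mul_zero]
      rw [Finset.disjoint_insert_right]
      exact fun h => h.1 hU
    · rw [if_neg hU]
      unfold ann
      by_cases hd : Disjoint U R
      · rw [if_pos, if_pos]
        · unfold sgS ep
          rw [Finset.prod_insert hU]
          have h1 : ∏ t ∈ U, sgn t (insert m R) =
              (∏ t ∈ U, sgn t R) * ∏ t ∈ U, (if m < t then (-1 : ℝ) else 1) := by
            rw [← Finset.prod_mul_distrib]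
            exact Finset.prod_congr rfl fun t _ => sgn_insert m t R hR
          rw [h1, Finset.union_insert, Finset.insert_union]
          push_cast
          ring
        · rw [Finset.disjoint_insert_left]
          exact ⟨hR, hd⟩
        · rw [Finset.disjoint_insert_right]
          exact ⟨hU, hd⟩
      · rw [if_neg, if_neg, mul_zero, mul_zero]
        · rw [Finset.disjoint_insert_left]
          exact fun h => hd h.2
        · rw [Finset.disjoint_insert_right]
          exact fun h => hd h.2

theorem ann_empty (g : Finset (Fin 9) → ℝ) : ann ∅ g = g := by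
  funext R
  unfold ann sgS
  rw [if_pos (Finset.disjoint_empty_left R), Finset.prod_empty, one_mul, Finset.empty_union]

/-! ### lists of annihilators -/

/-- value of a list of annihilators -/
noncomputable def evA (L : List (ℕ × ℤ)) (g : Finset (Fin 9) → ℝ) (R : Finset (Fin 9)) : ℝ :=
  ev (fun T => ann (F T) g R) L

/-- exchange sign, by masks -/
def epM (m T : ℕ) : ℤ :=
  ((List.range 9).map fun t => if T.testBit t = true ∧ m < t then (-1 : ℤ) else 1).prod

theorem epM_eq (m : Fin 9) (T : ℕ) : epM m T = ep m (F T) := by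
  unfold epM ep F
  rw [Finset.prod_filter, list_prod_range]
  refine Finset.prod_congr rfl fun k _ => ?_
  by_cases h1 : T.testBit (k : ℕ) = true
  · rw [if_pos h1]
    by_cases h2 : m < k
    · rw [if_pos h2, if_pos ⟨h1, h2⟩]
    · rw [if_neg h2, if_neg fun h => h2 h.2]
  · rw [if_neg h1, if_neg fun h => h1 h.1]

/-- one more annihilator -/
def lannL (m : ℕ) : List (ℕ × ℤ) → List (ℕ × ℤ)
  | [] => []
  | p :: L => cond (p.1.testBit m) (lannL m L) ((p.1 ||| 2 ^ m, epM m p.1 * p.2) :: lannL m L)

theorem lann_add (m : Fin 9) (c : ℝ) (f h : Finset (Fin 9) → ℝ) (R : Finset (Fin 9)) :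
    lann m (fun R => c * f R + h R) R = c * lann m f R + lann m h R := by
  unfold lann
  by_cases hR : m ∈ R
  · simp [hR]
  · simp only [hR, if_false]
    ring

theorem lann_evA (m : Fin 9) (L : List (ℕ × ℤ)) (g : Finset (Fin 9) → ℝ) :
    lann m (evA L g) = evA (lannL m L) g := by
  funext R
  induction L with
  | nil =>
    have h : evA [] g = fun _ => 0 := by
      funext R
      simp [evA, ev]
    rw [lannL, h]
    unfold lann
    simp
  | cons p L ih =>
    have h : evA (p :: L) g = fun R => (p.2 : ℝ) * ann (F p.1) g R + evA L g R := by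
      funext R
      simp [evA, ev]
    rw [h, lann_add, ih, lann_ann, lannL]
    by_cases hT : p.1.testBit (m : ℕ) = true
    · rw [if_pos ((mem_F _ _).2 hT), hT, mul_zero, zero_add]
      rfl
    · rw [if_neg fun h => hT ((mem_F _ _).1 h)]
      rw [Bool.not_eq_true] at hT
      rw [hT, cond_false]
      unfold evA
      rw [ev, F_insert, epM_eq]
      push_cast
      ring

/-- one more pair annihilator -/
def lbL (s : ℕ) (L : List (ℕ × ℤ)) : List (ℕ × ℤ) :=
  (List.range 9).flatMap fun a => (List.range 9).flatMap fun b =>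
    if a < b ∧ a + b = s + 1 then sc ((b : ℤ) - (a : ℤ)) (lannL b (lannL a L)) else []

theorem lb_evA (s : ℕ) (L : List (ℕ × ℤ)) (g : Finset (Fin 9) → ℝ) :
    lb s (evA L g) = evA (lbL s L) g := by
  funext R
  unfold lb evA lbL
  rw [ev_flatMap, list_sum_range]
  refine Finset.sum_congr rfl fun a _ => ?_
  rw [ev_flatMap, list_sum_range]
  refine Finset.sum_congr rfl fun b _ => ?_
  by_cases h : a < b ∧ (a : ℕ) + b = s + 1
  · rw [if_pos h, if_pos ⟨h.1, h.2⟩, ev_sc]
    have h1 : lann b (lann a (evA L g)) = evA (lannL b (lannL a L)) g := by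
      rw [lann_evA, lann_evA]
    have h2 := congrFun h1 R
    unfold evA at h2
    rw [h2]
    push_cast
    ring
  · rw [if_neg h, if_neg fun h' => h ⟨h'.1, h'.2⟩, ev]

theorem evA_e0 (g : Finset (Fin 9) → ℝ) : evA [(0, 1)] g = g := by
  funext R
  unfold evA
  rw [ev, ev, F_zero, ann_empty]
  simp

/-! ### the local form at `R` -/

/-- first level lists -/
def L2 (s : ℕ) : List (ℕ × ℤ) := lbL s [(0, 1)]
def L3 (r m : ℕ) : List (ℕ × ℤ) := lannL m (L2 r)
def L4 (r s : ℕ) : List (ℕ × ℤ) := lbL s (L2 r)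

theorem lb_eq (s : ℕ) (g : Finset (Fin 9) → ℝ) : lb s g = evA (L2 s) g := by
  have h := lb_evA s [(0, 1)] g
  rwa [evA_e0] at h

theorem lann_lb_eq (r : ℕ) (m : Fin 9) (g : Finset (Fin 9) → ℝ) :
    lann m (lb r g) = evA (L3 r m) g := by
  rw [lb_eq, lann_evA]
  rfl

theorem lb_lb_eq (r s : ℕ) (g : Finset (Fin 9) → ℝ) :
    lb s (lb r g) = evA (L4 r s) g := by
  rw [lb_eq r, lb_evA]
  rfl

/-- second factors -/
def W3 (r m : ℕ) : List (ℕ × ℤ) :=
  (List.range 8).flatMap fun r' => (List.range 9).flatMap fun m' =>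
    if r + m = r' + m' then sc (X1z r m r' m') (L3 r' m') else []

def W4 (r s : ℕ) : List (ℕ × ℤ) :=
  (List.range 8).flatMap fun r' => (List.range 8).flatMap fun s' =>
    if r + s = r' + s' then sc (X2z r s r' s') (L4 r' s') else []

theorem ev_W3 (y : ℕ → ℝ) (r m : ℕ) :
    ev y (W3 r m) = ∑ r' : Fin 8, ∑ m' : Fin 9, (X1z r m r' m' : ℝ) * ev y (L3 r' m') := by
  unfold W3
  rw [ev_flatMap, list_sum_range]
  refine Finset.sum_congr rfl fun r' _ => ?_
  rw [ev_flatMap, list_sum_range]
  refine Finset.sum_congr rfl fun m' _ => ?_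
  by_cases h : r + m = (r' : ℕ) + m'
  · rw [if_pos h, ev_sc]
  · rw [if_neg h, ev]
    have h1 : X1z r m r' m' = 0 := by
      unfold X1z
      rw [if_neg fun h' => h h'.1]
    rw [h1]
    simp

theorem ev_W4 (y : ℕ → ℝ) (r s : ℕ) :
    ev y (W4 r s) = ∑ r' : Fin 8, ∑ s' : Fin 8, (X2z r s r' s' : ℝ) * ev y (L4 r' s') := by
  unfold W4
  rw [ev_flatMap, list_sum_range]
  refine Finset.sum_congr rfl fun r' _ => ?_
  rw [ev_flatMap, list_sum_range]
  refine Finset.sum_congr rfl fun s' _ => ?_
  by_cases h : r + s = (r' : ℕ) + s'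
  · rw [if_pos h, ev_sc]
  · rw [if_neg h, ev]
    have h1 : X2z r s r' s' = 0 := by
      unfold X2z
      rw [if_neg fun h' => h h'.1]
    rw [h1]
    simp

/-- sum of products of linear forms -/
noncomputable def evB (y : ℕ → ℝ) (B : List (List (ℕ × ℤ) × List (ℕ × ℤ))) : ℝ :=
  (B.map fun p => ev y p.1 * ev y p.2).sum

theorem evB_append (y : ℕ → ℝ) (B B' : List (List (ℕ × ℤ) × List (ℕ × ℤ))) :
    evB y (B ++ B') = evB y B + evB y B' := by
  unfold evB
  rw [List.map_append, List.sum_append]

theorem evB_flatMap {α : Type*} (y : ℕ → ℝ) (l : List α)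
    (f : α → List (List (ℕ × ℤ) × List (ℕ × ℤ))) :
    evB y (l.flatMap f) = (l.map fun a => evB y (f a)).sum := by
  induction l with
  | nil => simp [evB]
  | cons a l ih => rw [List.flatMap_cons, evB_append, ih, List.map_cons, List.sum_cons]

/-- the bilinear list, with tables `Z3`, `Z4` for the second factors -/
def BL (Z3 Z4 : ℕ → ℕ → List (ℕ × ℤ)) : List (List (ℕ × ℤ) × List (ℕ × ℤ)) :=
  ((List.range 8).map fun s => (L2 s, sc (X0z s) (L2 s))) ++
  (((List.range 8).flatMap fun r => (List.range 9).map fun m => (L3 r m, Z3 r m)) ++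
  ((List.range 8).flatMap fun r => (List.range 8).map fun s => (L4 r s, Z4 r s)))

theorem locR_eq (Z3 Z4 : ℕ → ℕ → List (ℕ × ℤ))
    (h3 : ∀ (y : ℕ → ℝ) (r : Fin 8) (m : Fin 9), ev y (Z3 r m) = ev y (W3 r m))
    (h4 : ∀ (y : ℕ → ℝ) (r : Fin 8) (s : Fin 8), ev y (Z4 r s) = ev y (W4 r s))
    (g : Finset (Fin 9) → ℝ) (R : Finset (Fin 9)) :
    65536 * locR g R = evB (fun T => ann (F T) g R) (BL Z3 Z4) := by
  unfold BL
  rw [evB_append, evB_append, evB_flatMap, evB_flatMap, list_sum_range, list_sum_range]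
  unfold locR
  rw [mul_add, mul_add, add_assoc]
  congr 1
  · unfold evB
    rw [List.map_map, list_sum_range, Finset.mul_sum]
    refine Finset.sum_congr rfl fun s _ => ?_
    simp only [Function.comp_apply]
    rw [ev_sc, lb_eq]
    unfold X0r evA
    ring
  · congr 1
    · rw [Finset.mul_sum]
      refine Finset.sum_congr rfl fun r _ => ?_
      unfold evB
      rw [List.map_map, list_sum_range, Finset.mul_sum]
      refine Finset.sum_congr rfl fun m _ => ?_
      simp only [Function.comp_apply]
      rw [h3, ev_W3, Finset.mul_sum, Finset.mul_sum]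
      refine Finset.sum_congr rfl fun r' _ => ?_
      rw [Finset.mul_sum, Finset.mul_sum]
      refine Finset.sum_congr rfl fun m' _ => ?_
      rw [lann_lb_eq, lann_lb_eq]
      unfold X1r evA
      ring
    · rw [Finset.mul_sum]
      refine Finset.sum_congr rfl fun r _ => ?_
      unfold evB
      rw [List.map_map, list_sum_range, Finset.mul_sum]
      refine Finset.sum_congr rfl fun m _ => ?_
      simp only [Function.comp_apply]
      rw [h4, ev_W4, Finset.mul_sum, Finset.mul_sum]
      refine Finset.sum_congr rfl fun r' _ => ?_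
      rw [Finset.mul_sum, Finset.mul_sum]
      refine Finset.sum_congr rfl fun m' _ => ?_
      rw [lb_lb_eq, lb_lb_eq]
      unfold X2r evA
      ring

/-! ### from the bilinear list to rows -/

/-- multiple, empty if the coefficient vanishes -/
def scz (c : ℤ) (L : List (ℕ × ℤ)) : List (ℕ × ℤ) := if c = 0 then [] else sc c L

theorem ev_scz (y : ℕ → ℝ) (c : ℤ) (L : List (ℕ × ℤ)) : ev y (scz c L) = c * ev y L := by
  unfold scz
  by_cases h : c = 0
  · rw [if_pos h, h, ev]
    simp
  · rw [if_neg h, ev_sc]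

/-- the row of `T` in the bilinear list -/
def rowB (T : ℕ) (B : List (List (ℕ × ℤ) × List (ℕ × ℤ))) : List (ℕ × ℤ) :=
  B.flatMap fun p => scz (co T p.1) p.2

/-- value of a list of rows -/
noncomputable def evG (y : ℕ → ℝ) (G : List (ℕ × List (ℕ × ℤ))) : ℝ :=
  (G.map fun r => y r.1 * ev y r.2).sum

theorem evB_eq_rows (y : ℕ → ℝ) (K : List ℕ) (hK : K.Nodup)
    (B : List (List (ℕ × ℤ) × List (ℕ × ℤ))) (hB : ∀ p ∈ B, keysIn K p.1 = true) :
    evB y B = (K.map fun T => y T * ev y (rowB T B)).sum := by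
  induction B with
  | nil => simp [evB, rowB, ev]
  | cons p B ih =>
    have h1 : evB y (p :: B) = ev y p.1 * ev y p.2 + evB y B := by
      unfold evB
      rw [List.map_cons, List.sum_cons]
    rw [h1, ih fun q hq => hB q (List.mem_cons_of_mem p hq)]
    have h2 : (K.map fun T => y T * ev y (rowB T (p :: B))).sum =
        (K.map fun T => (co T p.1 : ℝ) * y T * ev y p.2).sum +
          (K.map fun T => y T * ev y (rowB T B)).sum := by
      rw [← List.sum_map_add]
      congr 1
      refine List.map_congr_left fun T _ => ?_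
      unfold rowB
      rw [List.flatMap_cons, ev_append, ev_scz]
      ring
    rw [h2]
    congr 1
    have h3 := (keysIn_iff K p.1).1 (hB p List.mem_cons_self)
    rw [ev_eq_sum y K hK p.1 h3, List.sum_map_mul_right]

/-- check of a group of rows -/
def chkG (B : List (List (ℕ × ℤ) × List (ℕ × ℤ))) (G : List ℕ × List (ℕ × List (ℕ × ℤ))) :
    Bool :=
  decide G.1.Nodup && G.2.all fun r => eqOn G.1 r.2 (rowB r.1 B)

theorem evB_eq_evG (y : ℕ → ℝ) (B : List (List (ℕ × ℤ) × List (ℕ × ℤ)))
    (GG : List (List ℕ × List (ℕ × List (ℕ × ℤ))))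
    (hK : ((GG.flatMap fun G => G.2).map fun r => r.1).Nodup)
    (hB : ∀ p ∈ B, keysIn ((GG.flatMap fun G => G.2).map fun r => r.1) p.1 = true)
    (hG : ∀ G ∈ GG, chkG B G = true) : evB y B = evG y (GG.flatMap fun G => G.2) := by
  rw [evB_eq_rows y _ hK B hB, List.map_map]
  unfold evG
  congr 1
  refine List.map_congr_left fun r hr => ?_
  simp only [Function.comp_apply]
  obtain ⟨G, hG1, hG2⟩ := List.mem_flatMap.1 hr
  have h1 := hG G hG1
  unfold chkG at h1
  rw [Bool.and_eq_true, List.all_eq_true] at h1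
  rw [ev_eq_of_eqOn y G.1 (of_decide_eq_true h1.1) (h1.2 r hG2)]

end Vale.Agent.P359.LI
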