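import Vale.Agent.Lib.P359.LocInfA

/-!
# P359 / LocInf, part B : sums over sets as sums over masks, block certificates
-/

namespace Vale.Agent.P359.LI

open Finset

/-! ### masks below `512` -/

theorem F_injOn : Set.InjOn F (range 512 : Finset ℕ) := by
  intro i hi j hj h
  rw [Finset.mem_coe, Finset.mem_range] at hi hj
  apply Nat.eq_of_testBit_eq
  intro k
  by_cases hk : k < 9
  · have h1 : (⟨k, hk⟩ : Fin 9) ∈ F i ↔ (⟨k, hk⟩ : Fin 9) ∈ F j := by rw [h]
    rw [mem_F, mem_F] at h1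
    exact Bool.eq_iff_iff.2 h1
  · have h9 : 512 ≤ 2 ^ k := by
      calc 512 = 2 ^ 9 := by norm_num
        _ ≤ 2 ^ k := Nat.pow_le_pow_right (by norm_num) (by omega)
    rw [Nat.testBit_lt_two_pow (by omega), Nat.testBit_lt_two_pow (by omega)]

theorem F_image : (range 512).image F = univ := by
  apply Finset.eq_univ_of_card
  rw [Finset.card_image_of_injOn F_injOn]
  simp

theorem sum_masks (f : Finset (Fin 9) → ℝ) : ∑ R, f R = ∑ i ∈ range 512, f (F i) := by
  rw [← F_image, Finset.sum_image F_injOn]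

theorem disjoint_F_iff {T μ : ℕ} (hT : T < 512) : Disjoint (F T) (F μ) ↔ T &&& μ = 0 := by
  rw [Finset.disjoint_left]
  constructor
  · intro h
    apply Nat.eq_of_testBit_eq
    intro k
    rw [Nat.testBit_and, Nat.zero_testBit]
    by_cases hk : k < 9
    · have h1 := h (a := ⟨k, hk⟩)
      rw [mem_F, mem_F] at h1
      simp only at h1
      by_cases h2 : T.testBit k = true
      · rw [h2, Bool.true_and]
        exact Bool.eq_false_iff.2 (h1 h2)
      · rw [Bool.eq_false_iff.2 h2, Bool.false_and]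
    · have h9 : 512 ≤ 2 ^ k := by
        calc 512 = 2 ^ 9 := by norm_num
          _ ≤ 2 ^ k := Nat.pow_le_pow_right (by norm_num) (by omega)
      rw [Nat.testBit_lt_two_pow (by omega), Bool.false_and]
  · intro h k h1 h2
    rw [mem_F] at h1 h2
    have h3 : (T &&& μ).testBit (k : ℕ) = true := by
      rw [Nat.testBit_and, h1, h2]
      rfl
    rw [h, Nat.zero_testBit] at h3
    exact Bool.false_ne_true h3

theorem and_xor_eq_zero (T i : ℕ) : T &&& (i ^^^ T) = 0 ↔ T &&& i = T := by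
  constructor
  · intro h
    apply Nat.eq_of_testBit_eq
    intro k
    have h1 : (T &&& (i ^^^ T)).testBit k = false := by rw [h, Nat.zero_testBit]
    rw [Nat.testBit_and, Nat.testBit_xor] at h1
    rw [Nat.testBit_and]
    revert h1
    cases T.testBit k <;> cases i.testBit k <;> simp
  · intro h
    apply Nat.eq_of_testBit_eq
    intro k
    have h1 : (T &&& i).testBit k = T.testBit k := by rw [h]
    rw [Nat.testBit_and] at h1
    rw [Nat.testBit_and, Nat.testBit_xor, Nat.zero_testBit]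
    revert h1
    cases T.testBit k <;> cases i.testBit k <;> simp

theorem or_xor_eq {T i : ℕ} (h : T &&& i = T) : T ||| (i ^^^ T) = i := by
  apply Nat.eq_of_testBit_eq
  intro k
  have h1 : (T &&& i).testBit k = T.testBit k := by rw [h]
  rw [Nat.testBit_and] at h1
  rw [Nat.testBit_or, Nat.testBit_xor]
  revert h1
  cases T.testBit k <;> cases i.testBit k <;> simp

theorem sum_xor (T : ℕ) (hT : T < 512) (f : ℕ → ℝ) :
    ∑ μ ∈ range 512, f μ = ∑ i ∈ range 512, f (i ^^^ T) := by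
  refine Finset.sum_nbij' (fun μ => μ ^^^ T) (fun i => i ^^^ T) ?_ ?_ ?_ ?_ ?_
  · intro μ hμ
    rw [Finset.mem_range] at hμ ⊢
    exact Nat.xor_lt_two_pow (n := 9) hμ hT
  · intro μ hμ
    rw [Finset.mem_range] at hμ ⊢
    exact Nat.xor_lt_two_pow (n := 9) hμ hT
  · intro μ _
    simp only [Nat.xor_assoc, Nat.xor_self, Nat.xor_zero]
  · intro μ _
    simp only [Nat.xor_assoc, Nat.xor_self, Nat.xor_zero]
  · intro μ _
    simp only [Nat.xor_assoc, Nat.xor_self, Nat.xor_zero]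

/-! ### signs and weights -/

/-- sign of a mask: parity of the number of bits -/
def pr (n : ℕ) : ℤ :=
  cond (Nat.beq ((fun a => (fun b => (fun c => (c ^^^ (c >>> 8)) % 2) (b ^^^ (b >>> 4)))
    (a ^^^ (a >>> 2))) (n ^^^ (n >>> 1))) 1) (-1) 1

/-- cumulative parities -/
def qm (μ : ℕ) : ℕ :=
  (fun a => (fun b => (fun c => c ^^^ (c <<< 8)) (b ^^^ (b <<< 4))) (a ^^^ (a <<< 2)))
    ((fun d => d ^^^ (d <<< 1)) (μ <<< 1))

/-- product form -/
def prod9 (f : ℕ → ℤ) : ℤ := ((List.range 9).map f).prod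

theorem pr_eq : ∀ n < 512, pr n = prod9 fun t => if n.testBit t = true then -1 else 1 := by
  decide +kernel

theorem qm_eq : ∀ μ < 512, ∀ t < 9, (if (qm μ).testBit t = true then (-1 : ℤ) else 1) =
    prod9 fun k => if μ.testBit k = true ∧ k < t then -1 else 1 := by
  decide +kernel

theorem sgn_F {μ : ℕ} (hμ : μ < 512) (t : Fin 9) :
    sgn t (F μ) = (((if (qm μ).testBit (t : ℕ) = true then (-1 : ℤ) else 1) : ℤ) : ℝ) := by
  rw [qm_eq μ hμ t t.2]
  unfold prod9
  rw [list_prod_range]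
  unfold sgn F
  rw [Finset.filter_filter, ← Finset.prod_const, Finset.prod_filter]
  push_cast
  refine Finset.prod_congr rfl fun k _ => ?_
  by_cases h1 : μ.testBit (k : ℕ) = true
  · by_cases h2 : k < t
    · rw [if_pos ⟨h1, h2⟩, if_pos ⟨h1, h2⟩]
    · rw [if_neg fun h => h2 h.2, if_neg fun h => h2 h.2]
  · rw [if_neg fun h => h1 h.1, if_neg fun h => h1 h.1]

theorem sgS_F {μ : ℕ} (hμ : μ < 512) (T : ℕ) :
    sgS (F T) (F μ) =
      ((prod9 fun t => if (T &&& qm μ).testBit t = true then -1 else 1 : ℤ) : ℝ) := by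
  unfold sgS
  rw [Finset.prod_congr rfl fun t _ => sgn_F hμ t]
  unfold prod9
  rw [list_prod_range]
  unfold F
  rw [Finset.prod_filter]
  push_cast
  refine Finset.prod_congr rfl fun k _ => ?_
  rw [Nat.testBit_and]
  cases T.testBit (k : ℕ) <;> cases (qm μ).testBit (k : ℕ) <;> simp

theorem sgS_mul {μ : ℕ} (hμ : μ < 512) {T T' : ℕ} (hT : T < 512) (hT' : T' < 512) :
    sgS (F T) (F μ) * sgS (F T') (F μ) = ((pr ((T ^^^ T') &&& qm μ) : ℤ) : ℝ) := by
  have h1 : (T ^^^ T') &&& qm μ < 512 :=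
    lt_of_le_of_lt Nat.and_le_left (Nat.xor_lt_two_pow (n := 9) hT hT')
  rw [sgS_F hμ, sgS_F hμ, pr_eq _ h1, ← Int.cast_mul]
  congr 1
  unfold prod9
  rw [list_prod_range, list_prod_range, list_prod_range, ← Finset.prod_mul_distrib]
  refine Finset.prod_congr rfl fun k _ => ?_
  rw [Nat.testBit_and, Nat.testBit_and, Nat.testBit_and, Nat.testBit_xor]
  cases T.testBit (k : ℕ) <;> cases T'.testBit (k : ℕ) <;> cases (qm μ).testBit (k : ℕ) <;> simp

/-- the weight of a mask -/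
def Wt (μ : ℕ) : ℕ :=
  cond (μ.testBit 2) 2 1 * (cond (μ.testBit 3) 6 1 * (cond (μ.testBit 4) 24 1 *
    (cond (μ.testBit 5) 120 1 * (cond (μ.testBit 6) 720 1 * (cond (μ.testBit 7) 5040 1 *
      cond (μ.testBit 8) 40320 1)))))

theorem Wt_eq : ∀ μ < 512, (Wt μ : ℤ) =
    prod9 fun k => if μ.testBit k = true then ((k.factorial : ℕ) : ℤ) else 1 := by
  decide +kernel

theorem weight_F {μ : ℕ} (hμ : μ < 512) :
    ∏ k ∈ F μ, (((k : ℕ).factorial : ℕ) : ℝ) = (Wt μ : ℝ) := by
  have h := Wt_eq μ hμ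
  have h2 : (Wt μ : ℝ) = ((Wt μ : ℤ) : ℝ) := by push_cast; rfl
  rw [h2, h]
  unfold prod9 F
  rw [list_prod_range, Finset.prod_filter]
  push_cast
  rfl

/-! ### the rows of the local form -/

/-- contribution of one row -/
def rowP (T μ : ℕ) : List (ℕ × ℤ) → List (ℕ × ℤ)
  | [] => []
  | p :: L => cond (Nat.beq (p.1 &&& μ) 0)
      ((p.1 ||| μ, p.2 * ((Wt μ : ℤ) * pr ((T ^^^ p.1) &&& qm μ))) :: rowP T μ L) (rowP T μ L)

/-- row `i` of the local form -/
def rowA (i : ℕ) : List (ℕ × List (ℕ × ℤ)) → List (ℕ × ℤ)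
  | [] => []
  | r :: G => cond (Nat.beq (r.1 &&& i) r.1) (rowP r.1 (i ^^^ r.1) r.2 ++ rowA i G) (rowA i G)

theorem ann_F (g : Finset (Fin 9) → ℝ) {T : ℕ} (hT : T < 512) (μ : ℕ) :
    ann (F T) g (F μ) = if T &&& μ = 0 then sgS (F T) (F μ) * g (F (T ||| μ)) else 0 := by
  unfold ann
  rw [F_or]
  by_cases h : T &&& μ = 0
  · rw [if_pos h, if_pos ((disjoint_F_iff hT).2 h)]
  · rw [if_neg h, if_neg fun h' => h ((disjoint_F_iff hT).1 h')]

theorem ev_rowP (g : Finset (Fin 9) → ℝ) {T μ : ℕ} (hT : T < 512) (hμ : μ < 512)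
    (L : List (ℕ × ℤ)) (hL : ∀ p ∈ L, p.1 < 512) :
    ev (fun i => g (F i)) (rowP T μ L) =
      (Wt μ : ℝ) * sgS (F T) (F μ) * ev (fun T' => ann (F T') g (F μ)) L := by
  induction L with
  | nil => simp [rowP, ev]
  | cons p L ih =>
    have h1 := ih fun q hq => hL q (List.mem_cons_of_mem p hq)
    have h2 := hL p List.mem_cons_self
    rw [rowP, ev, ann_F g h2]
    by_cases h3 : p.1 &&& μ = 0
    · rw [(nat_beq_iff _ _).2 h3, cond_true, ev, h1, if_pos h3]
      have h4 := sgS_mul hμ hT h2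
      push_cast
      rw [← h4]
      ring
    · have h4 : Nat.beq (p.1 &&& μ) 0 = false := by
        rw [← Bool.not_eq_true, nat_beq_iff]
        exact h3
      rw [h4, cond_false, h1, if_neg h3]
      ring

theorem form_rows (g : Finset (Fin 9) → ℝ) (G : List (ℕ × List (ℕ × ℤ)))
    (hG : ∀ r ∈ G, r.1 < 512 ∧ ∀ p ∈ r.2, p.1 < 512) :
    ∑ R : Finset (Fin 9), (∏ k ∈ R, (((k : ℕ).factorial : ℕ) : ℝ)) *
        evG (fun T => ann (F T) g R) G =
      ∑ i ∈ range 512, g (F i) * ev (fun i => g (F i)) (rowA i G) := by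
  rw [sum_masks]
  have h0 : ∀ μ ∈ range 512, (∏ k ∈ F μ, (((k : ℕ).factorial : ℕ) : ℝ)) *
      evG (fun T => ann (F T) g (F μ)) G = (Wt μ : ℝ) * evG (fun T => ann (F T) g (F μ)) G := by
    intro μ hμ
    rw [weight_F (Finset.mem_range.1 hμ)]
  rw [Finset.sum_congr rfl h0]
  clear h0
  induction G with
  | nil => simp [evG, rowA, ev]
  | cons r G ih =>
    have h1 := ih fun q hq => hG q (List.mem_cons_of_mem r hq)
    obtain ⟨h2, h3⟩ := hG r List.mem_cons_self
    have h4 : ∀ y : ℕ → ℝ, evG y (r :: G) = y r.1 * ev y r.2 + evG y G := by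
      intro y
      unfold evG
      rw [List.map_cons, List.sum_cons]
    simp only [h4, mul_add, Finset.sum_add_distrib]
    rw [h1, sum_xor r.1 h2, ← Finset.sum_add_distrib]
    refine Finset.sum_congr rfl fun i hi => ?_
    rw [Finset.mem_range] at hi
    have hμ : i ^^^ r.1 < 512 := Nat.xor_lt_two_pow (n := 9) hi h2
    rw [rowA, ann_F g h2]
    by_cases h5 : r.1 &&& i = r.1
    · rw [(nat_beq_iff _ _).2 h5, cond_true, ev_append, ev_rowP g h2 hμ r.2 h3,
        if_pos ((and_xor_eq_zero _ _).2 h5), or_xor_eq h5]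
      ring
    · have h6 : Nat.beq (r.1 &&& i) r.1 = false := by
        rw [← Bool.not_eq_true, nat_beq_iff]
        exact h5
      rw [h6, cond_false, if_neg fun h => h5 ((and_xor_eq_zero _ _).1 h)]
      ring

/-! ### blocks -/

/-- the entry of the certificate -/
def cV (i j : ℕ) : List (ℕ × List (ℕ × ℤ)) → ℤ
  | [] => 0
  | v :: V => (v.1 : ℤ) * (co i v.2 * co j v.2) + cV i j V

/-- check of a block `(b, D, V)` -/
def chkBlk (G : List (ℕ × List (ℕ × ℤ))) (B : List ℕ × ℕ × List (ℕ × List (ℕ × ℤ))) : Bool :=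
  decide (0 < B.2.1) && (decide B.1.Nodup &&
    B.1.all fun i => keysIn B.1 (rowA i G) &&
      B.1.all fun j => decide ((B.2.1 : ℤ) * co j (rowA i G) = cV i j B.2.2))

theorem cV_sum (x : ℕ → ℝ) (s : Finset ℕ) (V : List (ℕ × List (ℕ × ℤ))) :
    ∑ i ∈ s, ∑ j ∈ s, (cV i j V : ℝ) * (x i * x j) =
      (V.map fun v => (v.1 : ℝ) * (∑ i ∈ s, (co i v.2 : ℝ) * x i) ^ 2).sum := by
  induction V with
  | nil => simp [cV]
  | cons v V ih =>
    rw [List.map_cons, List.sum_cons, ← ih, sq, Finset.sum_mul_sum, Finset.mul_sum,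
      ← Finset.sum_add_distrib]
    refine Finset.sum_congr rfl fun i _ => ?_
    rw [Finset.mul_sum, ← Finset.sum_add_distrib]
    refine Finset.sum_congr rfl fun j _ => ?_
    rw [cV]
    push_cast
    ring

theorem blk_nonneg (x : ℕ → ℝ) (G : List (ℕ × List (ℕ × ℤ)))
    (B : List ℕ × ℕ × List (ℕ × List (ℕ × ℤ))) (h : chkBlk G B = true) :
    0 ≤ (B.1.map fun i => x i * ev x (rowA i G)).sum := by
  unfold chkBlk at h
  rw [Bool.and_eq_true, Bool.and_eq_true, List.all_eq_true] at h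
  obtain ⟨h1, h2, h3⟩ := h
  have hD : 0 < B.2.1 := of_decide_eq_true h1
  have hN : B.1.Nodup := of_decide_eq_true h2
  have hD' : (0 : ℝ) < (B.2.1 : ℝ) := by exact_mod_cast hD
  rw [← List.sum_toFinset _ hN]
  have h4 : ∀ i ∈ B.1.toFinset, (B.2.1 : ℝ) * (x i * ev x (rowA i G)) =
      ∑ j ∈ B.1.toFinset, (cV i j B.2.2 : ℝ) * (x i * x j) := by
    intro i hi
    have h5 := h3 i (List.mem_toFinset.1 hi)
    rw [Bool.and_eq_true, List.all_eq_true] at h5
    rw [ev_eq_sum x B.1 hN _ ((keysIn_iff _ _).1 h5.1), ← List.sum_toFinset _ hN,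
      Finset.mul_sum, Finset.mul_sum]
    refine Finset.sum_congr rfl fun j hj => ?_
    have h6 := of_decide_eq_true (h5.2 j (List.mem_toFinset.1 hj))
    rw [← h6]
    push_cast
    ring
  have h5 : (B.2.1 : ℝ) * ∑ i ∈ B.1.toFinset, x i * ev x (rowA i G) =
      (B.2.2.map fun v => (v.1 : ℝ) * (∑ i ∈ B.1.toFinset, (co i v.2 : ℝ) * x i) ^ 2).sum := by
    rw [← cV_sum, Finset.mul_sum]
    exact Finset.sum_congr rfl h4
  have h6 : 0 ≤ (B.2.2.map fun v =>
      (v.1 : ℝ) * (∑ i ∈ B.1.toFinset, (co i v.2 : ℝ) * x i) ^ 2).sum := by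
    refine List.sum_nonneg fun z hz => ?_
    obtain ⟨v, _, rfl⟩ := List.mem_map.1 hz
    positivity
  rw [← h5] at h6
  exact nonneg_of_mul_nonneg_right h6 hD'

/-- bit set of a list -/
def orf : List ℕ → ℕ
  | [] => 0
  | i :: l => (2 ^ i) ||| orf l

theorem mem_of_orf (l : List ℕ) (k : ℕ) (h : (orf l).testBit k = true) : k ∈ l := by
  induction l with
  | nil =>
    rw [orf, Nat.zero_testBit] at h
    exact absurd h Bool.false_ne_true
  | cons i l ih =>
    rw [orf, Nat.testBit_or, Nat.testBit_two_pow, Bool.or_eq_true, decide_eq_true_eq] at h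
    rcases h with h | h
    · rw [h]
      exact List.mem_cons_self
    · exact List.mem_cons_of_mem _ (ih h)

theorem sum_of_orf (l : List ℕ) (h1 : orf l = 2 ^ 512 - 1) (h2 : l.length = 512) (f : ℕ → ℝ) :
    ∑ i ∈ range 512, f i = (l.map f).sum := by
  have h3 : range 512 ⊆ l.toFinset := by
    intro k hk
    rw [List.mem_toFinset]
    apply mem_of_orf
    rw [h1, Nat.testBit_two_pow_sub_one]
    exact decide_eq_true (Finset.mem_range.1 hk)
  have h4 : l.toFinset.card ≤ 512 := by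
    rw [← h2]
    exact List.toFinset_card_le l
  have h5 : range 512 = l.toFinset :=
    Finset.eq_of_subset_of_card_le h3 (by rw [Finset.card_range]; exact h4)
  have h6 : l.Nodup := by
    rw [← Multiset.coe_nodup, ← Multiset.toFinset_card_eq_card_iff_nodup]
    rw [Multiset.coe_card, h2, ← Finset.card_range 512, h5]
    rfl
  rw [h5, List.sum_toFinset _ h6]

theorem blocks_nonneg (x : ℕ → ℝ) (G : List (ℕ × List (ℕ × ℤ)))
    (BB : List (List ℕ × ℕ × List (ℕ × List (ℕ × ℤ))))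
    (h1 : orf (BB.flatMap fun B => B.1) = 2 ^ 512 - 1)
    (h2 : (BB.flatMap fun B => B.1).length = 512) (h3 : ∀ B ∈ BB, chkBlk G B = true) :
    0 ≤ ∑ i ∈ range 512, x i * ev x (rowA i G) := by
  rw [sum_of_orf _ h1 h2, List.map_flatMap]
  have h4 : ∀ BB : List (List ℕ × ℕ × List (ℕ × List (ℕ × ℤ))),
      (∀ B ∈ BB, chkBlk G B = true) →
      0 ≤ (BB.flatMap fun B => B.1.map fun i => x i * ev x (rowA i G)).sum := by
    intro BB h
    induction BB with
    | nil => simp
    | cons B BB ih =>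
      rw [List.flatMap_cons, List.sum_append]
      exact add_nonneg (blk_nonneg x G B (h B List.mem_cons_self))
        (ih fun C hC => h C (List.mem_cons_of_mem _ hC))
  exact h4 BB h3

end Vale.Agent.P359.LI
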