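import Vale.Agent.Lib.P359.LocInf
import Vale.Agent.Lib.P359.Asym1

/-!
# P359 / LocPert : the local form with the weights of the sphere

`locR g R` is a quadratic form in the numbers `lb s g R'` (`s < 8`, `R'` any subset):
`lann m (lb r g) R = ± lb r g (insert m R)` or `0`, and
`lb s (lb r g) R = Σ_{a<b, a+b=s+1} (b-a) (± lb r g (insert b (insert a R)))`.
So `|locR g R| ≤ K Σ_{s<8} Σ_{R'} (lb s g R')²` with a constant `K` (`|xy| ≤ (x²+y²)/2`, finite
sums), and `locForm w g - locForm w' g = Σ_R (∏_{k∈R} w k - ∏_{k∈R} w' k) locR g R`.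
The weights `w_Q k = Q^k/C(Q,k)` tend to `k!`.
-/

namespace Vale.Agent.P359

open Finset Matrix Filter Topology

theorem locPert_lann_le {h : Finset (Fin 9) → ℝ} {n : ℝ} (hn : 0 ≤ n) (hh : ∀ R, |h R| ≤ n)
    (m : Fin 9) (R : Finset (Fin 9)) : |lann m h R| ≤ n := by
  unfold lann
  split_ifs
  · rw [abs_zero]
    exact hn
  · rw [abs_mul]
    have h1 : |sgn m R| = 1 := by
      unfold sgn
      rw [abs_pow, abs_neg, abs_one, one_pow]
    rw [h1, one_mul]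
    exact hh _

theorem locPert_lb_le {h : Finset (Fin 9) → ℝ} {n : ℝ} (hn : 0 ≤ n) (hh : ∀ R, |h R| ≤ n)
    (s : ℕ) (R : Finset (Fin 9)) : |lb s h R| ≤ 729 * n := by
  unfold lb
  refine (Finset.abs_sum_le_sum_abs _ _).trans ?_
  have h1 : ∀ a : Fin 9, |∑ b : Fin 9,
      if a < b ∧ (a : ℕ) + b = s + 1 then (((b : ℕ) : ℝ) - ((a : ℕ) : ℝ)) * lann b (lann a h) R
        else 0| ≤ 81 * n := by
    intro a
    refine (Finset.abs_sum_le_sum_abs _ _).trans ?_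
    have h2 : ∀ b : Fin 9, |if a < b ∧ (a : ℕ) + b = s + 1 then
        (((b : ℕ) : ℝ) - ((a : ℕ) : ℝ)) * lann b (lann a h) R else 0| ≤ 9 * n := by
      intro b
      split_ifs
      · rw [abs_mul]
        have h3 := locPert_lann_le hn (locPert_lann_le hn hh a) b R
        have h4 : |((b : ℕ) : ℝ) - ((a : ℕ) : ℝ)| ≤ 9 := by
          have ha : ((a : ℕ) : ℝ) ≤ 8 := by exact_mod_cast Nat.lt_succ_iff.1 a.2
          have hb : ((b : ℕ) : ℝ) ≤ 8 := by exact_mod_cast Nat.lt_succ_iff.1 b.2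
          have ha0 : (0 : ℝ) ≤ ((a : ℕ) : ℝ) := Nat.cast_nonneg _
          have hb0 : (0 : ℝ) ≤ ((b : ℕ) : ℝ) := Nat.cast_nonneg _
          rw [abs_le]
          constructor <;> linarith
        exact mul_le_mul h4 h3 (abs_nonneg _) (by norm_num)
      · rw [abs_zero]
        positivity
    refine (Finset.sum_le_sum (fun b _ => h2 b)).trans ?_
    rw [Finset.sum_const, Finset.card_univ, Fintype.card_fin, nsmul_eq_mul]
    push_cast
    linarith
  refine (Finset.sum_le_sum (fun a _ => h1 a)).trans ?_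
  rw [Finset.sum_const, Finset.card_univ, Fintype.card_fin, nsmul_eq_mul]
  push_cast
  linarith

theorem locPert_term_le {x c A B n : ℝ} (hA : |A| ≤ c * n) (hB : |B| ≤ c * n) :
    |x * (A * B)| ≤ |x| * c ^ 2 * n ^ 2 := by
  rw [abs_mul, abs_mul]
  have h1 : |A| * |B| ≤ (c * n) * (c * n) :=
    mul_le_mul hA hB (abs_nonneg _) ((abs_nonneg _).trans hA)
  calc |x| * (|A| * |B|) ≤ |x| * ((c * n) * (c * n)) :=
        mul_le_mul_of_nonneg_left h1 (abs_nonneg _)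
    _ = _ := by ring

theorem locR_bound : ∃ K : ℝ, 0 ≤ K ∧ ∀ (g : Finset (Fin 9) → ℝ) (R : Finset (Fin 9)),
    |locR g R| ≤ K * ∑ s ∈ range 8, ∑ R' : Finset (Fin 9), (lb s g R') ^ 2 := by
  refine ⟨(∑ s : Fin 8, |X0r s| * 1 ^ 2)
    + (∑ r : Fin 8, ∑ m : Fin 9, ∑ r' : Fin 8, ∑ m' : Fin 9, |X1r r m r' m'| * 1 ^ 2)
    + (∑ r : Fin 8, ∑ s : Fin 8, ∑ r' : Fin 8, ∑ s' : Fin 8, |X2r r s r' s'| * 729 ^ 2),
    by positivity, ?_⟩
  intro g R
  set S : ℝ := ∑ s ∈ range 8, ∑ R' : Finset (Fin 9), (lb s g R') ^ 2 with hS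
  have hS0 : 0 ≤ S := Finset.sum_nonneg (fun s _ => Finset.sum_nonneg (fun R' _ => sq_nonneg _))
  set n : ℝ := √S with hn
  have hn0 : 0 ≤ n := Real.sqrt_nonneg _
  have hn2 : n ^ 2 = S := Real.sq_sqrt hS0
  have hlb : ∀ (s : Fin 8) (R' : Finset (Fin 9)), |lb s g R'| ≤ n := by
    intro s R'
    rw [← Real.sqrt_sq_eq_abs]
    apply Real.sqrt_le_sqrt
    have h1 : (lb s g R') ^ 2 ≤ ∑ R'' : Finset (Fin 9), (lb s g R'') ^ 2 :=
      Finset.single_le_sum (f := fun R'' : Finset (Fin 9) => (lb s g R'') ^ 2)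
        (fun _ _ => sq_nonneg _) (Finset.mem_univ R')
    have h2 : ∑ R'' : Finset (Fin 9), (lb s g R'') ^ 2 ≤ S :=
      Finset.single_le_sum (f := fun s : ℕ => ∑ R'' : Finset (Fin 9), (lb s g R'') ^ 2)
        (fun _ _ => Finset.sum_nonneg (fun R' _ => sq_nonneg _)) (Finset.mem_range.2 s.2)
    exact h1.trans h2
  have t0 : |∑ s : Fin 8, X0r s * (lb s g R) ^ 2| ≤ (∑ s : Fin 8, |X0r s| * 1 ^ 2) * n ^ 2 := by
    rw [Finset.sum_mul]
    refine (Finset.abs_sum_le_sum_abs _ _).trans (Finset.sum_le_sum fun s _ => ?_)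
    rw [pow_two (lb s g R)]
    exact locPert_term_le (by rw [one_mul]; exact hlb s R) (by rw [one_mul]; exact hlb s R)
  have t1 : |∑ r : Fin 8, ∑ m : Fin 9, ∑ r' : Fin 8, ∑ m' : Fin 9,
      X1r r m r' m' * (lann m (lb r g) R * lann m' (lb r' g) R)| ≤
      (∑ r : Fin 8, ∑ m : Fin 9, ∑ r' : Fin 8, ∑ m' : Fin 9, |X1r r m r' m'| * 1 ^ 2) * n ^ 2 := by
    simp only [Finset.sum_mul]
    refine (Finset.abs_sum_le_sum_abs _ _).trans (Finset.sum_le_sum fun r _ => ?_)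
    refine (Finset.abs_sum_le_sum_abs _ _).trans (Finset.sum_le_sum fun m _ => ?_)
    refine (Finset.abs_sum_le_sum_abs _ _).trans (Finset.sum_le_sum fun r' _ => ?_)
    refine (Finset.abs_sum_le_sum_abs _ _).trans (Finset.sum_le_sum fun m' _ => ?_)
    apply locPert_term_le
    · rw [one_mul]
      exact locPert_lann_le hn0 (hlb r) m R
    · rw [one_mul]
      exact locPert_lann_le hn0 (hlb r') m' R
  have t2 : |∑ r : Fin 8, ∑ s : Fin 8, ∑ r' : Fin 8, ∑ s' : Fin 8,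
      X2r r s r' s' * (lb s (lb r g) R * lb s' (lb r' g) R)| ≤
      (∑ r : Fin 8, ∑ s : Fin 8, ∑ r' : Fin 8, ∑ s' : Fin 8, |X2r r s r' s'| * 729 ^ 2)
        * n ^ 2 := by
    simp only [Finset.sum_mul]
    refine (Finset.abs_sum_le_sum_abs _ _).trans (Finset.sum_le_sum fun r _ => ?_)
    refine (Finset.abs_sum_le_sum_abs _ _).trans (Finset.sum_le_sum fun s _ => ?_)
    refine (Finset.abs_sum_le_sum_abs _ _).trans (Finset.sum_le_sum fun r' _ => ?_)
    refine (Finset.abs_sum_le_sum_abs _ _).trans (Finset.sum_le_sum fun s' _ => ?_)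
    exact locPert_term_le (locPert_lb_le hn0 (hlb r) s R) (locPert_lb_le hn0 (hlb r') s' R)
  rw [← hn2]
  unfold locR
  refine (abs_add_three _ _ _).trans ?_
  rw [add_mul, add_mul]
  exact add_le_add (add_le_add t0 t1) t2

theorem locPert_weight (k : ℕ) :
    Tendsto (fun Q : ℕ => (Q : ℝ) ^ k / (Q.choose k : ℝ)) atTop (𝓝 ((k.factorial : ℕ) : ℝ)) := by
  have h0 : Tendsto (fun Q : ℕ => ((id Q : ℕ) : ℝ) / Q) atTop (𝓝 1) := by
    refine (tendsto_const_nhds (x := (1 : ℝ))).congr' ?_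
    filter_upwards [eventually_gt_atTop 0] with Q hQ
    have : (Q : ℝ) ≠ 0 := by exact_mod_cast hQ.ne'
    simp [this]
  have h1 := tendsto_choose id 1 k h0
  have hk : ((1 : ℝ) ^ k / (k.factorial : ℝ)) ≠ 0 := by
    rw [one_pow]
    have := Nat.factorial_pos k
    positivity
  have h2 := h1.inv₀ hk
  have e1 : ((1 : ℝ) ^ k / (k.factorial : ℝ))⁻¹ = (k.factorial : ℝ) := by
    rw [one_pow, one_div, inv_inv]
  rw [e1] at h2
  refine h2.congr (fun Q => ?_)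
  rw [inv_div]
  rfl

theorem loc_pert (ε : ℝ) (hε : 0 < ε) : ∀ᶠ Q : ℕ in atTop, ∀ g : Finset (Fin 9) → ℝ,
    0 ≤ locForm (fun k => (Q : ℝ) ^ (k : ℕ) / (Q.choose k : ℝ)) g
      + ε * ∑ s ∈ range 8, ∑ R : Finset (Fin 9), (lb s g R) ^ 2 := by
  obtain ⟨K, hK0, hK⟩ := locR_bound
  -- the differences of the weights
  have hprod : ∀ R : Finset (Fin 9), Tendsto (fun Q : ℕ =>
      |∏ k ∈ R, ((Q : ℝ) ^ (k : ℕ) / (Q.choose (k : ℕ) : ℝ))
        - ∏ k ∈ R, (((k : ℕ).factorial : ℕ) : ℝ)|) atTop (𝓝 0) := by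
    intro R
    have h1 : Tendsto (fun Q : ℕ => ∏ k ∈ R, ((Q : ℝ) ^ (k : ℕ) / (Q.choose (k : ℕ) : ℝ)))
        atTop (𝓝 (∏ k ∈ R, (((k : ℕ).factorial : ℕ) : ℝ))) :=
      tendsto_finsetProd R (fun k _ => locPert_weight (k : ℕ))
    have h2 := (h1.sub_const (∏ k ∈ R, (((k : ℕ).factorial : ℕ) : ℝ))).abs
    rw [sub_self, abs_zero] at h2
    exact h2
  have hsum : Tendsto (fun Q : ℕ => ∑ R : Finset (Fin 9),
      |∏ k ∈ R, ((Q : ℝ) ^ (k : ℕ) / (Q.choose (k : ℕ) : ℝ))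
        - ∏ k ∈ R, (((k : ℕ).factorial : ℕ) : ℝ)|) atTop (𝓝 0) := by
    have h1 := tendsto_finsetSum (univ : Finset (Finset (Fin 9))) (fun R _ => hprod R)
    rw [Finset.sum_const_zero] at h1
    exact h1
  have hK1 : 0 < K + 1 := by linarith
  have hev := hsum.eventually (gt_mem_nhds (show (0 : ℝ) < ε / (K + 1) by positivity))
  filter_upwards [hev] with Q hQ g
  set S : ℝ := ∑ s ∈ range 8, ∑ R : Finset (Fin 9), (lb s g R) ^ 2 with hS
  have hS0 : 0 ≤ S := Finset.sum_nonneg (fun s _ => Finset.sum_nonneg (fun R' _ => sq_nonneg _))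
  have hinf := local_inf g
  set D : ℝ := ∑ R : Finset (Fin 9),
      |∏ k ∈ R, ((Q : ℝ) ^ (k : ℕ) / (Q.choose (k : ℕ) : ℝ))
        - ∏ k ∈ R, (((k : ℕ).factorial : ℕ) : ℝ)| with hD
  have hdiff : |locForm (fun k => (Q : ℝ) ^ (k : ℕ) / (Q.choose k : ℝ)) g
      - locForm (fun k => (((k : ℕ).factorial : ℕ) : ℝ)) g| ≤ D * (K * S) := by
    unfold locForm
    rw [← Finset.sum_sub_distrib, hD, Finset.sum_mul]
    refine (Finset.abs_sum_le_sum_abs _ _).trans (Finset.sum_le_sum fun R _ => ?_)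
    rw [← sub_mul, abs_mul]
    exact mul_le_mul_of_nonneg_left (hK g R) (abs_nonneg _)
  have hKS : 0 ≤ K * S := mul_nonneg hK0 hS0
  have h1 : D * (K * S) ≤ ε / (K + 1) * (K * S) := mul_le_mul_of_nonneg_right hQ.le hKS
  have h2 : ε / (K + 1) * (K * S) ≤ ε * S := by
    rw [div_mul_eq_mul_div, div_le_iff₀ hK1]
    nlinarith [mul_nonneg hε.le hS0]
  have h3 := (abs_le.1 hdiff).1
  linarith

end Vale.Agent.P359
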