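import Vale.Agent.Lib.P359.P1F

/-!
# P359 / PairSym : all pairs contribute equally

For antisymmetric `ψ` and `i ≠ j`, choose a permutation `σ` with `σ i = 0`, `σ j = 1` and substitute
`x = x' ∘ σ` in `⟨ψ, P_{ij} ψ⟩ = Σ_x conj ψ(x) (P_{ij} ψ)(x)`; the two signs cancel.
Then `⟨ψ, P_{01} ψ⟩ = Σ_s Σ_y |Σ_{a,b} cgvec Q Q 1 s (a,b) ψ(a,b,y)|²` by `P1_apply`
(`N = n + 2`, `x = (a,b,y)`), and there are `(n+2)(n+1)/2` pairs.
-/

namespace Vale.Agent.P359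

open Finset Matrix

theorem pair01_sum_cons {Q n : ℕ} (F : (Fin (n + 2) → Fin (Q + 1)) → ℂ) :
    ∑ x, F x = ∑ a : Fin (Q + 1), ∑ b : Fin (Q + 1), ∑ y : Fin n → Fin (Q + 1),
      F (Fin.cons a (Fin.cons b y)) := by
  rw [← Equiv.sum_comp (Fin.consEquiv (fun _ : Fin (n + 2) => Fin (Q + 1))) F,
    Fintype.sum_prod_type]
  refine Finset.sum_congr rfl fun a _ => ?_
  rw [← Equiv.sum_comp (Fin.consEquiv (fun _ : Fin (n + 1) => Fin (Q + 1))),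
    Fintype.sum_prod_type]
  rfl

theorem pair01_update {Q n : ℕ} (a b a' b' : Fin (Q + 1)) (y : Fin n → Fin (Q + 1)) :
    Function.update (Function.update
      (Fin.cons a (Fin.cons b y : Fin (n + 1) → Fin (Q + 1)) : Fin (n + 2) → Fin (Q + 1)) 0 a') 1 b'
      = Fin.cons a' (Fin.cons b' y) := by
  rw [Fin.update_cons_zero]
  have h1 : (1 : Fin (n + 2)) = Fin.succ 0 := rfl
  rw [h1, ← Fin.cons_update, Fin.update_cons_zero]

theorem pair01_apply {Q n : ℕ} (hQ : 1 ≤ Q) (ψ : Stmt.Tens Q (n + 2)) (a b : Fin (Q + 1))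
    (y : Fin n → Fin (Q + 1)) :
    (Stmt.Ppair 0 1 ψ) (Fin.cons a (Fin.cons b y))
      = ∑ s ∈ range (2 * Q - 2 + 1), ((cgv Q Q 1 s a b : ℝ) : ℂ) *
        ∑ a' : Fin (Q + 1), ∑ b' : Fin (Q + 1), ((cgv Q Q 1 s a' b' : ℝ) : ℂ)
          * ψ (Fin.cons a' (Fin.cons b' y)) := by
  have h : (Stmt.Ppair 0 1 ψ) (Fin.cons a (Fin.cons b y))
      = Stmt.P1 Q (Stmt.restrict 0 1 ψ (Fin.cons a (Fin.cons b y))) (a, b) := rfl
  rw [h, P1_apply Q hQ]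
  refine Finset.sum_congr rfl fun s _ => ?_
  rw [Fintype.sum_prod_type]
  have h2 : ∀ a' b' : Fin (Q + 1),
      (Stmt.restrict 0 1 ψ (Fin.cons a (Fin.cons b y : Fin (n + 1) → Fin (Q + 1)))) (a', b')
        = ψ (Fin.cons a' (Fin.cons b' y)) := by
    intro a' b'
    have h3 : (Stmt.restrict 0 1 ψ (Fin.cons a (Fin.cons b y : Fin (n + 1) → Fin (Q + 1)))) (a', b')
        = ψ (Function.update (Function.update
      (Fin.cons a (Fin.cons b y : Fin (n + 1) → Fin (Q + 1)) : Fin (n + 2) → Fin (Q + 1)) 0 a')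
        1 b') := rfl
    rw [h3, pair01_update]
  simp only [h2]
  rfl

theorem pair01_alg {Q n : ℕ} (c : ℕ → Fin (Q + 1) → Fin (Q + 1) → ℝ)
    (f : Fin (Q + 1) → Fin (Q + 1) → (Fin n → Fin (Q + 1)) → ℂ) (t : Finset ℕ) :
    ∑ a : Fin (Q + 1), ∑ b : Fin (Q + 1), ∑ y : Fin n → Fin (Q + 1),
      (∑ s ∈ t, ((c s a b : ℝ) : ℂ) * ∑ a' : Fin (Q + 1), ∑ b' : Fin (Q + 1),
        ((c s a' b' : ℝ) : ℂ) * f a' b' y) * (starRingEnd ℂ) (f a b y)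
      = ((∑ s ∈ t, ∑ y : Fin n → Fin (Q + 1),
      ‖∑ a : Fin (Q + 1), ∑ b : Fin (Q + 1), ((c s a b : ℝ) : ℂ) * f a b y‖ ^ 2 : ℝ) : ℂ) := by
  have h1 : ∀ a b : Fin (Q + 1), ∑ y : Fin n → Fin (Q + 1),
      (∑ s ∈ t, ((c s a b : ℝ) : ℂ) * ∑ a' : Fin (Q + 1), ∑ b' : Fin (Q + 1),
        ((c s a' b' : ℝ) : ℂ) * f a' b' y) * (starRingEnd ℂ) (f a b y)
      = ∑ s ∈ t, ∑ y : Fin n → Fin (Q + 1), (∑ a' : Fin (Q + 1), ∑ b' : Fin (Q + 1),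
        ((c s a' b' : ℝ) : ℂ) * f a' b' y) * (((c s a b : ℝ) : ℂ) * (starRingEnd ℂ) (f a b y)) := by
    intro a b
    rw [Finset.sum_comm]
    refine Finset.sum_congr rfl fun y _ => ?_
    rw [Finset.sum_mul]
    refine Finset.sum_congr rfl fun s _ => ?_
    ring
  simp only [h1]
  have h2 : ∀ a : Fin (Q + 1), ∑ b : Fin (Q + 1),
      ∑ s ∈ t, ∑ y : Fin n → Fin (Q + 1), (∑ a' : Fin (Q + 1), ∑ b' : Fin (Q + 1),
        ((c s a' b' : ℝ) : ℂ) * f a' b' y) * (((c s a b : ℝ) : ℂ) * (starRingEnd ℂ) (f a b y))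
      = ∑ s ∈ t, ∑ y : Fin n → Fin (Q + 1), (∑ a' : Fin (Q + 1), ∑ b' : Fin (Q + 1),
        ((c s a' b' : ℝ) : ℂ) * f a' b' y) *
          (∑ b : Fin (Q + 1), ((c s a b : ℝ) : ℂ) * (starRingEnd ℂ) (f a b y)) := by
    intro a
    rw [Finset.sum_comm]
    refine Finset.sum_congr rfl fun s _ => ?_
    rw [Finset.sum_comm]
    refine Finset.sum_congr rfl fun y _ => ?_
    rw [Finset.mul_sum]
  simp only [h2]
  rw [Finset.sum_comm]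
  push_cast
  refine Finset.sum_congr rfl fun s _ => ?_
  rw [Finset.sum_comm]
  refine Finset.sum_congr rfl fun y _ => ?_
  rw [← Finset.mul_sum]
  rw [← Complex.mul_conj']
  congr 1
  simp only [map_sum, map_mul, Complex.conj_ofReal]

theorem pair01 {Q n : ℕ} (hQ : 1 ≤ Q) (ψ : Stmt.Tens Q (n + 2)) :
    inner ℂ ψ (Stmt.Ppair 0 1 ψ) = ((∑ s ∈ range (2 * Q - 2 + 1), ∑ y : Fin n → Fin (Q + 1),
      ‖∑ a : Fin (Q + 1), ∑ b : Fin (Q + 1), ((cgv Q Q 1 s a b : ℝ) : ℂ)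
        * ψ (Fin.cons a (Fin.cons b y))‖ ^ 2 : ℝ) : ℂ) := by
  rw [PiLp.inner_apply, pair01_sum_cons]
  have h : ∀ (a b : Fin (Q + 1)) (y : Fin n → Fin (Q + 1)),
      inner ℂ (ψ (Fin.cons a (Fin.cons b y))) ((Stmt.Ppair 0 1 ψ) (Fin.cons a (Fin.cons b y)))
        = (∑ s ∈ range (2 * Q - 2 + 1), ((cgv Q Q 1 s a b : ℝ) : ℂ) *
        ∑ a' : Fin (Q + 1), ∑ b' : Fin (Q + 1), ((cgv Q Q 1 s a' b' : ℝ) : ℂ)
          * ψ (Fin.cons a' (Fin.cons b' y))) *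
            (starRingEnd ℂ) (ψ (Fin.cons a (Fin.cons b y))) := by
    intro a b y
    rw [← pair01_apply hQ]
    rfl
  simp only [h]
  exact pair01_alg (fun s a b => cgv Q Q 1 s a b) (fun a b y => ψ (Fin.cons a (Fin.cons b y)))
    (range (2 * Q - 2 + 1))

end Vale.Agent.P359
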