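import Vale.Agent.Lib.P359.Stmt

/-!
# P359 / PairSym : all pairs contribute equally

For antisymmetric `ψ` and `i ≠ j`, choose a permutation `σ` with `σ i = 0`, `σ j = 1` and substitute
`x = x' ∘ σ` in `⟨ψ, P_{ij} ψ⟩ = Σ_x conj ψ(x) (P_{ij} ψ)(x)`; the two signs cancel.
Then `⟨ψ, P_{01} ψ⟩ = Σ_s Σ_y |Σ_{a,b} cgvec Q Q 1 s (a,b) ψ(a,b,y)|²` by `P1_apply`
(`N = n + 2`, `x = (a,b,y)`), and there are `(n+2)(n+1)/2` pairs.
-/

namespace Vale.Agent.P359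

open Finset Matrix

/-- a permutation moving `0, 1` to `i, j` -/
theorem pairEq_exists_perm {n : ℕ} (i j : Fin (n + 2)) (hij : i ≠ j) :
    ∃ σ : Equiv.Perm (Fin (n + 2)), σ 0 = i ∧ σ 1 = j := by
  have h01 : (0 : Fin (n + 2)) ≠ 1 := by
    intro h
    have := congrArg Fin.val h
    simp at this
  set τ : Equiv.Perm (Fin (n + 2)) := Equiv.swap 0 i with hτ
  have hτ0 : τ 0 = i := Equiv.swap_apply_left 0 i
  have hττ : τ (τ j) = j := by simp [hτ]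
  have hne : (0 : Fin (n + 2)) ≠ τ j := by
    intro h
    have h2 : τ 0 = τ (τ j) := congrArg τ h
    rw [hτ0, hττ] at h2
    exact hij h2
  refine ⟨τ * Equiv.swap 1 (τ j), ?_, ?_⟩
  · rw [Equiv.Perm.mul_apply, Equiv.swap_apply_of_ne_of_ne h01 hne, hτ0]
  · rw [Equiv.Perm.mul_apply, Equiv.swap_apply_left, hττ]

/-- restriction of a permuted antisymmetric tensor -/
theorem pairEq_restrict {Q n : ℕ} (ψ : Stmt.Tens Q (n + 2)) (hψ : ψ ∈ Stmt.Wedge Q (n + 2))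
    (σ : Equiv.Perm (Fin (n + 2))) (x : Fin (n + 2) → Fin (Q + 1)) :
    Stmt.restrict 0 1 ψ (x ∘ σ)
      = (((Equiv.Perm.sign σ : ℤˣ) : ℤ) : ℂ) • Stmt.restrict (σ 0) (σ 1) ψ x := by
  have hψ' : ∀ (σ : Equiv.Perm (Fin (n + 2))) (x : Fin (n + 2) → Fin (Q + 1)),
    ψ (x ∘ σ) = (((Equiv.Perm.sign σ : ℤˣ) : ℤ) : ℂ) * ψ x := hψ
  ext ab
  simp only [Stmt.restrict, PiLp.smul_apply, smul_eq_mul]
  rw [← hψ', Function.update_comp_equiv, Function.update_comp_equiv]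
  simp

theorem pair_inner_eq {Q n : ℕ} (ψ : Stmt.Tens Q (n + 2)) (hψ : ψ ∈ Stmt.Wedge Q (n + 2))
    (i j : Fin (n + 2)) (hij : i ≠ j) :
    inner ℂ ψ (Stmt.Ppair i j ψ) = inner ℂ ψ (Stmt.Ppair 0 1 ψ) := by
  obtain ⟨σ, rfl, rfl⟩ := pairEq_exists_perm i j hij
  have hψ' : ∀ (σ : Equiv.Perm (Fin (n + 2))) (x : Fin (n + 2) → Fin (Q + 1)),
    ψ (x ∘ σ) = (((Equiv.Perm.sign σ : ℤˣ) : ℤ) : ℂ) * ψ x := hψ
  rw [PiLp.inner_apply, PiLp.inner_apply]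
  symm
  rw [← Equiv.sum_comp (Equiv.arrowCongr σ (Equiv.refl (Fin (Q + 1)))).symm]
  refine Finset.sum_congr rfl fun x _ => ?_
  have hx : (Equiv.arrowCongr σ (Equiv.refl (Fin (Q + 1)))).symm x = x ∘ σ := by
    ext k
    simp [Equiv.arrowCongr]
  rw [hx]
  have hP : Stmt.Ppair 0 1 ψ (x ∘ σ)
      = (((Equiv.Perm.sign σ : ℤˣ) : ℤ) : ℂ) * Stmt.Ppair (σ 0) (σ 1) ψ x := by
    simp only [Stmt.Ppair]
    rw [pairEq_restrict ψ hψ σ x, map_smul]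
    simp
  rw [hP, hψ' σ x]
  simp only [RCLike.inner_apply, map_mul]
  rcases Int.units_eq_one_or (Equiv.Perm.sign σ) with h | h <;> simp [h]

end Vale.Agent.P359
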