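import Vale.Agent.Lib.P359.PairEq
import Vale.Agent.Lib.P359.Pair01

/-!
# P359 / PairSym : all pairs contribute equally

For antisymmetric `ψ` and `i ≠ j`, choose a permutation `σ` with `σ i = 0`, `σ j = 1` and substitute
`x = x' ∘ σ` in `⟨ψ, P_{ij} ψ⟩ = Σ_x conj ψ(x) (P_{ij} ψ)(x)`; the two signs cancel.
Then `⟨ψ, P_{01} ψ⟩ = Σ_s Σ_y |Σ_{a,b} cgvec Q Q 1 s (a,b) ψ(a,b,y)|²` by `P1_apply`
(`N = n + 2`, `x = (a,b,y)`), and there are `(n+2)(n+1)/2` pairs.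
-/

namespace Vale.Agent.P359

open Finset Matrix

theorem pairSym_card (N : ℕ) :
    ((univ : Finset (Fin N × Fin N)).filter (fun p => p.1 < p.2)).card * 2 = N * (N - 1) := by
  have h1 : ((univ : Finset (Fin N × Fin N)).filter (fun p => p.1 < p.2)).card
      = ∑ i ∈ range N, i := by
    rw [card_filter, Fintype.sum_prod_type_right, ← Fin.sum_univ_eq_sum_range (fun i => i) N]
    refine sum_congr rfl fun j _ => ?_
    rw [← card_filter]
    have h2 : (univ : Finset (Fin N)).filter (fun i => i < j) = Iio j := by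
      ext i
      simp
    rw [h2, Fin.card_Iio]
  rw [h1, sum_range_id_mul_two]

theorem ham_inner {Q n : ℕ} (hQ : 1 ≤ Q) (ψ : Stmt.Tens Q (n + 2))
    (hψ : ψ ∈ Stmt.Wedge Q (n + 2)) :
    inner ℂ ψ (Stmt.Ham ψ) = (((((n : ℝ) + 2) * ((n : ℝ) + 1) / 2) *
      ∑ s ∈ range (2 * Q - 2 + 1), ∑ y : Fin n → Fin (Q + 1),
      ‖∑ a : Fin (Q + 1), ∑ b : Fin (Q + 1), ((cgv Q Q 1 s a b : ℝ) : ℂ)
        * ψ (Fin.cons a (Fin.cons b y))‖ ^ 2 : ℝ) : ℂ) := by
  have h1 : inner ℂ ψ (Stmt.Ham ψ) =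
      ∑ p ∈ (univ : Finset (Fin (n + 2) × Fin (n + 2))).filter (fun p => p.1 < p.2),
        inner ℂ ψ (Stmt.Ppair 0 1 ψ) := by
    unfold Stmt.Ham
    rw [inner_sum]
    refine sum_congr rfl fun p hp => ?_
    exact pair_inner_eq ψ hψ p.1 p.2 (mem_filter.mp hp).2.ne
  rw [h1, sum_const, pair01 hQ ψ, nsmul_eq_mul]
  have h2 := pairSym_card (n + 2)
  have h3 : ((((univ : Finset (Fin (n + 2) × Fin (n + 2))).filter
      (fun p => p.1 < p.2)).card : ℕ) : ℝ) = ((n : ℝ) + 2) * ((n : ℝ) + 1) / 2 := by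
    have h4 : ((((univ : Finset (Fin (n + 2) × Fin (n + 2))).filter
      (fun p => p.1 < p.2)).card : ℕ) : ℝ) * 2 = ((n : ℝ) + 2) * ((n : ℝ) + 1) := by
      have h5 : (n + 2) * (n + 2 - 1) = (n + 2) * (n + 1) := by
        congr 1
      rw [h5] at h2
      exact_mod_cast h2
    linarith
  rw [Complex.ofReal_mul, ← h3, Complex.ofReal_natCast]

end Vale.Agent.P359
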