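import Vale.Agent.Lib.P359.HSq1
import Vale.Agent.Lib.P359.KapTop

/-!
# P359 / ZeroCh : vanishing channels and positivity

* `T3_zero`: in the weight space `r + m = q`:
  `b_0 = c_1 c_0` (`w_0(0,1) = 1`), `b_1 = w_1(0,2) c_2 c_0`, `b_2 = w_2(0,3) c_3 c_0 + w_2(1,2) c_2 c_1`,
  `b_3 = w_3(0,4) c_4 c_0 + w_3(1,3) c_3 c_1`.
  `q=0`: `c_0 b_0 = 0`.  `q=1`: `c_1 b_0 = 0`, `c_0 b_1 = 0`.
  `q=3`: `c_3 b_0 = c_3 c_1 c_0`, `c_2 b_1 = 0`, `c_1 b_2 = w_2(0,3) c_1 c_3 c_0 = -w_2(0,3) c_3 c_1 c_0`,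
  `c_0 b_3 = w_3(1,3) c_0 c_3 c_1 = w_3(1,3) c_3 c_1 c_0`, and
  `u(0,3) - w_2(0,3) u(2,1) + w_3(1,3) u(3,0) = 0` for
  `u(r,3-r) ∝ (-1)^r C(3,r)/√(C(2Q-2,r) C(Q,3-r))`,
  `w_2(0,3) = 3 √(C(Q,3)/(Q C(2Q-2,2)))`, `w_3(1,3) = 2 √(C(Q,3)/C(2Q-2,3))`:
  it reduces to `6(2Q-3) - 9(Q-2) - 3Q = 0`.
* `T4_zero`: `j` odd: `cgv A A j 0 s r = - cgv A A j 0 r s` (`kap_symm`) and `b_r b_s = b_s b_r`
  (`bb_comm`); `j = 0`: `b_0 b_0 = 0`; `j = 2`: `b_0 b_2`, `b_2 b_0`, `b_1 b_1` are all `0`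
  (`c_0 c_0 = 0`, `c_1 c_1 = 0`).
* positivity: `u ⬝ G3 u = tr (P XᵀX)`, `X = Σ_x u(x) T3_x`, and `tr (P XᵀX) = tr (X P Xᵀ) ≥ 0`
  for positive semidefinite `P`.
-/

namespace Vale.Agent.P359

open Finset Matrix

theorem t4_self (Q : ℕ) (a : Fin (Q + 1)) : cc Q a * cc Q a = 0 := by
  have h := car_anti Q a a
  ext i j
  have h1 := congrFun (congrFun h i) j
  simp only [Matrix.neg_apply] at h1
  simp only [Matrix.zero_apply]
  linarith

/-- four annihilation operators with small sum of the indices multiply to zero -/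
theorem t4_four (Q : ℕ) (a b c d : Fin (Q + 1)) (h : (a : ℕ) + b + c + d < 6) :
    cc Q a * cc Q b * (cc Q c * cc Q d) = 0 := by
  by_cases hab : a = b
  · subst hab
    rw [t4_self, zero_mul]
  by_cases hcd : c = d
  · subst hcd
    rw [t4_self, mul_zero]
  by_cases hbc : b = c
  · subst hbc
    calc cc Q a * cc Q b * (cc Q b * cc Q d) = cc Q a * (cc Q b * cc Q b) * cc Q d := by
          simp only [Matrix.mul_assoc]
      _ = 0 := by rw [t4_self, mul_zero, zero_mul]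
  by_cases hac : a = c
  · subst hac
    calc cc Q a * cc Q b * (cc Q a * cc Q d) = -(cc Q b * cc Q a) * (cc Q a * cc Q d) := by
          rw [car_anti Q a b]
      _ = -(cc Q b * (cc Q a * cc Q a) * cc Q d) := by
          rw [neg_mul]
          simp only [Matrix.mul_assoc]
      _ = 0 := by rw [t4_self, mul_zero, zero_mul, neg_zero]
  by_cases hbd : b = d
  · subst hbd
    calc cc Q a * cc Q b * (cc Q c * cc Q b) = cc Q a * cc Q b * -(cc Q b * cc Q c) := by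
          rw [car_anti Q c b]
      _ = -(cc Q a * (cc Q b * cc Q b) * cc Q c) := by
          rw [mul_neg]
          simp only [Matrix.mul_assoc]
      _ = 0 := by rw [t4_self, mul_zero, zero_mul, neg_zero]
  by_cases had : a = d
  · subst had
    calc cc Q a * cc Q b * (cc Q c * cc Q a) = -(cc Q b * cc Q a) * -(cc Q a * cc Q c) := by
          rw [car_anti Q a b, car_anti Q c a]
      _ = cc Q b * (cc Q a * cc Q a) * cc Q c := by
          rw [neg_mul_neg]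
          simp only [Matrix.mul_assoc]
      _ = 0 := by rw [t4_self, mul_zero, zero_mul]
  exfalso
  rw [Fin.ext_iff] at hab hcd hbc hac hbd had
  omega

theorem t4_ww_zero (Q s a b : ℕ) (h : a + b ≠ s + 1) : ww Q s a b = 0 := by
  unfold ww cgv
  rw [if_neg (by omega), mul_zero]

theorem t4_bb (Q r s : ℕ) (h : r + s ≤ 3) : bb Q s * bb Q r = 0 := by
  unfold bb
  rw [smul_mul_smul_comm, Finset.sum_mul]
  rw [Finset.sum_eq_zero, smul_zero]
  intro a _
  rw [Finset.sum_mul]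
  apply Finset.sum_eq_zero
  intro b _
  rw [Finset.mul_sum]
  apply Finset.sum_eq_zero
  intro a' _
  rw [Finset.mul_sum]
  apply Finset.sum_eq_zero
  intro b' _
  by_cases h1 : (a : ℕ) + b = s + 1
  · by_cases h2 : (a' : ℕ) + b' = r + 1
    · rw [smul_mul_smul_comm, t4_four Q b a b' a' (by omega), smul_zero]
    · rw [t4_ww_zero Q r a' b' h2, zero_smul, mul_zero]
  · rw [t4_ww_zero Q s a b h1, zero_smul, zero_mul]

theorem t4_small (Q j : ℕ) (hj : j ≤ 3) :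
    ∑ x : I4 Q, cgvec (2 * Q - 2) (2 * Q - 2) j 0 x • T4 Q x = 0 := by
  apply Finset.sum_eq_zero
  intro x _
  by_cases h : (x.1 : ℕ) + x.2 = j
  · unfold T4
    rw [t4_bb Q x.1 x.2 (by omega), smul_zero]
  · unfold cgvec cgv
    rw [if_neg (by omega), zero_smul]

theorem t4_swap (Q j : ℕ) (hodd : Odd j) (x : I4 Q) :
    cgvec (2 * Q - 2) (2 * Q - 2) j 0 x.swap = - cgvec (2 * Q - 2) (2 * Q - 2) j 0 x := by
  unfold cgvec cgv
  simp only [Prod.fst_swap, Prod.snd_swap]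
  by_cases h : (x.1 : ℕ) + x.2 = j + 0
  · rw [if_pos h, if_pos (by omega), kap_symm, hodd.neg_one_pow, mul_comm (((2 * Q - 2).choose x.2 : ℕ) : ℝ)]
    ring
  · rw [if_neg h, if_neg (by omega), neg_zero]

theorem T4_zero (Q j : ℕ) (hQ : 3 ≤ Q) (hj : j ≤ 2 * Q - 2) (hj' : j = 0 ∨ j = 2 ∨ Odd j) :
    ∑ x : I4 Q, cgvec (2 * Q - 2) (2 * Q - 2) j 0 x • T4 Q x = 0 := by
  rcases hj' with h | h | h
  · exact t4_small Q j (by omega)
  · exact t4_small Q j (by omega)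
  · have hs : ∑ x : I4 Q, cgvec (2 * Q - 2) (2 * Q - 2) j 0 x • T4 Q x =
        - ∑ x : I4 Q, cgvec (2 * Q - 2) (2 * Q - 2) j 0 x • T4 Q x := by
      rw [← Finset.sum_neg_distrib]
      rw [← Equiv.sum_comp (Equiv.prodComm (Fin (2 * Q - 2 + 1)) (Fin (2 * Q - 2 + 1)))]
      apply Finset.sum_congr rfl
      intro x _
      have h1 : (Equiv.prodComm (Fin (2 * Q - 2 + 1)) (Fin (2 * Q - 2 + 1))) x = x.swap := rfl
      have h2 : T4 Q x.swap = T4 Q x := by
        unfold T4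
        simp only [Prod.fst_swap, Prod.snd_swap]
        exact bb_comm Q x.1 x.2
      rw [h1, t4_swap Q j h x, h2, neg_smul]
    ext i k
    have h1 := congrFun (congrFun hs i) k
    simp only [Matrix.neg_apply] at h1
    simp only [Matrix.zero_apply]
    linarith

end Vale.Agent.P359
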