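import Vale.Agent.Lib.P359.T3Zero
import Vale.Agent.Lib.P359.T4Zero
import Vale.Agent.Lib.P359.CG

/-!
# P359 / ZeroCh : vanishing channels and positivity

* `T3_zero`: in the weight space `r + m = q`:
  `b_0 = c_1 c_0` (`w_0(0,1) = 1`), `b_1 = w_1(0,2) c_2 c_0`, `b_2 = w_2(0,3) c_3 c_0 + w_2(1,2) c_2 c_1`,
  `b_3 = w_3(0,4) c_4 c_0 + w_3(1,3) c_3 c_1`.
  `q=0`: `c_0 b_0 = 0`.  `q=1`: `c_1 b_0 = 0`, `c_0 b_1 = 0`.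
  `q=3`: `c_3 b_0 = c_3 c_1 c_0`, `c_2 b_1 = 0`, `c_1 b_2 = w_2(0,3) c_1 c_3 c_0 = -w_2(0,3) c_3 c_1 c_0`,
  `c_0 b_3 = w_3(1,3) c_0 c_3 c_1 = w_3(1,3) c_3 c_1 c_0`, and
  `u(0,3) - w_2(0,3) u(2,1) + w_3(1,3) u(3,0) = 0` for
  `u(r,3-r) ∝ (-1)^r C(3,r)/√(C(2Q-2,r) C(Q,3-r))`,
  `w_2(0,3) = 3 √(C(Q,3)/(Q C(2Q-2,2)))`, `w_3(1,3) = 2 √(C(Q,3)/C(2Q-2,3))`:
  it reduces to `6(2Q-3) - 9(Q-2) - 3Q = 0`.
* `T4_zero`: `j` odd: `cgv A A j 0 s r = - cgv A A j 0 r s` (`kap_symm`) and `b_r b_s = b_s b_r`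
  (`bb_comm`); `j = 0`: `b_0 b_0 = 0`; `j = 2`: `b_0 b_2`, `b_2 b_0`, `b_1 b_1` are all `0`
  (`c_0 c_0 = 0`, `c_1 c_1 = 0`).
* positivity: `u ⬝ G3 u = tr (P XᵀX)`, `X = Σ_x u(x) T3_x`, and `tr (P XᵀX) = tr (X P Xᵀ) ≥ 0`
  for positive semidefinite `P`.
-/

namespace Vale.Agent.P359

open Finset Matrix

theorem form_eq_trace {n ι : Type*} [Fintype n] [DecidableEq n] [Fintype ι]
    (P : Matrix n n ℝ) (T : ι → Matrix n n ℝ) (u : ι → ℝ) :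
    u ⬝ᵥ (Matrix.of fun x y => trace (P * ((T x)ᵀ * T y))) *ᵥ u
      = trace (P * ((∑ x, u x • T x)ᵀ * ∑ x, u x • T x)) := by
  rw [Matrix.transpose_sum, Finset.sum_mul_sum, Finset.mul_sum, Matrix.trace_sum]
  simp only [dotProduct, mulVec, Matrix.of_apply, Finset.mul_sum]
  refine Finset.sum_congr rfl fun x _ => ?_
  rw [Matrix.trace_sum]
  refine Finset.sum_congr rfl fun y _ => ?_
  rw [Matrix.transpose_smul, Matrix.smul_mul, Matrix.mul_smul, Matrix.mul_smul, Matrix.mul_smul,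
    Matrix.trace_smul, Matrix.trace_smul, smul_eq_mul, smul_eq_mul]
  ring

open scoped MatrixOrder in
theorem zch_psd_eq {n : Type*} [Fintype n] [DecidableEq n]
    (X : Matrix n n ℝ) (hX : X.PosSemidef) : ∃ B : Matrix n n ℝ, X = Bᴴ * B := by
  obtain ⟨B, hB⟩ := CStarAlgebra.nonneg_iff_eq_star_mul_self.mp hX.nonneg
  exact ⟨B, hB⟩

theorem trace_psd_nonneg {n : Type*} [Fintype n] [DecidableEq n]
    (P X : Matrix n n ℝ) (hP : P.PosSemidef) (hX : X.PosSemidef) : 0 ≤ trace (P * X) := by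
  obtain ⟨B, rfl⟩ := zch_psd_eq X hX
  rw [← Matrix.mul_assoc, Matrix.trace_mul_comm, ← Matrix.mul_assoc]
  exact (hP.mul_mul_conjTranspose_same B).trace_nonneg

theorem zch_form_nonneg {n ι : Type*} [Fintype n] [DecidableEq n] [Fintype ι]
    (P : Matrix n n ℝ) (T : ι → Matrix n n ℝ) (u : ι → ℝ) (hP : P.PosSemidef) :
    0 ≤ u ⬝ᵥ (Matrix.of fun x y => trace (P * ((T x)ᵀ * T y))) *ᵥ u := by
  rw [form_eq_trace]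
  refine trace_psd_nonneg _ _ hP ?_
  have h := Matrix.posSemidef_conjTranspose_mul_self (∑ x, u x • T x)
  rwa [Matrix.conjTranspose_eq_transpose_of_trivial] at h

theorem chan3_nonneg (Q q : ℕ) (P : Op Q) (hP : P.PosSemidef) :
    0 ≤ cgvec (2 * Q - 2) Q q 0 ⬝ᵥ G3 Q P *ᵥ cgvec (2 * Q - 2) Q q 0 :=
  zch_form_nonneg P (T3 Q) _ hP

theorem chan4_nonneg (Q j : ℕ) (P : Op Q) (hP : P.PosSemidef) :
    0 ≤ cgvec (2 * Q - 2) (2 * Q - 2) j 0 ⬝ᵥ G4 Q P *ᵥ cgvec (2 * Q - 2) (2 * Q - 2) j 0 :=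
  zch_form_nonneg P (T4 Q) _ hP

theorem zch_form_zero {n ι : Type*} [Fintype n] [DecidableEq n] [Fintype ι]
    (P : Matrix n n ℝ) (T : ι → Matrix n n ℝ) (u : ι → ℝ) (h : ∑ x, u x • T x = 0) :
    u ⬝ᵥ (Matrix.of fun x y => trace (P * ((T x)ᵀ * T y))) *ᵥ u = 0 := by
  rw [form_eq_trace, h, Matrix.mul_zero, Matrix.mul_zero, Matrix.trace_zero]

theorem chan3_zero (Q q : ℕ) (P : Op Q) (hQ : 3 ≤ Q) (hq : q = 0 ∨ q = 1 ∨ q = 3) :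
    cgvec (2 * Q - 2) Q q 0 ⬝ᵥ G3 Q P *ᵥ cgvec (2 * Q - 2) Q q 0 = 0 :=
  zch_form_zero P (T3 Q) _ (T3_zero Q q hQ hq)

theorem chan4_zero (Q j : ℕ) (P : Op Q) (hQ : 3 ≤ Q) (hj : j ≤ 2 * Q - 2)
    (hj' : j = 0 ∨ j = 2 ∨ Odd j) :
    cgvec (2 * Q - 2) (2 * Q - 2) j 0 ⬝ᵥ G4 Q P *ᵥ cgvec (2 * Q - 2) (2 * Q - 2) j 0 = 0 :=
  zch_form_zero P (T4 Q) _ (T4_zero Q j hQ hj hj')

end Vale.Agent.P359
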