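import Vale.Agent.Lib.P359.Inv
import Vale.Agent.Lib.P359.ZeroCh

/-!
# P359 / PauliB : the Pauli bound on the channel weights

`G3 (0,m) (0,m) = tr(P b_0† c_m† c_m b_0) ≤ tr(P b_0† b_0) = G2 0 0` (`pauli` and
`trace_psd_nonneg`: `b_0† (1 - c_m† c_m) b_0` is positive semidefinite).
By `G3_spec` at `x = x' = (0,m)`, `m = q+k`, all summands are `≥ 0` (`chan3_nonneg`), so
`G3 (0,m) (0,m) ≥ y_q (cgv (2Q-2) Q q k 0 m)²`  (here `k ≤ Q - q ≤ 3Q-2-2q`).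
-/

namespace Vale.Agent.P359

open Finset Matrix

theorem pauliB_G3_le_G2 (Q : ℕ) (P : Op Q) (hP : P.PosSemidef) (m : Fin (Q + 1)) :
    G3 Q P (0, m) (0, m) ≤ G2 Q P 0 0 := by
  have h1 : ((bb Q 0)ᵀ * (1 - (cc Q m)ᵀ * cc Q m) * bb Q 0).PosSemidef := by
    have := (pauli Q m).conjTranspose_mul_mul_same (bb Q 0)
    rwa [Matrix.conjTranspose_eq_transpose_of_trivial] at this
  have h2 := trace_psd_nonneg P _ hP h1
  have h3 : P * ((bb Q 0)ᵀ * (1 - (cc Q m)ᵀ * cc Q m) * bb Q 0)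
      = P * ((bb Q 0)ᵀ * bb Q 0) - P * ((cc Q m * bb Q 0)ᵀ * (cc Q m * bb Q 0)) := by
    rw [Matrix.transpose_mul]
    noncomm_ring
  rw [h3, Matrix.trace_sub] at h2
  unfold G3 G2 T3
  have h0 : ((0 : Fin (2 * Q - 2 + 1)) : ℕ) = 0 := rfl
  simp only [h0]
  linarith

theorem pauli_bound (Q : ℕ) (hQ : 3 ≤ Q) (P : Op Q) (hP : P.PosSemidef)
    (hJ : P * Jp Q = Jp Q * P) (q k : ℕ) (hqk : q + k ≤ Q) :
    (cgvec (2 * Q - 2) Q q 0 ⬝ᵥ G3 Q P *ᵥ cgvec (2 * Q - 2) Q q 0)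
      * (cgv (2 * Q - 2) Q q k 0 (q + k)) ^ 2 ≤ G2 Q P 0 0 := by
  have hsym : Pᵀ = P := by
    have := hP.1
    rwa [Matrix.IsHermitian, Matrix.conjTranspose_eq_transpose_of_trivial] at this
  have hm : q + k < Q + 1 := by omega
  refine le_trans ?_ (pauliB_G3_le_G2 Q P hP ⟨q + k, hm⟩)
  rw [G3_spec Q (by omega) P hsym hJ]
  have hk : k ∈ range (2 * Q - 2 + Q - 2 * q + 1) := by
    rw [Finset.mem_range]; omega
  have hq : q ∈ range (Q + 1) := by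
    rw [Finset.mem_range]; omega
  have key : ∀ q' : ℕ, 0 ≤ ∑ k' ∈ range (2 * Q - 2 + Q - 2 * q' + 1),
      cgvec (2 * Q - 2) Q q' k' ((0 : Fin (2 * Q - 2 + 1)), (⟨q + k, hm⟩ : Fin (Q + 1)))
        * cgvec (2 * Q - 2) Q q' k' ((0 : Fin (2 * Q - 2 + 1)), (⟨q + k, hm⟩ : Fin (Q + 1))) := by
    intro q'
    exact Finset.sum_nonneg (fun i _ => mul_self_nonneg _)
  refine le_trans ?_ (Finset.single_le_sum
    (fun q' _ => mul_nonneg (chan3_nonneg Q q' P hP) (key q')) hq)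
  refine mul_le_mul_of_nonneg_left ?_ (chan3_nonneg Q q P hP)
  refine le_trans (le_of_eq ?_) (Finset.single_le_sum
    (fun k' _ => mul_self_nonneg (cgvec (2 * Q - 2) Q q k'
      ((0 : Fin (2 * Q - 2 + 1)), (⟨q + k, hm⟩ : Fin (Q + 1))))) hk)
  rw [pow_two]
  rfl

end Vale.Agent.P359
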