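import Mathlib

/-!
# P359 / PsdGap : from eigenvalues to the quadratic form

Spectral theorem: orthonormal eigenbasis `v_i` of the symmetric matrix `H` with eigenvalues `μ_i`.
`f = Σ c_i v_i`; `c_i = 0` whenever `μ_i = 0` (hypothesis on the kernel), and `μ_i ≥ δ` otherwise.
-/

namespace Vale.Agent.P359

open Finset Matrix

theorem psd_gap {n : Type*} [Fintype n] [DecidableEq n] (H : Matrix n n ℝ) (hH : Hᵀ = H) (δ : ℝ)
    (h : ∀ (μ : ℝ) (f : n → ℝ), f ≠ 0 → H *ᵥ f = μ • f → μ ≠ 0 → δ ≤ μ) (f : n → ℝ)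
    (hf : ∀ g : n → ℝ, H *ᵥ g = 0 → g ⬝ᵥ f = 0) :
    δ * (f ⬝ᵥ f) ≤ f ⬝ᵥ (H *ᵥ f) := by
  have hA : H.IsHermitian := by
    rw [Matrix.IsHermitian, Matrix.conjTranspose, hH]
    ext i j
    simp
  set b := hA.eigenvectorBasis with hb
  set v : n → (n → ℝ) := fun i => (b i).ofLp with hv
  have hip : ∀ x y : EuclideanSpace ℝ n, inner ℝ x y = y.ofLp ⬝ᵥ x.ofLp := by
    intro x y
    rw [EuclideanSpace.inner_eq_star_dotProduct]
    rfl
  have hexp : ∀ x y : n → ℝ, y ⬝ᵥ x = ∑ i, (v i ⬝ᵥ x) * (v i ⬝ᵥ y) := by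
    intro x y
    have := b.sum_inner_mul_inner (WithLp.toLp 2 x) (WithLp.toLp 2 y)
    rw [hip] at this
    rw [← show (WithLp.toLp 2 y : EuclideanSpace ℝ n).ofLp ⬝ᵥ
      (WithLp.toLp 2 x : EuclideanSpace ℝ n).ofLp = y ⬝ᵥ x from rfl, ← this]
    refine Finset.sum_congr rfl fun i _ => ?_
    rw [hip, hip, dotProduct_comm (WithLp.toLp 2 y).ofLp]
  have hev : ∀ i, H *ᵥ v i = hA.eigenvalues i • v i := fun i => hA.mulVec_eigenvectorBasis i
  have hHv : ∀ i, v i ⬝ᵥ (H *ᵥ f) = hA.eigenvalues i * (v i ⬝ᵥ f) := by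
    intro i
    rw [dotProduct_mulVec, ← mulVec_transpose, hH, hev, smul_dotProduct, smul_eq_mul]
  rw [hexp f f, dotProduct_comm f (H *ᵥ f), hexp f (H *ᵥ f), Finset.mul_sum]
  refine Finset.sum_le_sum fun i _ => ?_
  rw [hHv]
  by_cases hμ : hA.eigenvalues i = 0
  · have h0 : v i ⬝ᵥ f = 0 := hf (v i) (by rw [hev, hμ, zero_smul])
    rw [h0]; simp
  · have hne : v i ≠ 0 := by
      intro h0
      have h1 : b i = 0 := by
        ext j
        exact congrFun h0 j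
      exact b.orthonormal.ne_zero i h1
    have := h _ (v i) hne (hev i) hμ
    nlinarith [mul_self_nonneg (v i ⬝ᵥ f)]

end Vale.Agent.P359
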