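import Vale.Agent.Lib.P359.Defs
import Vale.Agent.Lib.P359.Car

/-!
# P359 / Sector : kernel of `HH` and particle number sectors

* `f ⬝ HH f = Σ_s |b_s f|²`, so `HH f = 0 ↔ ∀ s ≤ 2Q-2, b_s f = 0`.
* `(b_s g)(R)` only depends on the values of `g` on sets with `card = card R + 2`
  (`cc_mulVec` twice), so restricting a kernel vector to a sector gives a kernel vector.
* a function supported on the sector `N` and orthogonal to all kernel vectors of the sector is
  orthogonal to all kernel vectors.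
-/

namespace Vale.Agent.P359

open Finset Matrix

/-- the part of `g` in the sector `N` -/
def sect {Q : ℕ} (N : ℕ) (g : Finset (Fin (Q + 1)) → ℝ) : Finset (Fin (Q + 1)) → ℝ :=
  fun S => if S.card = N then g S else 0

theorem dot_HH (Q : ℕ) (f : Finset (Fin (Q + 1)) → ℝ) :
    f ⬝ᵥ (HH Q *ᵥ f) = ∑ s ∈ range (2 * Q - 2 + 1), (bb Q s *ᵥ f) ⬝ᵥ (bb Q s *ᵥ f) := by
  unfold HH
  rw [Matrix.sum_mulVec, dotProduct_sum]
  refine Finset.sum_congr rfl fun s _ => ?_
  rw [← Matrix.mulVec_mulVec, Matrix.dotProduct_mulVec, Matrix.vecMul_transpose]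

theorem ker_iff (Q : ℕ) (g : Finset (Fin (Q + 1)) → ℝ) :
    HH Q *ᵥ g = 0 ↔ ∀ s ∈ range (2 * Q - 2 + 1), bb Q s *ᵥ g = 0 := by
  constructor
  · intro h s hs
    have h1 := dot_HH Q g
    rw [h, dotProduct_zero] at h1
    have h2 := (Finset.sum_eq_zero_iff_of_nonneg (fun s _ => by
      exact Finset.sum_nonneg fun i _ => mul_self_nonneg _)).1 h1.symm s hs
    exact dotProduct_self_eq_zero.1 h2
  · intro h
    unfold HH
    rw [Matrix.sum_mulVec]
    refine Finset.sum_eq_zero fun s hs => ?_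
    rw [← Matrix.mulVec_mulVec, h s hs, Matrix.mulVec_zero]

theorem sector_cc_cc (Q N : ℕ) (a b : Fin (Q + 1)) (g : Finset (Fin (Q + 1)) → ℝ)
    (R : Finset (Fin (Q + 1))) :
    ((cc Q b * cc Q a) *ᵥ sect N g) R =
      if R.card + 2 = N then ((cc Q b * cc Q a) *ᵥ g) R else 0 := by
  rw [← Matrix.mulVec_mulVec, ← Matrix.mulVec_mulVec, cc_mulVec, cc_mulVec, cc_mulVec, cc_mulVec]
  by_cases hb : b ∈ R
  · simp [hb]
  · by_cases ha : a ∈ insert b R
    · simp [hb, ha]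
    · have hc : (insert a (insert b R)).card = R.card + 2 := by
        rw [Finset.card_insert_of_notMem ha, Finset.card_insert_of_notMem hb]
      rw [if_neg hb, if_neg ha, if_neg hb, if_neg ha]
      unfold sect
      rw [hc]
      split_ifs <;> simp

theorem sector_bb_apply (Q s : ℕ) (g : Finset (Fin (Q + 1)) → ℝ) (R : Finset (Fin (Q + 1))) :
    (bb Q s *ᵥ g) R = (1 / 2 : ℝ) * ∑ a : Fin (Q + 1), ∑ b : Fin (Q + 1),
      ww Q s a b * ((cc Q b * cc Q a) *ᵥ g) R := by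
  unfold bb
  rw [Matrix.smul_mulVec, Matrix.sum_mulVec, Pi.smul_apply, Finset.sum_apply, smul_eq_mul]
  congr 1
  refine Finset.sum_congr rfl fun a _ => ?_
  rw [Matrix.sum_mulVec, Finset.sum_apply]
  refine Finset.sum_congr rfl fun b _ => ?_
  rw [Matrix.smul_mulVec, Pi.smul_apply, smul_eq_mul]

theorem sector_bb (Q N s : ℕ) (g : Finset (Fin (Q + 1)) → ℝ) (R : Finset (Fin (Q + 1))) :
    (bb Q s *ᵥ sect N g) R = if R.card + 2 = N then (bb Q s *ᵥ g) R else 0 := by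
  rw [sector_bb_apply, sector_bb_apply]
  simp only [sector_cc_cc]
  split_ifs with h <;> simp

theorem ker_sect (Q N : ℕ) (g : Finset (Fin (Q + 1)) → ℝ) (hg : HH Q *ᵥ g = 0) :
    HH Q *ᵥ sect N g = 0 := by
  rw [ker_iff] at hg ⊢
  intro s hs
  funext R
  rw [sector_bb, hg s hs]
  simp

theorem orth_sect (Q N : ℕ) (f : Finset (Fin (Q + 1)) → ℝ) (hf : ∀ S, S.card ≠ N → f S = 0)
    (h : ∀ g : Finset (Fin (Q + 1)) → ℝ, (∀ S, S.card ≠ N → g S = 0) → HH Q *ᵥ g = 0 →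
      g ⬝ᵥ f = 0) :
    ∀ g : Finset (Fin (Q + 1)) → ℝ, HH Q *ᵥ g = 0 → g ⬝ᵥ f = 0 := by
  intro g hg
  have h1 : g ⬝ᵥ f = sect N g ⬝ᵥ f := by
    refine Finset.sum_congr rfl fun S _ => ?_
    by_cases hS : S.card = N
    · simp [sect, hS]
    · rw [hf S hS, mul_zero, mul_zero]
  rw [h1]
  exact h _ (fun S hS => if_neg hS) (ker_sect Q N g hg)

end Vale.Agent.P359
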