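import Vale.Agent.Lib.P359.PsdGap
import Vale.Agent.Lib.P359.Laugh
import Vale.Agent.Lib.P359.Sector

/-!
# P359 / RealGap : real form of the spectral gap on the sector

The real function `Λ = fockC Ψ_L` spans the kernel of `HH` in the sector `N` (`ker_uniq`); so `psd_gap`
with `δ = 1/25` applies to every function supported on the sector and orthogonal to `Λ`.
-/

namespace Vale.Agent.P359

open Finset Matrix

/-- the real amplitudes of the Laughlin vector -/
noncomputable def RealGap_lam (N : ℕ) (S : Finset (Fin (3 * (N - 1) + 1))) : ℝ :=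
  (fockC (Stmt.laughlin N) S).re

theorem RealGap_lam_coe (N : ℕ) (S : Finset (Fin (3 * (N - 1) + 1))) :
    ((RealGap_lam N S : ℝ) : ℂ) = fockC (Stmt.laughlin N) S :=
  Complex.conj_eq_iff_re.mp (laughlin_real N S)

theorem RealGap_lam_supp (N : ℕ) (S : Finset (Fin (3 * (N - 1) + 1))) (hS : S.card ≠ N) :
    RealGap_lam N S = 0 := by
  unfold RealGap_lam fockC
  rw [dif_neg hS, Complex.zero_re]

theorem RealGap_lam_ne (N : ℕ) : RealGap_lam N ≠ 0 := by
  intro h
  refine laughlin_ne N ?_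
  have h1 := fock_inner (Stmt.laughlin N) (Stmt.laughlin N) (laughlin_mem N) (laughlin_mem N)
  have h2 : ∀ S, fockC (Stmt.laughlin N) S = 0 := fun S => by
    rw [← RealGap_lam_coe, h, Pi.zero_apply, Complex.ofReal_zero]
  have h3 : inner ℂ (Stmt.laughlin N) (Stmt.laughlin N) = 0 := by
    rw [h1]
    exact Finset.sum_eq_zero fun S _ => by rw [h2 S, mul_zero]
  exact inner_self_eq_zero.mp h3

theorem RealGap_lam_ker (N : ℕ) (hN : 2 ≤ N) : HH (3 * (N - 1)) *ᵥ RealGap_lam N = 0 := by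
  rw [ker_iff]
  intro s _
  funext R
  have h1 := laughlin_ker N hN s R
  unfold actC at h1
  have h2 : ((((bb (3 * (N - 1)) s *ᵥ RealGap_lam N) R : ℝ)) : ℂ) = 0 := by
    rw [← h1]
    unfold Matrix.mulVec dotProduct
    push_cast
    exact Finset.sum_congr rfl fun T _ => by rw [RealGap_lam_coe]
  rw [Pi.zero_apply]
  exact_mod_cast h2

theorem RealGap_lam_root (N : ℕ) (hN : 2 ≤ N) : RealGap_lam N (root N) ≠ 0 := fun h =>
  RealGap_lam_ne N (ker_uniq N hN (RealGap_lam N) (RealGap_lam_supp N) (RealGap_lam_ker N hN) h)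

/-- real form of the gap on the sector -/
theorem real_gap (N : ℕ) (hN : 2 ≤ N)
    (hgap : ∀ (μ : ℝ) (f : Finset (Fin (3 * (N - 1) + 1)) → ℝ), f ≠ 0 →
      HH (3 * (N - 1)) *ᵥ f = μ • f → μ ≠ 0 → 1 / 25 ≤ μ)
    (f : Finset (Fin (3 * (N - 1) + 1)) → ℝ) (hf : ∀ S, S.card ≠ N → f S = 0)
    (horth : ∑ S, (fockC (Stmt.laughlin N) S).re * f S = 0) :
    (1 / 25) * (f ⬝ᵥ f)
      ≤ ∑ s ∈ range (2 * (3 * (N - 1)) - 2 + 1),
          (bb (3 * (N - 1)) s *ᵥ f) ⬝ᵥ (bb (3 * (N - 1)) s *ᵥ f) := by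
  rw [← dot_HH]
  have hsym : (HH (3 * (N - 1)))ᵀ = HH (3 * (N - 1)) := by
    unfold HH
    rw [Matrix.transpose_sum]
    exact Finset.sum_congr rfl fun s _ => by
      rw [Matrix.transpose_mul, Matrix.transpose_transpose]
  refine psd_gap (HH (3 * (N - 1))) hsym (1 / 25) hgap f (orth_sect _ N f hf ?_)
  intro g hg hker
  set c : ℝ := g (root N) / RealGap_lam N (root N) with hc
  have h1 : g - c • RealGap_lam N = 0 := by
    refine ker_uniq N hN _ (fun S hS => ?_) ?_ ?_
    · rw [Pi.sub_apply, Pi.smul_apply, hg S hS, RealGap_lam_supp N S hS, smul_zero, sub_zero]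
    · rw [Matrix.mulVec_sub, Matrix.mulVec_smul, hker, RealGap_lam_ker N hN, smul_zero, sub_zero]
    · rw [Pi.sub_apply, Pi.smul_apply, smul_eq_mul, hc,
        div_mul_cancel₀ _ (RealGap_lam_root N hN), sub_self]
  rw [sub_eq_zero.mp h1, smul_dotProduct]
  have h2 : RealGap_lam N ⬝ᵥ f = 0 := horth
  rw [h2, smul_zero]

end Vale.Agent.P359
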