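import Vale.Agent.Lib.P359.SliceDef
import Vale.Agent.Lib.P359.Car

/-!
# P359 / Slice : slicing the Fock space along the occupation of the orbitals `0,…,8`

For `f` on `Finset (Fin (Q+1))`, `B` a set of orbitals `> 8`, put
`gB f B A = f (A ∪ B) √(∏_{k∈A} C(Q,k)/Q^k)` for `A ⊆ {0,…,8}`.

* `gB (ĉ_m f) B = √(Q^m) • lann m (gB f B)`: the Jordan–Wigner sign of `m ≤ 8` only sees elements
  `< m`, so it only depends on `A`, and `√C(Q,m) = √(Q^m) √(C(Q,m)/Q^m)`.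
* `b̂_s = Σ_{a<b, a+b=s+1} (b-a) ĉ_b ĉ_a` (`ww_eq`), so `gB (b̂_s f) B = √(Q^(s+1)) • lb s (gB f B)`
  for `s ≤ 7`.
* `u ⬝ v = Σ_B Σ_A u(A∪B) v(A∪B) = Σ_B Σ_A (∏_{k∈A} Q^k/C(Q,k)) gB u B A * gB v B A`.
-/

namespace Vale.Agent.P359

open Finset Matrix

private lemma slice1_emb_val (Q : ℕ) (hQ : 8 ≤ Q) (k : Fin 9) :
    ((emb Q hQ k : Fin (Q + 1)) : ℕ) = k := rfl

private lemma slice1_mem_high {Q : ℕ} {B : Finset (Fin (Q + 1))} :
    B ∈ high Q ↔ ∀ k ∈ B, 8 < (k : ℕ) := by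
  simp [high]

private lemma slice1_emb_not_mem {Q : ℕ} (hQ : 8 ≤ Q) {B : Finset (Fin (Q + 1))}
    (hB : B ∈ high Q) (k : Fin 9) : emb Q hQ k ∉ B := by
  intro h
  have h1 := slice1_mem_high.mp hB _ h
  rw [slice1_emb_val] at h1
  have := k.2
  omega

private lemma slice1_mem {Q : ℕ} (hQ : 8 ≤ Q) {B : Finset (Fin (Q + 1))}
    (hB : B ∈ high Q) (k : Fin 9) (R : Finset (Fin 9)) :
    emb Q hQ k ∈ R.map (emb Q hQ) ∪ B ↔ k ∈ R := by
  rw [Finset.mem_union, Finset.mem_map' (emb Q hQ)]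
  exact or_iff_left (slice1_emb_not_mem hQ hB k)

private lemma slice1_sgn {Q : ℕ} (hQ : 8 ≤ Q) {B : Finset (Fin (Q + 1))}
    (hB : B ∈ high Q) (m : Fin 9) (R : Finset (Fin 9)) :
    sgn (emb Q hQ m) (R.map (emb Q hQ) ∪ B) = sgn m R := by
  unfold sgn
  congr 1
  have h : (R.map (emb Q hQ) ∪ B).filter (fun k => k < emb Q hQ m) =
      (R.filter (fun k => k < m)).map (emb Q hQ) := by
    ext x
    simp only [Finset.mem_filter, Finset.mem_union, Finset.mem_map]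
    constructor
    · rintro ⟨⟨k, hk, rfl⟩ | hx, hlt⟩
      · exact ⟨k, ⟨hk, Fin.lt_def.mpr (Fin.lt_def.mp hlt)⟩, rfl⟩
      · exfalso
        have h1 := slice1_mem_high.mp hB _ hx
        have h2 := Fin.lt_def.mp hlt
        rw [slice1_emb_val] at h2
        have := m.2
        omega
    · rintro ⟨k, ⟨hk, hlt⟩, rfl⟩
      exact ⟨Or.inl ⟨k, hk, rfl⟩, Fin.lt_def.mpr (Fin.lt_def.mp hlt)⟩
  rw [h, Finset.card_map]

theorem gB_ch (Q : ℕ) (hQ : 8 ≤ Q) (m : Fin 9) (f : Finset (Fin (Q + 1)) → ℝ)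
    (B : Finset (Fin (Q + 1))) (hB : B ∈ high Q) (R : Finset (Fin 9)) :
    gB Q hQ (ch Q m *ᵥ f) B R = √((Q : ℝ) ^ (m : ℕ)) * lann m (gB Q hQ f B) R := by
  have hm : (m : ℕ) < Q + 1 := by have := m.2; omega
  have hcN : cN Q m = cc Q (emb Q hQ m) := by
    unfold cN
    rw [dif_pos hm]
    rfl
  have hQ0 : (0 : ℝ) < Q := by
    have : 0 < Q := by omega
    exact_mod_cast this
  have hQm : (0 : ℝ) < (Q : ℝ) ^ (m : ℕ) := pow_pos hQ0 _
  unfold gB lann ch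
  rw [hcN, Matrix.smul_mulVec, Pi.smul_apply, cc_mulVec, smul_eq_mul]
  by_cases hmR : m ∈ R
  · rw [if_pos ((slice1_mem hQ hB m R).mpr hmR), if_pos hmR]
    simp
  · rw [if_neg (fun h => hmR ((slice1_mem hQ hB m R).mp h)), if_neg hmR, slice1_sgn hQ hB]
    beta_reduce
    rw [Finset.prod_insert hmR, Finset.map_insert, Finset.insert_union]
    obtain ⟨X, hX⟩ : ∃ X : ℝ, X = ∏ k ∈ R, ((Q.choose k : ℝ) / (Q : ℝ) ^ (k : ℕ)) := ⟨_, rfl⟩
    have hX0 : 0 ≤ X := by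
      rw [hX]
      exact Finset.prod_nonneg fun k _ => by positivity
    rw [← hX]
    have key : √((Q : ℝ) ^ (m : ℕ)) * √((Q.choose m : ℝ) / (Q : ℝ) ^ (m : ℕ) * X) =
        √(Q.choose m : ℝ) * √X := by
      rw [← Real.sqrt_mul hQm.le, ← Real.sqrt_mul (Nat.cast_nonneg _)]
      congr 1
      field_simp
    calc √(Q.choose m : ℝ) * (sgn m R * f (insert (emb Q hQ m) (R.map (emb Q hQ) ∪ B))) * √X
        = (√(Q.choose m : ℝ) * √X) *
          (sgn m R * f (insert (emb Q hQ m) (R.map (emb Q hQ) ∪ B))) := by ring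
      _ = (√((Q : ℝ) ^ (m : ℕ)) * √((Q.choose m : ℝ) / (Q : ℝ) ^ (m : ℕ) * X)) *
          (sgn m R * f (insert (emb Q hQ m) (R.map (emb Q hQ) ∪ B))) := by rw [key]
      _ = _ := by ring

private lemma slice1_sum (Q : ℕ) (hQ : 8 ≤ Q) (F : Finset (Fin (Q + 1)) → ℝ) :
    ∑ S, F S = ∑ B ∈ high Q, ∑ A : Finset (Fin 9), F (A.map (emb Q hQ) ∪ B) := by
  refine Eq.trans ?_ (Finset.sum_product' (high Q) univ
    (fun B (A : Finset (Fin 9)) => F (A.map (emb Q hQ) ∪ B)))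
  refine Finset.sum_bij' (fun S _ => (S.filter (fun k => 8 < (k : ℕ)),
      univ.filter (fun k : Fin 9 => emb Q hQ k ∈ S)))
    (fun x _ => x.2.map (emb Q hQ) ∪ x.1) ?_ ?_ ?_ ?_ ?_
  · intro S _
    rw [Finset.mem_product]
    exact ⟨slice1_mem_high.mpr fun k hk => (Finset.mem_filter.mp hk).2, Finset.mem_univ _⟩
  · intro x _
    exact Finset.mem_univ _
  · intro S _
    ext x
    simp only [Finset.mem_union, Finset.mem_map, Finset.mem_filter, Finset.mem_univ, true_and]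
    constructor
    · rintro (⟨k, hk, rfl⟩ | ⟨hx, _⟩)
      · exact hk
      · exact hx
    · intro hx
      by_cases h8 : 8 < (x : ℕ)
      · exact Or.inr ⟨hx, h8⟩
      · left
        have he : emb Q hQ ⟨(x : ℕ), by omega⟩ = x := Fin.ext (slice1_emb_val Q hQ _)
        exact ⟨⟨(x : ℕ), by omega⟩, he ▸ hx, he⟩
  · rintro ⟨B, A⟩ hx
    have hB : B ∈ high Q := (Finset.mem_product.mp hx).1
    refine Prod.ext ?_ ?_
    · ext x
      simp only [Finset.mem_union, Finset.mem_map, Finset.mem_filter]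
      constructor
      · rintro ⟨⟨k, _, rfl⟩ | hx, h8⟩
        · rw [slice1_emb_val] at h8
          have := k.2
          omega
        · exact hx
      · intro hx
        exact ⟨Or.inr hx, slice1_mem_high.mp hB x hx⟩
    · ext k
      simp only [Finset.mem_filter, Finset.mem_univ, true_and]
      exact slice1_mem hQ hB k A
  · intro S _
    congr 1
    symm
    ext x
    simp only [Finset.mem_union, Finset.mem_map, Finset.mem_filter, Finset.mem_univ, true_and]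
    constructor
    · rintro (⟨k, hk, rfl⟩ | ⟨hx, _⟩)
      · exact hk
      · exact hx
    · intro hx
      by_cases h8 : 8 < (x : ℕ)
      · exact Or.inr ⟨hx, h8⟩
      · left
        have he : emb Q hQ ⟨(x : ℕ), by omega⟩ = x := Fin.ext (slice1_emb_val Q hQ _)
        exact ⟨⟨(x : ℕ), by omega⟩, he ▸ hx, he⟩

theorem dot_slice (Q : ℕ) (hQ : 8 ≤ Q) (u v : Finset (Fin (Q + 1)) → ℝ) :
    u ⬝ᵥ v = ∑ B ∈ high Q, ∑ A : Finset (Fin 9),
      (∏ k ∈ A, wQ Q k) * (gB Q hQ u B A * gB Q hQ v B A) := by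
  unfold dotProduct
  rw [slice1_sum Q hQ]
  refine Finset.sum_congr rfl fun B _ => Finset.sum_congr rfl fun A _ => ?_
  unfold gB
  have hQ0 : (0 : ℝ) < Q := by
    have : 0 < Q := by omega
    exact_mod_cast this
  obtain ⟨X, hX⟩ : ∃ X : ℝ, X = ∏ k ∈ A, ((Q.choose k : ℝ) / (Q : ℝ) ^ (k : ℕ)) := ⟨_, rfl⟩
  have hX0 : 0 ≤ X := by
    rw [hX]
    exact Finset.prod_nonneg fun k _ => by positivity
  have hw : (∏ k ∈ A, wQ Q k) * X = 1 := by
    rw [hX, ← Finset.prod_mul_distrib]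
    refine Finset.prod_eq_one fun k _ => ?_
    unfold wQ
    have h1 : (0 : ℝ) < (Q.choose k : ℝ) := by
      have := Nat.choose_pos (n := Q) (k := (k : ℕ)) (by have := k.2; omega)
      exact_mod_cast this
    have h2 : (0 : ℝ) < (Q : ℝ) ^ (k : ℕ) := pow_pos hQ0 _
    field_simp
  rw [← hX]
  obtain ⟨a, ha⟩ : ∃ a, a = u (A.map (emb Q hQ) ∪ B) := ⟨_, rfl⟩
  obtain ⟨b, hb⟩ : ∃ b, b = v (A.map (emb Q hQ) ∪ B) := ⟨_, rfl⟩
  rw [← ha, ← hb]
  calc a * b = a * b * ((∏ k ∈ A, wQ Q k) * X) := by rw [hw, mul_one]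
    _ = a * b * ((∏ k ∈ A, wQ Q k) * (√X * √X)) := by rw [Real.mul_self_sqrt hX0]
    _ = _ := by ring

end Vale.Agent.P359
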