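import Vale.Agent.Lib.P359.Slice1
import Vale.Agent.Lib.P359.Ww

/-!
# P359 / Slice : slicing the Fock space along the occupation of the orbitals `0,…,8`

For `f` on `Finset (Fin (Q+1))`, `B` a set of orbitals `> 8`, put
`gB f B A = f (A ∪ B) √(∏_{k∈A} C(Q,k)/Q^k)` for `A ⊆ {0,…,8}`.

* `gB (ĉ_m f) B = √(Q^m) • lann m (gB f B)`: the Jordan–Wigner sign of `m ≤ 8` only sees elements
  `< m`, so it only depends on `A`, and `√C(Q,m) = √(Q^m) √(C(Q,m)/Q^m)`.
* `b̂_s = Σ_{a<b, a+b=s+1} (b-a) ĉ_b ĉ_a` (`ww_eq`), so `gB (b̂_s f) B = √(Q^(s+1)) • lb s (gB f B)`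
  for `s ≤ 7`.
* `u ⬝ v = Σ_B Σ_A u(A∪B) v(A∪B) = Σ_B Σ_A (∏_{k∈A} Q^k/C(Q,k)) gB u B A * gB v B A`.
-/

namespace Vale.Agent.P359

open Finset Matrix

/-- a symmetric double sum without diagonal -/
theorem slice2_symm_sum {n : ℕ} {M : Type*} [AddCommMonoid M] (F : Fin n → Fin n → M)
    (hs : ∀ a b, F a b = F b a) (h0 : ∀ a, F a a = 0) :
    ∑ a, ∑ b, F a b = (∑ a, ∑ b, if a < b then F a b else 0) +
      ∑ a, ∑ b, if a < b then F a b else 0 := by
  have h1 : ∀ a b, F a b = (if a < b then F a b else 0) + (if b < a then F b a else 0) := by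
    intro a b
    rcases lt_trichotomy a b with h | h | h
    · rw [if_pos h, if_neg (not_lt.2 h.le), add_zero]
    · subst h
      rw [if_neg (lt_irrefl a), add_zero, h0]
    · rw [if_neg (not_lt.2 h.le), if_pos h, zero_add, hs]
  calc ∑ a, ∑ b, F a b = ∑ a, ∑ b, ((if a < b then F a b else 0) + (if b < a then F b a else 0)) :=
        Finset.sum_congr rfl fun a _ => Finset.sum_congr rfl fun b _ => h1 a b
    _ = (∑ a, ∑ b, if a < b then F a b else 0) + ∑ a, ∑ b, if b < a then F b a else 0 := by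
        simp only [Finset.sum_add_distrib]
    _ = _ := by
        congr 1
        exact Finset.sum_comm

theorem slice2_ch (Q : ℕ) (a : Fin (Q + 1)) :
    ch Q a = √((Q.choose a : ℝ)) • cc Q a := by
  unfold ch cN
  rw [dif_pos a.2]

/-- `b̂_s` in terms of `ĉ` -/
theorem bh_eq (Q s : ℕ) (hQ : 1 ≤ Q) (hs : s ≤ 2 * Q - 2) :
    bh Q s = ∑ a : Fin (Q + 1), ∑ b : Fin (Q + 1),
      if a < b ∧ (a : ℕ) + b = s + 1 then ((((b : ℕ) : ℝ) - ((a : ℕ) : ℝ)) • (ch Q b * ch Q a))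
        else 0 := by
  obtain ⟨F, hF⟩ : ∃ F : Fin (Q + 1) → Fin (Q + 1) → Op Q, F = fun a b : Fin (Q + 1) =>
    if (a : ℕ) + b = s + 1 then ((((b : ℕ) : ℝ) - ((a : ℕ) : ℝ)) • (ch Q b * ch Q a)) else 0 :=
    ⟨_, rfl⟩
  have hpos : (0 : ℝ) < (Q : ℝ) * ((2 * Q - 2).choose s : ℝ) := by
    have h1 : (0 : ℝ) < Q := by exact_mod_cast hQ
    have h2 : (0 : ℝ) < ((2 * Q - 2).choose s : ℝ) := by exact_mod_cast Nat.choose_pos hs
    positivity
  have hterm : ∀ a b : Fin (Q + 1), √((Q : ℝ) * ((2 * Q - 2).choose s : ℝ)) •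
      (ww Q s a b • (cc Q b * cc Q a)) = F a b := by
    intro a b
    rw [hF, ww_eq Q s a b hQ]
    by_cases h : (a : ℕ) + b = s + 1
    · simp only [if_pos h]
      rw [slice2_ch, slice2_ch, Matrix.smul_mul, Matrix.mul_smul, smul_smul, smul_smul, smul_smul]
      congr 1
      have e1 : √((Q : ℝ) * ((2 * Q - 2).choose s : ℝ)) * √((Q.choose a : ℝ) * (Q.choose b : ℝ) /
          ((Q : ℝ) * ((2 * Q - 2).choose s : ℝ))) = √((Q.choose b : ℝ)) * √((Q.choose a : ℝ)) := by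
        rw [← Real.sqrt_mul hpos.le, mul_div_cancel₀ _ hpos.ne', mul_comm (Q.choose a : ℝ),
          Real.sqrt_mul (Nat.cast_nonneg _)]
      calc _ = (((b : ℕ) : ℝ) - ((a : ℕ) : ℝ)) * (√((Q : ℝ) * ((2 * Q - 2).choose s : ℝ)) *
            √((Q.choose a : ℝ) * (Q.choose b : ℝ) / ((Q : ℝ) * ((2 * Q - 2).choose s : ℝ)))) := by
            ring
        _ = _ := by rw [e1]; ring
    · simp only [if_neg h]
      rw [zero_smul, smul_zero]
  have hsym : ∀ a b, F a b = F b a := by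
    intro a b
    rw [hF]
    by_cases h : (a : ℕ) + b = s + 1
    · have h' : (b : ℕ) + a = s + 1 := by omega
      simp only [if_pos h, if_pos h']
      have e : ch Q b * ch Q a = - (ch Q a * ch Q b) := by
        rw [slice2_ch, slice2_ch, Matrix.smul_mul, Matrix.mul_smul, Matrix.smul_mul,
          Matrix.mul_smul, car_anti Q b a, smul_neg, smul_neg,
          smul_comm (√((Q.choose b : ℝ)))]
      rw [e, smul_neg, ← neg_smul, neg_sub]
    · have h' : ¬ (b : ℕ) + a = s + 1 := by omega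
      simp only [if_neg h, if_neg h']
  have hdiag : ∀ a, F a a = 0 := by
    intro a
    rw [hF]
    simp
  have h1 : bh Q s = (1 / 2 : ℝ) • ∑ a, ∑ b, F a b := by
    unfold bh bb
    rw [smul_comm, Finset.smul_sum]
    congr 1
    refine Finset.sum_congr rfl fun a _ => ?_
    rw [Finset.smul_sum]
    exact Finset.sum_congr rfl fun b _ => hterm a b
  rw [h1, slice2_symm_sum F hsym hdiag, ← two_smul ℝ, smul_smul]
  norm_num
  refine Finset.sum_congr rfl fun a _ => Finset.sum_congr rfl fun b _ => ?_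
  rw [hF]
  by_cases h : a < b
  · by_cases h2 : (a : ℕ) + b = s + 1
    · simp [h, h2]
    · simp [h2]
  · simp [h]

theorem gB_bh (Q : ℕ) (hQ : 8 ≤ Q) (s : ℕ) (hs : s ≤ 7) (f : Finset (Fin (Q + 1)) → ℝ)
    (B : Finset (Fin (Q + 1))) (hB : B ∈ high Q) (R : Finset (Fin 9)) :
    gB Q hQ (bh Q s *ᵥ f) B R = √((Q : ℝ) ^ (s + 1)) * lb s (gB Q hQ f B) R := by
  obtain ⟨G, hG⟩ : ∃ G : ℕ → ℕ → ℝ, G = fun a b =>
    if a < b ∧ a + b = s + 1 then ((b : ℝ) - a) * gB Q hQ (ch Q b *ᵥ (ch Q a *ᵥ f)) B R else 0 :=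
    ⟨_, rfl⟩
  have h1 : gB Q hQ (bh Q s *ᵥ f) B R = ∑ a : Fin (Q + 1), ∑ b : Fin (Q + 1), G a b := by
    rw [bh_eq Q s (by omega) (by omega)]
    unfold gB
    rw [Matrix.sum_mulVec, Finset.sum_apply, Finset.sum_mul]
    refine Finset.sum_congr rfl fun a _ => ?_
    rw [Matrix.sum_mulVec, Finset.sum_apply, Finset.sum_mul]
    refine Finset.sum_congr rfl fun b _ => ?_
    rw [hG]
    by_cases h : a < b ∧ (a : ℕ) + b = s + 1
    · have h' : (a : ℕ) < (b : ℕ) ∧ (a : ℕ) + b = s + 1 := ⟨h.1, h.2⟩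
      simp only [if_pos h, if_pos h']
      rw [Matrix.smul_mulVec, Pi.smul_apply, smul_eq_mul, ← Matrix.mulVec_mulVec]
      unfold gB
      ring
    · have h' : ¬ ((a : ℕ) < (b : ℕ) ∧ (a : ℕ) + b = s + 1) := fun h' => h ⟨h'.1, h'.2⟩
      simp only [if_neg h, if_neg h']
      rw [Matrix.zero_mulVec, Pi.zero_apply, zero_mul]
  have h2 : ∑ a : Fin (Q + 1), ∑ b : Fin (Q + 1), G a b = ∑ a : Fin 9, ∑ b : Fin 9, G a b := by
    have e : ∀ n : ℕ, ∑ a : Fin n, ∑ b : Fin n, G a b = ∑ a ∈ range n, ∑ b ∈ range n, G a b := by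
      intro n
      rw [← Fin.sum_univ_eq_sum_range (fun a => ∑ b ∈ range n, G a b) n]
      exact Finset.sum_congr rfl fun a _ => Fin.sum_univ_eq_sum_range (fun b => G a b) n
    rw [e, e]
    have hz : ∀ a b : ℕ, (9 ≤ a ∨ 9 ≤ b) → G a b = 0 := by
      intro a b hab
      rw [hG]
      simp only
      rw [if_neg]
      omega
    have hsub : range 9 ⊆ range (Q + 1) := Finset.range_subset_range.2 (by omega)
    symm
    refine (Finset.sum_congr rfl fun a _ => ?_).trans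
      (Finset.sum_subset hsub fun a _ ha => ?_)
    · exact Finset.sum_subset hsub fun b _ hb =>
        hz a b (Or.inr (by rw [Finset.mem_range] at hb; omega))
    · exact Finset.sum_eq_zero fun b _ => hz a b (Or.inl (by rw [Finset.mem_range] at ha; omega))
  rw [h1, h2]
  unfold lb
  rw [Finset.mul_sum]
  refine Finset.sum_congr rfl fun a _ => ?_
  rw [Finset.mul_sum]
  refine Finset.sum_congr rfl fun b _ => ?_
  rw [hG]
  by_cases h : a < b ∧ (a : ℕ) + b = s + 1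
  · have h' : (a : ℕ) < (b : ℕ) ∧ (a : ℕ) + b = s + 1 := ⟨h.1, h.2⟩
    simp only [if_pos h, if_pos h']
    rw [gB_ch Q hQ b _ B hB R]
    have e : lann b (gB Q hQ (ch Q a *ᵥ f) B) R =
        √((Q : ℝ) ^ (a : ℕ)) * lann b (lann a (gB Q hQ f B)) R := by
      unfold lann
      by_cases hb : b ∈ R
      · rw [if_pos hb, if_pos hb, mul_zero]
      · rw [if_neg hb, if_neg hb, gB_ch Q hQ a _ B hB]
        unfold lann
        ring
    rw [e]
    have e2 : √((Q : ℝ) ^ (b : ℕ)) * √((Q : ℝ) ^ (a : ℕ)) = √((Q : ℝ) ^ (s + 1)) := by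
      rw [← Real.sqrt_mul (by positivity), ← pow_add, ← h.2, add_comm (b : ℕ)]
    rw [← e2]
    ring
  · have h' : ¬ ((a : ℕ) < (b : ℕ) ∧ (a : ℕ) + b = s + 1) := fun h' => h ⟨h'.1, h'.2⟩
    simp only [if_neg h, if_neg h', mul_zero]

end Vale.Agent.P359
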