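import Vale.Agent.Lib.P359.Data

/-!
# P359 / Slice : slicing the Fock space along the occupation of the orbitals `0,…,8`

For `f` on `Finset (Fin (Q+1))`, `B` a set of orbitals `> 8`, put
`gB f B A = f (A ∪ B) √(∏_{k∈A} C(Q,k)/Q^k)` for `A ⊆ {0,…,8}`.

* `gB (ĉ_m f) B = √(Q^m) • lann m (gB f B)`: the Jordan–Wigner sign of `m ≤ 8` only sees elements
  `< m`, so it only depends on `A`, and `√C(Q,m) = √(Q^m) √(C(Q,m)/Q^m)`.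
* `b̂_s = Σ_{a<b, a+b=s+1} (b-a) ĉ_b ĉ_a` (`ww_eq`), so `gB (b̂_s f) B = √(Q^(s+1)) • lb s (gB f B)`
  for `s ≤ 7`.
* `u ⬝ v = Σ_B Σ_A u(A∪B) v(A∪B) = Σ_B Σ_A (∏_{k∈A} Q^k/C(Q,k)) gB u B A * gB v B A`.
-/

namespace Vale.Agent.P359

open Finset Matrix

noncomputable section

/-- the embedding of the local orbitals -/
def emb (Q : ℕ) (hQ : 8 ≤ Q) : Fin 9 ↪ Fin (Q + 1) := Fin.castLEEmb (by omega)

/-- sets of orbitals `> 8` -/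
def high (Q : ℕ) : Finset (Finset (Fin (Q + 1))) := univ.filter fun B => ∀ k ∈ B, 8 < (k : ℕ)

/-- weights -/
def wQ (Q : ℕ) : Fin 9 → ℝ := fun k => (Q : ℝ) ^ (k : ℕ) / (Q.choose k : ℝ)

/-- slices -/
def gB (Q : ℕ) (hQ : 8 ≤ Q) (f : Finset (Fin (Q + 1)) → ℝ) (B : Finset (Fin (Q + 1)))
    (A : Finset (Fin 9)) : ℝ :=
  f (A.map (emb Q hQ) ∪ B) * √(∏ k ∈ A, ((Q.choose k : ℝ) / (Q : ℝ) ^ (k : ℕ)))

end

end Vale.Agent.P359
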