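import Vale.Agent.Lib.P359.Car
import Vale.Agent.Lib.P359.Ww

/-!
# P359 / ZeroCh : vanishing channels and positivity

* `T3_zero`: in the weight space `r + m = q`:
  `b_0 = c_1 c_0` (`w_0(0,1) = 1`), `b_1 = w_1(0,2) c_2 c_0`, `b_2 = w_2(0,3) c_3 c_0 + w_2(1,2) c_2 c_1`,
  `b_3 = w_3(0,4) c_4 c_0 + w_3(1,3) c_3 c_1`.
  `q=0`: `c_0 b_0 = 0`.  `q=1`: `c_1 b_0 = 0`, `c_0 b_1 = 0`.
  `q=3`: `c_3 b_0 = c_3 c_1 c_0`, `c_2 b_1 = 0`, `c_1 b_2 = w_2(0,3) c_1 c_3 c_0 = -w_2(0,3) c_3 c_1 c_0`,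
  `c_0 b_3 = w_3(1,3) c_0 c_3 c_1 = w_3(1,3) c_3 c_1 c_0`, and
  `u(0,3) - w_2(0,3) u(2,1) + w_3(1,3) u(3,0) = 0` for
  `u(r,3-r) ∝ (-1)^r C(3,r)/√(C(2Q-2,r) C(Q,3-r))`,
  `w_2(0,3) = 3 √(C(Q,3)/(Q C(2Q-2,2)))`, `w_3(1,3) = 2 √(C(Q,3)/C(2Q-2,3))`:
  it reduces to `6(2Q-3) - 9(Q-2) - 3Q = 0`.
* `T4_zero`: `j` odd: `cgv A A j 0 s r = - cgv A A j 0 r s` (`kap_symm`) and `b_r b_s = b_s b_r`
  (`bb_comm`); `j = 0`: `b_0 b_0 = 0`; `j = 2`: `b_0 b_2`, `b_2 b_0`, `b_1 b_1` are all `0`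
  (`c_0 c_0 = 0`, `c_1 c_1 = 0`).
* positivity: `u ⬝ G3 u = tr (P XᵀX)`, `X = Σ_x u(x) T3_x`, and `tr (P XᵀX) = tr (X P Xᵀ) ≥ 0`
  for positive semidefinite `P`.
-/

namespace Vale.Agent.P359

open Finset Matrix

/-- a double sum concentrated on an antidiagonal -/
theorem t3_sum_anti {M : Type*} [AddCommMonoid M] (A B q : ℕ) (F : ℕ → ℕ → M)
    (h0 : ∀ r m, r + m ≠ q → F r m = 0)
    (h1 : ∀ r m, r + m = q → (A ≤ r ∨ B ≤ m) → F r m = 0) :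
    ∑ r ∈ range A, ∑ m ∈ range B, F r m = ∑ x ∈ antidiagonal q, F x.1 x.2 := by
  rw [← Finset.sum_product' (range A) (range B) F]
  rw [← Finset.sum_subset (Finset.inter_subset_left (s₁ := range A ×ˢ range B)
      (s₂ := antidiagonal q)),
    ← Finset.sum_subset (Finset.inter_subset_right (s₁ := range A ×ˢ range B)
      (s₂ := antidiagonal q))]
  · rintro ⟨r, m⟩ hx hx'
    rw [Finset.HasAntidiagonal.mem_antidiagonal] at hx
    apply h1 r m hx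
    by_contra hcon
    push Not at hcon
    exact hx' (by simp only [mem_inter, mem_product, mem_range, Finset.HasAntidiagonal.mem_antidiagonal]; exact ⟨hcon, hx⟩)
  · rintro ⟨r, m⟩ hx hx'
    apply h0
    intro h
    exact hx' (by simp only [mem_inter, Finset.HasAntidiagonal.mem_antidiagonal]; exact ⟨hx, h⟩)

theorem t3_cc_eq_cN (Q : ℕ) (m : Fin (Q + 1)) : cc Q m = cN Q m := by
  unfold cN
  rw [dif_pos m.2]

theorem t3_cN_zero (Q m : ℕ) (h : Q + 1 ≤ m) : cN Q m = 0 := by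
  unfold cN
  rw [dif_neg (by omega)]

theorem t3_cN_anti (Q a b : ℕ) : cN Q a * cN Q b = - (cN Q b * cN Q a) := by
  unfold cN
  by_cases ha : a < Q + 1
  · by_cases hb : b < Q + 1
    · rw [dif_pos ha, dif_pos hb]
      exact car_anti Q _ _
    · rw [dif_neg hb]; simp
  · rw [dif_neg ha]; simp

theorem t3_cN_sq (Q a : ℕ) : cN Q a * cN Q a = 0 := by
  have h := t3_cN_anti Q a a
  have h2 : (2 : ℝ) • (cN Q a * cN Q a) = 0 := by
    rw [two_smul]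
    nth_rewrite 1 [h]
    simp
  exact (smul_eq_zero.1 h2).resolve_left (by norm_num)

theorem t3_bb_eq (Q s : ℕ) (hQ : 1 ≤ Q) : bb Q s = (1 / 2 : ℝ) •
    ∑ x ∈ antidiagonal (s + 1), ww Q s x.1 x.2 • (cN Q x.2 * cN Q x.1) := by
  unfold bb
  congr 1
  rw [← t3_sum_anti (Q + 1) (Q + 1) (s + 1) (fun a b => ww Q s a b • (cN Q b * cN Q a))]
  · simp only [t3_cc_eq_cN]
    rw [Fin.sum_univ_eq_sum_range
      (fun a => ∑ b : Fin (Q + 1), ww Q s a b • (cN Q b * cN Q a)) (Q + 1)]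
    apply Finset.sum_congr rfl
    intro a _
    exact Fin.sum_univ_eq_sum_range (fun b => ww Q s a b • (cN Q b * cN Q a)) (Q + 1)
  · intro r m h
    rw [ww_eq Q s r m hQ, if_neg h, zero_smul]
  · rintro r m - (h | h)
    · rw [t3_cN_zero Q r h]; simp
    · rw [t3_cN_zero Q m h]; simp

theorem t3_sum_eq (Q q : ℕ) (hQ : 3 ≤ Q) (hq : q ≤ 3) :
    ∑ x : I3 Q, cgvec (2 * Q - 2) Q q 0 x • T3 Q x
      = ∑ x ∈ antidiagonal q, cgv (2 * Q - 2) Q q 0 x.1 x.2 • (cN Q x.2 * bb Q x.1) := by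
  rw [← t3_sum_anti (2 * Q - 2 + 1) (Q + 1) q
    (fun r m => cgv (2 * Q - 2) Q q 0 r m • (cN Q m * bb Q r))]
  · rw [Fintype.sum_prod_type]
    simp only [T3, cgvec, t3_cc_eq_cN]
    rw [Fin.sum_univ_eq_sum_range
      (fun r => ∑ m : Fin (Q + 1), cgv (2 * Q - 2) Q q 0 r m • (cN Q m * bb Q r)) (2 * Q - 2 + 1)]
    apply Finset.sum_congr rfl
    intro r _
    exact Fin.sum_univ_eq_sum_range
      (fun m => cgv (2 * Q - 2) Q q 0 r m • (cN Q m * bb Q r)) (Q + 1)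
  · intro r m h
    unfold cgv
    rw [if_neg (by omega), zero_smul]
  · rintro r m h1 h2
    omega

theorem t3_scalar (Q : ℕ) (hQ : 3 ≤ Q) :
    cgv (2 * Q - 2) Q 3 0 0 3 * ww Q 0 0 1 - cgv (2 * Q - 2) Q 3 0 2 1 * ww Q 2 0 3
      + cgv (2 * Q - 2) Q 3 0 3 0 * ww Q 3 1 3 = 0 := by
  obtain ⟨n, rfl⟩ : ∃ n, Q = n + 3 := ⟨Q - 3, by omega⟩
  have e : 2 * (n + 3) - 2 = 2 * n + 4 := by omega
  have h3 : (((n + 3).choose 3 : ℕ) : ℝ) = ((n : ℝ) + 3) * (n + 2) * (n + 1) / 6 := by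
    have := Nat.add_one_mul_choose_eq (n + 2) 2
    have h2 := Nat.add_one_mul_choose_eq (n + 1) 1
    rw [Nat.choose_one_right] at h2
    have h2' : ((n : ℝ) + 2) * (n + 1) = ((n + 2).choose 2 : ℕ) * 2 := by exact_mod_cast h2
    have h3' : ((n : ℝ) + 3) * ((n + 2).choose 2 : ℕ) = ((n + 3).choose 3 : ℕ) * 3 := by
      exact_mod_cast this
    linarith [congrArg (fun x : ℝ => (n + 3) * x) h2']
  have c2 : (((2 * n + 4).choose 2 : ℕ) : ℝ) = (2 * (n : ℝ) + 4) * (2 * n + 3) / 2 := by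
    have h2 := Nat.add_one_mul_choose_eq (2 * n + 3) 1
    rw [Nat.choose_one_right] at h2
    have h2' : (2 * (n : ℝ) + 4) * (2 * n + 3) = ((2 * n + 4).choose 2 : ℕ) * 2 := by
      exact_mod_cast h2
    linarith
  have c3 : (((2 * n + 4).choose 3 : ℕ) : ℝ) = (2 * (n : ℝ) + 4) * (2 * n + 3) * (2 * n + 2) / 6 := by
    have h3 := Nat.add_one_mul_choose_eq (2 * n + 3) 2
    have h2 := Nat.add_one_mul_choose_eq (2 * n + 2) 1
    rw [Nat.choose_one_right] at h2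
    have h2' : (2 * (n : ℝ) + 3) * (2 * n + 2) = ((2 * n + 3).choose 2 : ℕ) * 2 := by
      exact_mod_cast h2
    have h3' : (2 * (n : ℝ) + 4) * ((2 * n + 3).choose 2 : ℕ) = ((2 * n + 4).choose 3 : ℕ) * 3 := by
      exact_mod_cast h3
    linarith [congrArg (fun x : ℝ => (2 * (n : ℝ) + 4) * x) h2']
  have hn : (0 : ℝ) ≤ n := Nat.cast_nonneg n
  rw [ww_eq _ _ _ _ (by omega), ww_eq _ _ _ _ (by omega), ww_eq _ _ _ _ (by omega)]
  simp only [cgv]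
  rw [kap_top _ _ 3 0 3 (by norm_num), kap_top _ _ 3 2 1 (by norm_num),
    kap_top _ _ 3 3 0 (by norm_num)]
  rw [e]
  norm_num only [Nat.choose_one_right, Nat.choose_zero_right, Nat.choose_self, if_true, Nat.cast_one,
    Nat.cast_zero, one_mul, mul_one]
  simp only [h3, c2, c3]
  have hq0 : (0 : ℝ) < ((n + 3 : ℕ) : ℝ) := by positivity
  have hqe : ((n + 3 : ℕ) : ℝ) = (n : ℝ) + 3 := by push_cast; ring
  generalize √(Sq (2 * n + 4) (n + 3) 3) = S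
  have h32 : ((Nat.choose 3 2 : ℕ) : ℝ) = 3 := by norm_num [Nat.choose]
  rw [h32, div_self hq0.ne', Real.sqrt_one, mul_div_mul_left _ _ hq0.ne']
  have key : ∀ a b c : ℝ, 0 < a → 0 < b → 0 < c → 1 / a - 9 / b - 2 / c = 0 →
      √a * (1 / a) / S * 1 - √b * (3 / b) / S * (3 * √(a / b)) +
        √c * (-1 / c) / S * (2 * √(a / c)) = 0 := by
    intro a b c ha hb hc h
    have k1 : √b * √(a / b) = √a := by
      rw [← Real.sqrt_mul hb.le, mul_div_cancel₀ _ hb.ne']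
    have k2 : √c * √(a / c) = √a := by
      rw [← Real.sqrt_mul hc.le, mul_div_cancel₀ _ hc.ne']
    calc _ = √a / S * (1 / a) - (√b * √(a / b)) / S * (9 / b) - (√c * √(a / c)) / S * (2 / c) := by
          ring
      _ = √a / S * (1 / a - 9 / b - 2 / c) := by rw [k1, k2]; ring
      _ = 0 := by rw [h, mul_zero]
  rw [mul_comm (((n + 3 : ℕ) : ℝ)) ((2 * (n : ℝ) + 4) * (2 * n + 3) / 2)]
  apply key
  · positivity
  · positivity
  · positivity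
  · rw [hqe]
    field_simp
    ring

theorem T3_zero (Q q : ℕ) (hQ : 3 ≤ Q) (hq : q = 0 ∨ q = 1 ∨ q = 3) :
    ∑ x : I3 Q, cgvec (2 * Q - 2) Q q 0 x • T3 Q x = 0 := by
  have hanti := t3_cN_anti Q
  have hsq := t3_cN_sq Q
  have haab : ∀ a b : ℕ, cN Q a * (cN Q a * cN Q b) = 0 := by
    intro a b
    rw [← mul_assoc, hsq, zero_mul]
  have haba : ∀ a b : ℕ, cN Q a * (cN Q b * cN Q a) = 0 := by
    intro a b
    rw [hanti b a, mul_neg, haab, neg_zero]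
  rw [t3_sum_eq Q q hQ (by omega)]
  have hw := fun s a b => ww_antisymm Q s a b (by omega)
  rcases hq with rfl | rfl | rfl
  · simp only [t3_bb_eq Q _ (by omega : 1 ≤ Q),
      Finset.Nat.sum_antidiagonal_eq_sum_range_succ_mk, Finset.sum_range_succ, Finset.sum_range_zero]
    norm_num only [mul_smul_comm, mul_add, haab, haba, hsq, smul_zero, mul_zero, add_zero, zero_add]
  · simp only [t3_bb_eq Q _ (by omega : 1 ≤ Q),
      Finset.Nat.sum_antidiagonal_eq_sum_range_succ_mk, Finset.sum_range_succ, Finset.sum_range_zero]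
    norm_num only [mul_smul_comm, mul_add, haab, haba, hsq, smul_zero, mul_zero, add_zero, zero_add]
  · simp only [t3_bb_eq Q _ (by omega : 1 ≤ Q),
      Finset.Nat.sum_antidiagonal_eq_sum_range_succ_mk, Finset.sum_range_succ, Finset.sum_range_zero]
    norm_num only [mul_smul_comm, mul_add, haab, haba, hsq, smul_zero, mul_zero, add_zero, zero_add]
    have e1 : cN Q 3 * (cN Q 0 * cN Q 1) = -(cN Q 3 * (cN Q 1 * cN Q 0)) := by
      rw [hanti 0 1, mul_neg]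
    have e2 : cN Q 1 * (cN Q 3 * cN Q 0) = -(cN Q 3 * (cN Q 1 * cN Q 0)) := by
      rw [← mul_assoc, hanti 1 3, neg_mul, mul_assoc]
    have e3 : cN Q 1 * (cN Q 0 * cN Q 3) = cN Q 3 * (cN Q 1 * cN Q 0) := by
      rw [hanti 0 3, mul_neg, e2, neg_neg]
    have e4 : cN Q 0 * (cN Q 3 * cN Q 1) = cN Q 3 * (cN Q 1 * cN Q 0) := by
      rw [← mul_assoc, hanti 0 3, neg_mul, mul_assoc, hanti 0 1, mul_neg, neg_neg]
    have e5 : cN Q 0 * (cN Q 1 * cN Q 3) = -(cN Q 3 * (cN Q 1 * cN Q 0)) := by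
      rw [hanti 1 3, mul_neg, e4]
    rw [e1, e2, e3, e4, e5, hw 0 0 1, hw 2 0 3, hw 3 1 3]
    have hs := t3_scalar Q hQ
    generalize cN Q 3 * (cN Q 1 * cN Q 0) = X
    have h2 : cgv (2 * Q - 2) Q 3 0 0 3 • (1 / 2 : ℝ) • (ww Q 0 0 1 • X + -ww Q 0 0 1 • -X) +
        cgv (2 * Q - 2) Q 3 0 2 1 • (1 / 2 : ℝ) • (ww Q 2 0 3 • -X + -ww Q 2 0 3 • X) +
      cgv (2 * Q - 2) Q 3 0 3 0 • (1 / 2 : ℝ) • (ww Q 3 1 3 • X + -ww Q 3 1 3 • -X) =
      (cgv (2 * Q - 2) Q 3 0 0 3 * ww Q 0 0 1 - cgv (2 * Q - 2) Q 3 0 2 1 * ww Q 2 0 3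
      + cgv (2 * Q - 2) Q 3 0 3 0 * ww Q 3 1 3) • X := by
      module
    rw [h2, hs, zero_smul]

end Vale.Agent.P359
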