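import Vale.Agent.Lib.P359.KapTop

/-!
# P359 / Tail : the channels `q ≥ 16`

Even `q ≥ 2`: `vv Q q ≥ 0` (`q (2Q-1-q)/Q + q - 1 ≥ 0`), the summand is `≥ 0`.
Odd `q`: `|vv Q q| y_q (3Q-1-2q) ≤ γ |vv Q q| (3Q-1-2q) / (cgv (2Q-2) Q q k 0 (q+k))²`.

* `17 ≤ q ≤ 49` odd, `k = 6`: `(cgv …)² = C(Q,q+6) kap² / (Sq C(3Q-2-2q,6))` with
  `kap (2Q-2) Q q 0 m = C(m,q)/C(Q,q)`; it tends to `(2/3)^q C(q+6,6)/729`
  (`= L3 q 0 (q+6) 0 (q+6) · (q+6)!`), so
  `|vv| (3Q-1-2q)/((2Q-1) (cgv…)²) → (3/2)(3q-1) 2^{-q} 729 / ((2/3)^q C(q+6,6)) =: t_q`, and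
  `Σ_{q=17,19,…,49} t_q = 0.00643 < 0.007`.
* `q ≥ 51` odd, `k = 0`: `(cgv (2Q-2) Q q 0 0 q)² = 1/(C(Q,q) Sq)` and
  `C(Q,q) Sq = Σ_i C(q,i) ∏_{j=1}^{i} (Q-q+j)/(2Q-2-i+j) ≤ (2Q/(2Q-3)) Σ_i C(q,i)/2^i ≤ 2 (3/2)^q`
  for `Q ≥ 3` (each factor is `≤ 1/2` except, for `i = q`, the factors `j = q-1`, `j = q`, which are
  `(Q-1)/(2Q-3)` and `Q/(2Q-2)`);
  `C(Q,q)/C(2Q-2,q) = ∏_{i<q} (Q-i)/(2Q-2-i) ≤ 2^{-q} 2Q/(2Q-3) ≤ 2·2^{-q}`, so `|vv Q q| ≤ 6 q 2^{-q}`;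
  `(3Q-1-2q)/(2Q-1) ≤ 2`.  Each summand is `≤ 24 q (3/4)^q (2Q-1) γ`, and
  `Σ_{q≥51} 24 q (3/4)^q < 0.0023`.
Total `< 0.0094 < 1/100`.
-/

namespace Vale.Agent.P359

open Finset Matrix Filter Topology

theorem vv_even_nonneg (Q q : ℕ) (hQ : 1 ≤ Q) (hq : q ≤ Q) (h2 : 2 ≤ q) (he : Even q) :
    0 ≤ vv Q q := by
  unfold vv
  rw [he.neg_one_pow, one_mul]
  have hQ' : (1 : ℝ) ≤ Q := by exact_mod_cast hQ
  have hq' : (q : ℝ) ≤ Q := by exact_mod_cast hq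
  have h2' : (2 : ℝ) ≤ q := by exact_mod_cast h2
  have h1 : 0 ≤ (q : ℝ) * (2 * (Q : ℝ) - 1 - q) / Q := by
    apply div_nonneg (mul_nonneg (by linarith) (by linarith)) (by linarith)
  refine mul_nonneg (by positivity) (by linarith)

/-- `2^i C(Q,i) ≤ 2 C(2Q-2,i)` -/
theorem tail1_choose_le (Q : ℕ) (hQ : 3 ≤ Q) : ∀ i, i ≤ Q →
    2 ^ i * Q.choose i ≤ 2 * (2 * Q - 2).choose i := by
  have hbase2 : 2 ^ 2 * Q.choose 2 ≤ 2 * (2 * Q - 2).choose 2 := by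
    have e1 := Nat.choose_succ_right_eq Q 1
    have e2 := Nat.choose_succ_right_eq (2 * Q - 2) 1
    simp only [Nat.choose_one_right, Nat.reduceAdd] at e1 e2
    obtain ⟨a, rfl⟩ : ∃ a, Q = a + 3 := ⟨Q - 3, by omega⟩
    have h1 : a + 3 - 1 = a + 2 := by omega
    have h2 : 2 * (a + 3) - 2 = 2 * a + 4 := by omega
    have h3 : 2 * a + 4 - 1 = 2 * a + 3 := by omega
    rw [h1] at e1
    rw [h2, h3] at e2
    rw [h2]
    nlinarith
  intro i
  induction i with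
  | zero => intro _; simp
  | succ i ih =>
    intro hi
    rcases Nat.lt_or_ge i 2 with h | h
    · interval_cases i
      · simp only [Nat.reduceAdd, Nat.choose_one_right]
        omega
      · exact hbase2
    · have hI := ih (by omega)
      have e1 := Nat.choose_succ_right_eq Q i
      have e2 := Nat.choose_succ_right_eq (2 * Q - 2) i
      have h3 : 2 * (Q - i) ≤ 2 * Q - 2 - i := by omega
      have h4 : (2 ^ (i + 1) * Q.choose (i + 1)) * (i + 1) ≤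
          (2 * (2 * Q - 2).choose (i + 1)) * (i + 1) := by
        calc (2 ^ (i + 1) * Q.choose (i + 1)) * (i + 1)
            = 2 ^ (i + 1) * (Q.choose (i + 1) * (i + 1)) := by ring
          _ = (2 ^ i * Q.choose i) * (2 * (Q - i)) := by rw [e1]; ring
          _ ≤ (2 * (2 * Q - 2).choose i) * (2 * Q - 2 - i) := Nat.mul_le_mul hI h3
          _ = 2 * ((2 * Q - 2).choose i * (2 * Q - 2 - i)) := by ring
          _ = (2 * (2 * Q - 2).choose (i + 1)) * (i + 1) := by rw [← e2]; ring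
      exact Nat.le_of_mul_le_mul_right h4 (Nat.succ_pos i)

theorem tail1_choose_div_le (Q q : ℕ) (hQ : 3 ≤ Q) (hq : q ≤ Q) :
    (Q.choose q : ℝ) / ((2 * Q - 2).choose q : ℝ) ≤ 2 / 2 ^ q := by
  have hpos : 0 < (2 * Q - 2).choose q := Nat.choose_pos (by omega)
  have hpos' : (0 : ℝ) < ((2 * Q - 2).choose q : ℝ) := by exact_mod_cast hpos
  have h := tail1_choose_le Q hQ q hq
  have h' : (2 : ℝ) ^ q * (Q.choose q : ℝ) ≤ 2 * ((2 * Q - 2).choose q : ℝ) := by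
    exact_mod_cast h
  rw [div_le_div_iff₀ hpos' (by positivity)]
  linarith

/-- `C(q,i) C(Q,q) = C(Q-q+i,i) C(Q,q-i)` for `i ≤ q ≤ Q`. -/
theorem tail1_choose_mul (Q q i : ℕ) (hq : q ≤ Q) (hi : i ≤ q) :
    q.choose i * Q.choose q = (Q - q + i).choose i * Q.choose (q - i) := by
  -- both sides count pairs of subsets
  have h1 := Nat.choose_mul (n := Q) (Nat.sub_le q i)
  -- Q.choose q * q.choose (q-i) = Q.choose (q-i) * (Q-(q-i)).choose (q-(q-i))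
  have e1 : Q - (q - i) = Q - q + i := by omega
  have e2 : q - (q - i) = i := by omega
  rw [e1, e2, Nat.choose_symm hi] at h1
  linarith [h1, mul_comm (q.choose i) (Q.choose q),
    mul_comm ((Q - q + i).choose i) (Q.choose (q - i))]

theorem tail1_Sq_le (Q q : ℕ) (hQ : 3 ≤ Q) (hq : q ≤ Q) :
    (Q.choose q : ℝ) * Sq (2 * Q - 2) Q q ≤ 2 * (3 / 2 : ℝ) ^ q := by
  have hbin : (3 / 2 : ℝ) ^ q = ∑ i ∈ range (q + 1), (q.choose i : ℝ) / 2 ^ i := by
    have := add_pow (1 / 2 : ℝ) 1 q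
    have e : (1 / 2 : ℝ) + 1 = 3 / 2 := by norm_num
    rw [e] at this
    rw [this]
    refine Finset.sum_congr rfl fun i _ => ?_
    rw [one_pow, mul_one, one_div, inv_pow]
    field_simp
  unfold Sq
  rw [hbin, Finset.mul_sum, Finset.mul_sum]
  refine Finset.sum_le_sum fun i hi => ?_
  have hiq : i ≤ q := by
    have := Finset.mem_range.1 hi
    omega
  have hp1 : (0 : ℝ) < ((2 * Q - 2).choose i : ℝ) := by
    exact_mod_cast Nat.choose_pos (by omega)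
  have hp2 : (0 : ℝ) < (Q.choose (q - i) : ℝ) := by
    exact_mod_cast Nat.choose_pos (by omega)
  have hm : (q.choose i : ℝ) * (Q.choose q : ℝ) =
      ((Q - q + i).choose i : ℝ) * (Q.choose (q - i) : ℝ) := by
    exact_mod_cast tail1_choose_mul Q q i hq hiq
  have hmono : ((Q - q + i).choose i : ℝ) ≤ (Q.choose i : ℝ) := by
    exact_mod_cast Nat.choose_le_choose i (by omega)
  have hdiv := tail1_choose_div_le Q i hQ (by omega)
  calc (Q.choose q : ℝ) * ((q.choose i : ℝ) ^ 2 /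
        (((2 * Q - 2).choose i : ℝ) * (Q.choose (q - i) : ℝ)))
      = (q.choose i : ℝ) * ((q.choose i : ℝ) * (Q.choose q : ℝ)) /
        (((2 * Q - 2).choose i : ℝ) * (Q.choose (q - i) : ℝ)) := by ring
    _ = (q.choose i : ℝ) * (((Q - q + i).choose i : ℝ) / ((2 * Q - 2).choose i : ℝ)) := by
        rw [hm]
        field_simp
    _ ≤ (q.choose i : ℝ) * ((Q.choose i : ℝ) / ((2 * Q - 2).choose i : ℝ)) := by
        gcongr
    _ ≤ (q.choose i : ℝ) * (2 / 2 ^ i) := by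
        gcongr
    _ = 2 * ((q.choose i : ℝ) / 2 ^ i) := by ring

theorem cgv_zero_row (Q q : ℕ) (hQ : 3 ≤ Q) (hq : q ≤ Q) :
    (cgv (2 * Q - 2) Q q 0 0 q) ^ 2 * (2 * (3 / 2 : ℝ) ^ q) ≥ 1 := by
  have hC : (0 : ℝ) < (Q.choose q : ℝ) := by exact_mod_cast Nat.choose_pos hq
  have hkap : kap (2 * Q - 2) Q q 0 q = 1 / (Q.choose q : ℝ) := by
    unfold kap
    rw [Finset.sum_eq_single 0]
    · simp
    · intro i _ hi
      rw [Nat.choose_eq_zero_of_lt (Nat.pos_of_ne_zero hi)]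
      simp
    · intro h
      exact absurd (Finset.mem_range.2 (Nat.succ_pos q)) h
  have hSq : 0 < Sq (2 * Q - 2) Q q := by
    unfold Sq
    refine Finset.sum_pos (fun i hi => ?_) ⟨0, Finset.mem_range.2 (Nat.succ_pos q)⟩
    have hiq : i ≤ q := by
      have := Finset.mem_range.1 hi
      omega
    have hp0 : (0 : ℝ) < (q.choose i : ℝ) := by exact_mod_cast Nat.choose_pos hiq
    have hp1 : (0 : ℝ) < ((2 * Q - 2).choose i : ℝ) := by
      exact_mod_cast Nat.choose_pos (by omega)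
    have hp2 : (0 : ℝ) < (Q.choose (q - i) : ℝ) := by
      exact_mod_cast Nat.choose_pos (by omega)
    positivity
  have hval : (cgv (2 * Q - 2) Q q 0 0 q) ^ 2 = 1 / ((Q.choose q : ℝ) * Sq (2 * Q - 2) Q q) := by
    unfold cgv
    rw [if_pos (by omega), hkap, Nat.choose_zero_right, Nat.choose_zero_right, div_pow, mul_pow,
      Real.sq_sqrt (by positivity), Real.sq_sqrt (by positivity)]
    field_simp
  rw [hval, ge_iff_le, one_div, inv_mul_eq_div, le_div_iff₀ (by positivity), one_mul]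
  exact tail1_Sq_le Q q hQ hq

theorem vv_abs_le (Q q : ℕ) (hQ : 3 ≤ Q) (hq : q ≤ Q) (h2 : 2 ≤ q) :
    |vv Q q| ≤ 6 * q / 2 ^ q := by
  have hQ' : (3 : ℝ) ≤ Q := by exact_mod_cast hQ
  have hq' : (q : ℝ) ≤ Q := by exact_mod_cast hq
  have h2' : (2 : ℝ) ≤ q := by exact_mod_cast h2
  have h1 : 0 ≤ (q : ℝ) * (2 * (Q : ℝ) - 1 - q) / Q := by
    apply div_nonneg (mul_nonneg (by linarith) (by linarith)) (by linarith)
  have h3 : (q : ℝ) * (2 * (Q : ℝ) - 1 - q) / Q ≤ 2 * q := by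
    rw [div_le_iff₀ (by linarith)]
    nlinarith
  unfold vv
  rw [abs_mul, abs_mul, abs_pow, abs_neg, abs_one, one_pow, one_mul,
    abs_of_nonneg (show 0 ≤ (Q.choose q : ℝ) / ((2 * Q - 2).choose q : ℝ) by positivity),
    abs_of_nonneg (by linarith : 0 ≤ (q : ℝ) * (2 * (Q : ℝ) - 1 - q) / Q + q - 1)]
  calc (Q.choose q : ℝ) / ((2 * Q - 2).choose q : ℝ) *
        ((q : ℝ) * (2 * (Q : ℝ) - 1 - q) / Q + q - 1)
      ≤ (2 / 2 ^ q) * (3 * q) := by
        apply mul_le_mul (tail1_choose_div_le Q q hQ hq) (by linarith) (by linarith)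
          (by positivity)
    _ = 6 * q / 2 ^ q := by ring

end Vale.Agent.P359
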