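import Vale.Agent.Lib.P359.Tail1

/-!
# P359 / Tail : the channels `q ≥ 16`

Even `q ≥ 2`: `vv Q q ≥ 0` (`q (2Q-1-q)/Q + q - 1 ≥ 0`), the summand is `≥ 0`.
Odd `q`: `|vv Q q| y_q (3Q-1-2q) ≤ γ |vv Q q| (3Q-1-2q) / (cgv (2Q-2) Q q k 0 (q+k))²`.

* `17 ≤ q ≤ 49` odd, `k = 6`: `(cgv …)² = C(Q,q+6) kap² / (Sq C(3Q-2-2q,6))` with
  `kap (2Q-2) Q q 0 m = C(m,q)/C(Q,q)`; it tends to `(2/3)^q C(q+6,6)/729`
  (`= L3 q 0 (q+6) 0 (q+6) · (q+6)!`), so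
  `|vv| (3Q-1-2q)/((2Q-1) (cgv…)²) → (3/2)(3q-1) 2^{-q} 729 / ((2/3)^q C(q+6,6)) =: t_q`, and
  `Σ_{q=17,19,…,49} t_q = 0.00643 < 0.007`.
* `q ≥ 51` odd, `k = 0`: `(cgv (2Q-2) Q q 0 0 q)² = 1/(C(Q,q) Sq)` and
  `C(Q,q) Sq = Σ_i C(q,i) ∏_{j=1}^{i} (Q-q+j)/(2Q-2-i+j) ≤ (2Q/(2Q-3)) Σ_i C(q,i)/2^i ≤ 2 (3/2)^q`
  for `Q ≥ 3` (each factor is `≤ 1/2` except, for `i = q`, the factors `j = q-1`, `j = q`, which are
  `(Q-1)/(2Q-3)` and `Q/(2Q-2)`);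
  `C(Q,q)/C(2Q-2,q) = ∏_{i<q} (Q-i)/(2Q-2-i) ≤ 2^{-q} 2Q/(2Q-3) ≤ 2·2^{-q}`, so `|vv Q q| ≤ 6 q 2^{-q}`;
  `(3Q-1-2q)/(2Q-1) ≤ 2`.  Each summand is `≤ 24 q (3/4)^q (2Q-1) γ`, and
  `Σ_{q≥51} 24 q (3/4)^q < 0.0023`.
Total `< 0.0094 < 1/100`.
-/

namespace Vale.Agent.P359

open Finset Matrix Filter Topology

/-- exact value of the partial sums -/
theorem tailFar_sum (n : ℕ) : ∑ q ∈ Icc 51 (50 + n), (q : ℝ) * (3 / 4 : ℝ) ^ q =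
    162 * (3 / 4 : ℝ) ^ 50 - 3 * ((n : ℝ) + 54) * (3 / 4 : ℝ) ^ (50 + n) := by
  induction n with
  | zero =>
    rw [show Icc 51 (50 + 0) = (∅ : Finset ℕ) by rfl, sum_empty]
    norm_num
  | succ n ih =>
    rw [← add_assoc, sum_Icc_succ_top (by omega), ih, pow_succ]
    push_cast
    ring

/-- the geometric tail -/
theorem tailFar_tail (Q : ℕ) (hQ : 50 ≤ Q) :
    ∑ q ∈ Icc 51 Q, 24 * ((q : ℝ) * (3 / 4 : ℝ) ^ q) ≤ 24 / 10000 := by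
  obtain ⟨n, rfl⟩ := Nat.exists_eq_add_of_le hQ
  rw [← mul_sum, tailFar_sum]
  have h1 : 0 ≤ 3 * ((n : ℝ) + 54) * (3 / 4 : ℝ) ^ (50 + n) := by positivity
  have h2 : 24 * (162 * (3 / 4 : ℝ) ^ 50) ≤ 24 / 10000 := by norm_num
  linarith

/-- crude part: `q ≥ 51` -/
theorem tail_far (Q : ℕ) (hQ : 100 ≤ Q) (y : ℕ → ℝ) (γ : ℝ) (hy : ∀ q ≤ Q, 0 ≤ y q)
    (hb : ∀ q k, q + k ≤ Q → y q * (cgv (2 * Q - 2) Q q k 0 (q + k)) ^ 2 ≤ γ) :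
    -(24 / 10000) * (2 * (Q : ℝ) - 1) * γ
      ≤ ∑ q ∈ Icc 51 Q, vv Q q * y q * (3 * (Q : ℝ) - 1 - 2 * q) := by
  have hQ' : (100 : ℝ) ≤ Q := by exact_mod_cast hQ
  have hγ : 0 ≤ γ := (mul_nonneg (hy 0 (by omega)) (sq_nonneg _)).trans (hb 0 0 (by omega))
  have hQ1 : 0 ≤ (2 * (Q : ℝ) - 1) * γ := mul_nonneg (by linarith) hγ
  have key : ∀ q ∈ Icc 51 Q, -(24 * ((q : ℝ) * (3 / 4 : ℝ) ^ q)) * ((2 * (Q : ℝ) - 1) * γ) ≤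
      vv Q q * y q * (3 * (Q : ℝ) - 1 - 2 * q) := by
    intro q hq
    obtain ⟨h1, h2⟩ := mem_Icc.mp hq
    have h1' : (51 : ℝ) ≤ q := by exact_mod_cast h1
    have h2' : (q : ℝ) ≤ Q := by exact_mod_cast h2
    have h3 : 0 ≤ 3 * (Q : ℝ) - 1 - 2 * q := by linarith
    have hy0 := hy q h2
    rcases Nat.even_or_odd q with he | _
    · have h4 := vv_even_nonneg Q q (by omega) h2 (by omega) he
      have h5 : 0 ≤ vv Q q * y q * (3 * (Q : ℝ) - 1 - 2 * q) := by positivity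
      have h6 : 0 ≤ 24 * ((q : ℝ) * (3 / 4 : ℝ) ^ q) * ((2 * (Q : ℝ) - 1) * γ) := by positivity
      linarith
    · have h4 := vv_abs_le Q q (by omega) h2 (by omega)
      have h5 := cgv_zero_row Q q (by omega) h2
      have h6 := hb q 0 (by omega)
      rw [Nat.add_zero] at h6
      have h7 : y q ≤ γ * (2 * (3 / 2 : ℝ) ^ q) := by
        have h8 : y q * 1 ≤ y q * ((cgv (2 * Q - 2) Q q 0 0 q) ^ 2 * (2 * (3 / 2 : ℝ) ^ q)) :=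
          mul_le_mul_of_nonneg_left h5 hy0
        calc y q = y q * 1 := (mul_one _).symm
          _ ≤ _ := h8
          _ = (y q * (cgv (2 * Q - 2) Q q 0 0 q) ^ 2) * (2 * (3 / 2 : ℝ) ^ q) := by ring
          _ ≤ γ * (2 * (3 / 2 : ℝ) ^ q) := by gcongr
      have h9 : 3 * (Q : ℝ) - 1 - 2 * q ≤ 2 * (2 * (Q : ℝ) - 1) := by linarith
      have h10 : |vv Q q| * y q * (3 * (Q : ℝ) - 1 - 2 * q) ≤
          (6 * q / 2 ^ q) * (γ * (2 * (3 / 2 : ℝ) ^ q)) * (2 * (2 * (Q : ℝ) - 1)) := by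
        gcongr
      have h11 : (6 * q / 2 ^ q) * (γ * (2 * (3 / 2 : ℝ) ^ q)) * (2 * (2 * (Q : ℝ) - 1)) =
          24 * ((q : ℝ) * (3 / 4 : ℝ) ^ q) * ((2 * (Q : ℝ) - 1) * γ) := by
        rw [show (3 / 4 : ℝ) = (3 / 2) / 2 by norm_num, div_pow (3 / 2 : ℝ) 2 q]
        ring
      have h12 : -(|vv Q q| * y q * (3 * (Q : ℝ) - 1 - 2 * q)) ≤
          vv Q q * y q * (3 * (Q : ℝ) - 1 - 2 * q) := by
        have h13 := neg_abs_le (vv Q q)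
        have h14 : 0 ≤ y q * (3 * (Q : ℝ) - 1 - 2 * q) := mul_nonneg hy0 h3
        nlinarith
      linarith
  calc -(24 / 10000) * (2 * (Q : ℝ) - 1) * γ
      = -((24 / 10000) * ((2 * (Q : ℝ) - 1) * γ)) := by ring
    _ ≤ -((∑ q ∈ Icc 51 Q, 24 * ((q : ℝ) * (3 / 4 : ℝ) ^ q)) * ((2 * (Q : ℝ) - 1) * γ)) := by
        have := tailFar_tail Q (by omega)
        gcongr
    _ = ∑ q ∈ Icc 51 Q, -(24 * ((q : ℝ) * (3 / 4 : ℝ) ^ q)) * ((2 * (Q : ℝ) - 1) * γ) := by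
        rw [← sum_mul, sum_neg_distrib]
        ring
    _ ≤ _ := sum_le_sum key

end Vale.Agent.P359
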