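import Vale.Agent.Lib.P359.WwCov

/-!
# P359 / VEig : the impurity–electron interaction is channel-diagonal with eigenvalues `vv Q q`

* symmetric: `VV y x = -Σ_k w_s(k,m') w_r(k,m) = VV x y`.
* commutes with `E2 (2Q-2) Q`: write `x=(r,m')`, `y=(s,m)`.
  `(V E)_{x,y} = Σ_t V_{x,(t,m)} E_{t s} + Σ_n V_{x,(s,n)} E_{n m}`
  `= -Σ_k [ w_r(k,m) Σ_t E_{ts} w_t(k,m') + Σ_n E_{nm} w_r(k,n) w_s(k,m') ]`, and by `ww_raise`
  `Σ_t E_{ts} w_t(k,m') = Σ_{k'} E_{k k'} w_s(k',m') + Σ_n E_{m' n} w_s(k,n)`.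
  `(E V)_{x,y} = Σ_t E_{r t} V_{(t,m'),y} + Σ_n E_{m' n} V_{(r,n),y}`
  `= -Σ_k [ Σ_t E_{rt} w_t(k,m) w_s(k,m') + Σ_n E_{m' n} w_r(k,m) w_s(k,n) ]`, and by `ww_lower`
  `Σ_t E_{rt} w_t(k,m) = Σ_{k'} E_{k' k} w_r(k',m) + Σ_n E_{n m} w_r(k,n)`.
  The two are equal after exchanging the names `k`, `k'` in the double sum.
* so `spectral` applies with `A = 2Q-2`, `B = Q` (`Q ≥ 2`), and the eigenvalue is read off from the
  component `(0,q)` of `V u_{q0} = v u_{q0}` : row `(0,q)` of `V` has only the two entries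
  `V_{(0,q),(q-1,1)} = -w_0(0,1) w_{q-1}(0,q)` and `V_{(0,q),(q,0)} = -w_0(1,0) w_q(1,q)`
  on the weight space `s + m = q`.
  With `u_{q0}(r,q-r) ∝ (-1)^r C(q,r)/√(C(2Q-2,r) C(Q,q-r))`,
  `w_0(0,1) = 1`, `w_{q-1}(0,q) = q √(C(Q,q)/(Q C(2Q-2,q-1)))`,
  `w_q(1,q) = (q-1) √(C(Q,q)/C(2Q-2,q))` one gets
  `v = (-1)^q [ q² C(Q,q)/(Q C(2Q-2,q-1)) + (q-1) C(Q,q)/C(2Q-2,q) ] = vv Q q`,
  using `C(2Q-2,q) q = C(2Q-2,q-1) (2Q-1-q)`.  (For `q = 0`: `v = -1`.)
-/

namespace Vale.Agent.P359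

open Finset Matrix

theorem VV_symm (Q : ℕ) : (VV Q)ᵀ = VV Q := by
  ext x y
  simp only [Matrix.transpose_apply, VV]
  congr 1
  refine Finset.sum_congr rfl fun k _ => ?_
  rw [mul_comm]

private theorem VV_E2_left (Q : ℕ) (r s : Fin (2 * Q - 2 + 1)) (m' m : Fin (Q + 1)) :
    (VV Q * E2 (2 * Q - 2) Q) (r, m') (s, m) =
      (∑ t : Fin (2 * Q - 2 + 1), VV Q (r, m') (t, m) * Emat (2 * Q - 2) t s) +
        ∑ n : Fin (Q + 1), VV Q (r, m') (s, n) * Emat Q n m := by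
  rw [Matrix.mul_apply, Fintype.sum_prod_type]
  simp only [E2, mul_add, Finset.sum_add_distrib]
  congr 1
  · refine Finset.sum_congr rfl fun t _ => ?_
    rw [Finset.sum_eq_single m]
    · simp
    · intro n _ hn
      simp [hn]
    · intro h
      exact absurd (Finset.mem_univ _) h
  · rw [Finset.sum_eq_single s]
    · simp
    · intro t _ ht
      simp [ht]
    · intro h
      exact absurd (Finset.mem_univ _) h

private theorem VV_E2_right (Q : ℕ) (r s : Fin (2 * Q - 2 + 1)) (m' m : Fin (Q + 1)) :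
    (E2 (2 * Q - 2) Q * VV Q) (r, m') (s, m) =
      (∑ t : Fin (2 * Q - 2 + 1), Emat (2 * Q - 2) r t * VV Q (t, m') (s, m)) +
        ∑ n : Fin (Q + 1), Emat Q m' n * VV Q (r, n) (s, m) := by
  rw [Matrix.mul_apply, Fintype.sum_prod_type]
  simp only [E2, add_mul, Finset.sum_add_distrib]
  congr 1
  · refine Finset.sum_congr rfl fun t _ => ?_
    rw [Finset.sum_eq_single m']
    · simp
    · intro n _ hn
      simp [hn.symm]
    · intro h
      exact absurd (Finset.mem_univ _) h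
  · rw [Finset.sum_eq_single r]
    · simp
    · intro t _ ht
      simp [ht.symm]
    · intro h
      exact absurd (Finset.mem_univ _) h

theorem VV_comm (Q : ℕ) (hQ : 2 ≤ Q) : VV Q * E2 (2 * Q - 2) Q = E2 (2 * Q - 2) Q * VV Q := by
  have hQ1 : 1 ≤ Q := by omega
  ext ⟨r, m'⟩ ⟨s, m⟩
  rw [VV_E2_left, VV_E2_right]
  simp only [VV, neg_mul, mul_neg, Finset.sum_neg_distrib]
  rw [← neg_add, ← neg_add]
  congr 1
  -- exchange the sums
  have h1 : (∑ t : Fin (2 * Q - 2 + 1), (∑ k : Fin (Q + 1), ww Q r k m * ww Q t k m') *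
      Emat (2 * Q - 2) t s) = ∑ k : Fin (Q + 1), ww Q r k m *
        ((∑ k' : Fin (Q + 1), Emat Q k k' * ww Q s k' m') +
          ∑ n : Fin (Q + 1), Emat Q m' n * ww Q s k n) := by
    simp_rw [Finset.sum_mul]
    rw [Finset.sum_comm]
    refine Finset.sum_congr rfl fun k _ => ?_
    rw [ww_raise Q hQ1 s k m', Finset.mul_sum]
    refine Finset.sum_congr rfl fun t _ => ?_
    ring
  have h2 : (∑ n : Fin (Q + 1), (∑ k : Fin (Q + 1), ww Q r k n * ww Q s k m') * Emat Q n m) =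
      ∑ k : Fin (Q + 1), ww Q s k m' * ∑ n : Fin (Q + 1), Emat Q n m * ww Q r k n := by
    simp_rw [Finset.sum_mul]
    rw [Finset.sum_comm]
    refine Finset.sum_congr rfl fun k _ => ?_
    rw [Finset.mul_sum]
    refine Finset.sum_congr rfl fun t _ => ?_
    ring
  have h3 : (∑ t : Fin (2 * Q - 2 + 1), Emat (2 * Q - 2) r t *
      ∑ k : Fin (Q + 1), ww Q t k m * ww Q s k m') = ∑ k : Fin (Q + 1), ww Q s k m' *
        ((∑ k' : Fin (Q + 1), Emat Q k' k * ww Q r k' m) +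
          ∑ n : Fin (Q + 1), Emat Q n m * ww Q r k n) := by
    simp_rw [Finset.mul_sum]
    rw [Finset.sum_comm]
    refine Finset.sum_congr rfl fun k _ => ?_
    rw [ww_lower Q hQ1 r k m, Finset.mul_sum]
    refine Finset.sum_congr rfl fun t _ => ?_
    ring
  have h4 : (∑ n : Fin (Q + 1), Emat Q m' n * ∑ k : Fin (Q + 1), ww Q r k m * ww Q s k n) =
      ∑ k : Fin (Q + 1), ww Q r k m * ∑ n : Fin (Q + 1), Emat Q m' n * ww Q s k n := by
    simp_rw [Finset.mul_sum]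
    rw [Finset.sum_comm]
    refine Finset.sum_congr rfl fun k _ => ?_
    refine Finset.sum_congr rfl fun t _ => ?_
    ring
  have h5 : (∑ k : Fin (Q + 1), ww Q r k m * ∑ k' : Fin (Q + 1), Emat Q k k' * ww Q s k' m') =
      ∑ k : Fin (Q + 1), ww Q s k m' * ∑ k' : Fin (Q + 1), Emat Q k' k * ww Q r k' m := by
    simp_rw [Finset.mul_sum]
    rw [Finset.sum_comm]
    refine Finset.sum_congr rfl fun k _ => ?_
    refine Finset.sum_congr rfl fun t _ => ?_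
    ring
  rw [h1, h2, h3, h4]
  simp_rw [mul_add, Finset.sum_add_distrib]
  rw [h5]
  ring

end Vale.Agent.P359
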